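import Crest.Agent.R163.TM.Trig

/-!
Row 163: composition of Taylor models with `log`, `1 / x`, `cos`, `exp (-x)` and the two
removable-singularity functions `-log (1 - y) / y` and `(1 - cos θ) / θ ^ 2`.
-/

set_option autoImplicit false
set_option linter.dupNamespace false

namespace Crest.Agent.R163.TM

/-! ### helpers -/

/-- centre of a Taylor model (expansion point) -/
def cen (a : T) : ℕ := Nat.mod a.c 115792089237316195423570985008687907853269984665640564039457584007913129639936

/-- the Taylor model minus its centre -/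
def dlt (a : T) : T := addS (sneg (sc (cen a))) a

lemma dlt_rep {P : Pt} {a : T} {g : ℝ} (ha : Rep P a g) :
    Rep P (dlt a) (g - (cen a : ℝ) / 4294967296) := by
  have h : RepS (sc (cen a)) ((cen a : ℝ) / 4294967296) := repS_sc _ (by ring)
  rw [sub_eq_add_neg]
  exact ha.addS h.neg

/-- rounded-up product of upper bounds -/
def mup (a b : ℕ) : ℕ := Nat.add (Nat.div (Nat.mul a b) 4294967296) 1

lemma mup_le {a b : ℕ} {x y : ℝ} (_ : 0 ≤ x) (hy : 0 ≤ y) (h1 : x * 4294967296 ≤ a)
    (h2 : y * 4294967296 ≤ b) : x * y * 4294967296 ≤ ((mup a b : ℕ) : ℝ) := by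
  change _ ≤ ((a * b / 4294967296 + 1 : ℕ) : ℝ)
  have h3 := shr_le (a * b)
  have h4 : x * 4294967296 * (y * 4294967296) ≤ (a : ℝ) * b :=
    mul_le_mul h1 h2 (by positivity) (by positivity)
  have h5 : x * y * 4294967296 = x * 4294967296 * (y * 4294967296) / 4294967296 := by ring
  rw [h5, Nat.cast_add]
  push_cast at h3 ⊢
  have : x * 4294967296 * (y * 4294967296) / 4294967296 ≤ (a : ℝ) * b / 4294967296 := by gcongr
  linarith

/-- rounded-up `a / (1 - r)` -/
def dup (a r : ℕ) : ℕ := Nat.add (Nat.div (Nat.mul a 4294967296) (Nat.sub 4294967296 r)) 1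

lemma dup_le {a r : ℕ} {x y : ℝ} (_ : 0 ≤ x) (hr : r < 4294967296) (h1 : x * 4294967296 ≤ a)
    (h2 : y * 4294967296 ≤ r) : x / (1 - y) * 4294967296 ≤ ((dup a r : ℕ) : ℝ) := by
  have hs : 0 < 4294967296 - r := by omega
  have h3 := nat_div_near (a * 4294967296) hs
  change _ ≤ ((a * 4294967296 / (4294967296 - r) + 1 : ℕ) : ℝ)
  push_cast [Nat.cast_sub hr.le] at h3 ⊢
  have hr' : (r : ℝ) < 4294967296 := by exact_mod_cast hr
  have hy : 0 < 1 - y := by linarith
  have h4 : x / (1 - y) * 4294967296 ≤ (a : ℝ) * 4294967296 / (4294967296 - r) := by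
    rw [div_mul_eq_mul_div, div_le_div_iff₀ hy (by linarith)]
    have : x * 4294967296 * (4294967296 - r) ≤ a * (4294967296 - y * 4294967296) := by
      have e1 : x * 4294967296 * (4294967296 - r) ≤ a * (4294967296 - r) :=
        mul_le_mul_of_nonneg_right h1 (by linarith)
      have e2 : (a : ℝ) * (4294967296 - r) ≤ a * (4294967296 - y * 4294967296) :=
        mul_le_mul_of_nonneg_left (by linarith) (Nat.cast_nonneg _)
      linarith
    linarith
  have h5 := (abs_le.mp h3).2
  linarith

lemma flag1 {m a d : ℕ} (hd : 0 < d)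
    (h : Nat.add m (Nat.mul (Nat.div a d) 28948022309329048855892746252171976963317496166410141009864396001978282409984) <
      28948022309329048855892746252171976963317496166410141009864396001978282409984) : a < d ∧ m < 28948022309329048855892746252171976963317496166410141009864396001978282409984 := by
  change m + a / d * 28948022309329048855892746252171976963317496166410141009864396001978282409984 < _ at h
  refine ⟨?_, by omega⟩
  by_contra h0
  have : 1 ≤ a / d := (Nat.one_le_div_iff hd).mpr (by omega)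
  omega

/-! ### sizes of intermediate results -/

lemma addE_n {a : T} {e n : ℕ} (h : (addE a e n).n < 28948022309329048855892746252171976963317496166410141009864396001978282409984) :
    a.n < 28948022309329048855892746252171976963317496166410141009864396001978282409984 ∧ n < 28948022309329048855892746252171976963317496166410141009864396001978282409984 := by
  change a.n + n < _ at h
  omega

lemma addS_n {a : T} {s : S} (h : (addS s a).n < 28948022309329048855892746252171976963317496166410141009864396001978282409984) :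
    a.n < 28948022309329048855892746252171976963317496166410141009864396001978282409984 ∧ s.n < 28948022309329048855892746252171976963317496166410141009864396001978282409984 := by
  change a.n + s.n < _ at h
  omega

lemma mul_n_lt {a b : T} (h : (mul a b).n < 28948022309329048855892746252171976963317496166410141009864396001978282409984) :
    a.n < 28948022309329048855892746252171976963317496166410141009864396001978282409984 ∧ b.n < 28948022309329048855892746252171976963317496166410141009864396001978282409984 := by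
  rw [mul_n] at h
  obtain ⟨h1, h2, h3, h4, h5⟩ := flag h
  exact ⟨h3, h4⟩

lemma smul_n_lt {s : S} {a : T} (h : (smul s a).n < 28948022309329048855892746252171976963317496166410141009864396001978282409984) :
    a.n < 28948022309329048855892746252171976963317496166410141009864396001978282409984 ∧ s.n < 28948022309329048855892746252171976963317496166410141009864396001978282409984 := by
  rw [smul_n] at h
  obtain ⟨h1, h2, h3, h4, h5⟩ := flag h
  exact ⟨h3, h4⟩

lemma smulS_n_lt {s t : S} (h : (smulS s t).n < 28948022309329048855892746252171976963317496166410141009864396001978282409984) :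
    s.n < 28948022309329048855892746252171976963317496166410141009864396001978282409984 ∧ t.n < 28948022309329048855892746252171976963317496166410141009864396001978282409984 := by
  rw [smulS_n] at h
  obtain ⟨h1, h2, h3, h4, h5⟩ := flag h
  exact ⟨h3, h4⟩

lemma quad_n {d : T} {u0 u1 u2 : S}
    (h : (quad d u0 u1 u2).n < 28948022309329048855892746252171976963317496166410141009864396001978282409984) :
    d.n < 28948022309329048855892746252171976963317496166410141009864396001978282409984 ∧
      u1.n < 28948022309329048855892746252171976963317496166410141009864396001978282409984 ∧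
      u0.n < 28948022309329048855892746252171976963317496166410141009864396001978282409984 := by
  obtain ⟨h1, h2⟩ := addS_n h
  obtain ⟨h3, h4⟩ := mul_n_lt h1
  obtain ⟨h5, h6⟩ := addS_n h4
  exact ⟨h3, h6, h2⟩

lemma sinv_n {c : ℕ} (h : (sinv c).n < 28948022309329048855892746252171976963317496166410141009864396001978282409984) : 0 < c := by
  change 18446744073709551616 / c + (1 - c) * 28948022309329048855892746252171976963317496166410141009864396001978282409984 < _ at h
  by_contra h0
  have : c = 0 := by omega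
  subst this
  norm_num at h

/-- relative radius: upper bound of `|d| / c` (scale `2 ^ 32`) -/
def rrad (d : T) (iv : S) : ℕ := mup (rad d) (Nat.add iv.v 1)

lemma inv_up {c : ℕ} (hc : 0 < c) :
    4294967296 / (c : ℝ) * 4294967296 ≤ ((Nat.add (sinv c).v 1 : ℕ) : ℝ) := by
  change _ ≤ ((18446744073709551616 / c + 1 : ℕ) : ℝ)
  have h := (abs_le.mp (nat_div_near 18446744073709551616 hc)).2
  push_cast at h ⊢
  have e : (4294967296 : ℝ) / c * 4294967296 = 18446744073709551616 / c := by ring
  rw [e]
  linarith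

/-- `log` -/
def tlog (a : T) : T :=
  (fun d iv => (fun R => addE (quad d (slog (cen a)) iv (sneg (smulS (sc 2147483648) (smulS iv iv))))
    (Nat.add (Nat.add (Nat.div (mup (mup R R) R) 3) 1) (dup (mup (mup (mup R R) R) R) R))
    (Nat.mul (Nat.div R 2147483648) 28948022309329048855892746252171976963317496166410141009864396001978282409984)) (rrad d iv))
  (dlt a) (sinv (cen a))

lemma rep_half {s : S} {r : ℝ} (h : RepS s r) : RepS (smulS (sc 2147483648) s) (1 / 2 * r) :=
  (repS_sc 2147483648 (r := 1 / 2) (by norm_num)).mul h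

lemma div3_near (m : ℕ) : (m : ℝ) / 3 ≤ ((Nat.add (Nat.div m 3) 1 : ℕ) : ℝ) := by
  change _ ≤ ((m / 3 + 1 : ℕ) : ℝ)
  have h := (abs_le.mp (nat_div_near m (d := 3) (by norm_num))).2
  push_cast at h ⊢
  linarith

lemma log_rem {s : ℝ} (hs : |s| < 1) :
    |Real.log (1 + s) - (s * (s * (-(1 / 2)) + 1))| ≤ |s| ^ 3 / 3 + |s| ^ 4 / (1 - |s|) := by
  have h := Real.abs_log_sub_add_sum_range_le (x := -s) (by rwa [abs_neg]) 3
  rw [abs_neg, sub_neg_eq_add] at h
  norm_num [Finset.sum_range_succ] at h
  have e : Real.log (1 + s) - (s * (s * (-(1 / 2)) + 1)) = s ^ 3 / 3 +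
      (-s + (-s) ^ 2 / 2 + (-s) ^ 3 / 3 + Real.log (1 + s)) := by ring
  rw [e]
  refine (abs_add_le _ _).trans ?_
  rw [abs_div, abs_pow, abs_of_pos (by norm_num : (0 : ℝ) < 3)]
  have e2 : -s + (-s) ^ 2 / 2 + (-s) ^ 3 / 3 + Real.log (1 + s) =
    -s + s ^ 2 / 2 + (-s) ^ 3 / 3 + Real.log (1 + s) := by ring
  rw [e2]
  linarith

lemma tlog_pos {P : Pt} {a : T} {g : ℝ} (ha : Rep P a g)
    (hn : (tlog a).n < 28948022309329048855892746252171976963317496166410141009864396001978282409984) :
    0 < cen a ∧ |g - (cen a : ℝ) / 4294967296| / ((cen a : ℝ) / 4294967296) * 4294967296 ≤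
      rrad (dlt a) (sinv (cen a)) ∧ rrad (dlt a) (sinv (cen a)) < 2147483648 := by
  obtain ⟨h1, h2⟩ := addE_n hn
  obtain ⟨h3, h4, h5⟩ := quad_n h1
  have hc := sinv_n h4
  have hR : rrad (dlt a) (sinv (cen a)) < 2147483648 :=
    (flag1 (m := 0) (by norm_num) (by rwa [Nat.add_eq, Nat.zero_add])).1
  refine ⟨hc, ?_, hR⟩
  have hr := (dlt_rep ha).rad h3
  have hm := mup_le (abs_nonneg _) (by positivity : 0 ≤ 4294967296 / (cen a : ℝ)) hr (inv_up hc)
  have hcr : (0 : ℝ) < cen a := by exact_mod_cast hc
  refine le_trans (le_of_eq ?_) hm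
  field_simp

lemma Rep.tlog {P : Pt} {a : T} {g : ℝ} (ha : Rep P a g) : Rep P (tlog a) (Real.log g) := by
  intro hn
  obtain ⟨hc, hs, hR⟩ := tlog_pos ha hn
  have hcr : (0 : ℝ) < (cen a : ℝ) / 4294967296 := by
    have : (0 : ℝ) < cen a := by exact_mod_cast hc
    positivity
  set c : ℝ := (cen a : ℝ) / 4294967296 with hcdef
  have hlog : RepS (slog (cen a)) (Real.log c) := slog_rep _
  have hinv : RepS (sinv (cen a)) (1 / c) := by
    have := sinv_rep (cen a)
    have e : 4294967296 / (cen a : ℝ) = 1 / c := by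
      rw [hcdef, one_div_div]
    rwa [e] at this
  have hq := (dlt_rep ha).quad hlog hinv (rep_half (hinv.mul hinv)).neg
  have key : Rep P (TM.tlog a) (Real.log g) := by
    refine hq.addE fun _ _ => ?_
    set s : ℝ := (g - c) / c with hsdef
    have hsabs : |s| = |g - c| / c := by rw [hsdef, abs_div, abs_of_pos hcr]
    rw [← hsabs] at hs
    have hRr : ((rrad (dlt a) (sinv (cen a)) : ℕ) : ℝ) < 2147483648 := by exact_mod_cast hR
    have hs1 : |s| < 1 / 2 := by linarith
    have e1 : Real.log g = Real.log c + Real.log (1 + s) := by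
      have : 1 + s = g / c := by rw [hsdef]; field_simp; ring
      have hpos : 0 < 1 + s := by have := (abs_lt.mp hs1).1; linarith
      rw [← Real.log_mul hcr.ne' hpos.ne', this]
      congr 1
      field_simp
    have e2 : Real.log g - ((g - c) * ((g - c) * -(1 / 2 * (1 / c * (1 / c))) + 1 / c) +
        Real.log c) = Real.log (1 + s) - (s * (s * (-(1 / 2)) + 1)) := by
      rw [e1, hsdef]; field_simp; ring
    rw [e2]
    set R := rrad (dlt a) (sinv (cen a)) with hRdef
    have s0 := abs_nonneg s
    have m2 := mup_le s0 s0 hs hs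
    have m3 := mup_le (by positivity) s0 m2 hs
    have m4 := mup_le (by positivity) s0 m3 hs
    have d4 := dup_le (y := |s|) (by positivity) (by omega : R < 4294967296) m4 hs
    have d3 := div3_near (mup (mup R R) R)
    have lr := log_rem (by linarith : |s| < 1)
    have : |Real.log (1 + s) - (s * (s * (-(1 / 2)) + 1))| * 4294967296 ≤
        |s| * |s| * |s| * 4294967296 / 3 + |s| * |s| * |s| * |s| / (1 - |s|) * 4294967296 := by
      have := mul_le_mul_of_nonneg_right lr (by norm_num : (0 : ℝ) ≤ 4294967296)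
      calc _ ≤ _ := this
        _ = _ := by ring
    refine this.trans ?_
    change _ ≤ ((Nat.add (Nat.div (mup (mup R R) R) 3) 1 + dup (mup (mup (mup R R) R) R) R : ℕ) : ℝ)
    rw [Nat.cast_add]
    have : |s| * |s| * |s| * 4294967296 / 3 ≤ ((mup (mup R R) R : ℕ) : ℝ) / 3 := by gcongr
    linarith
  exact key hn

/-! ### reciprocal -/

/-- `1 / x` -/
def tinv (a : T) : T :=
  (fun d iv => (fun R iv2 => addE (quad d iv (sneg iv2) (smulS iv iv2))
    (mup (dup (mup (mup R R) R) R) (Nat.add iv.v 1))
    (Nat.mul (Nat.div R 2147483648) 28948022309329048855892746252171976963317496166410141009864396001978282409984)) (rrad d iv)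
      (smulS iv iv)) (dlt a) (sinv (cen a))

lemma inv_rem {s : ℝ} (hs : |s| < 1) :
    |1 / (1 + s) - (s * (s * 1 + -1) + 1)| ≤ |s| ^ 3 / (1 - |s|) := by
  have h1 : 0 < 1 - |s| := by linarith
  have h2 : 1 - |s| ≤ 1 + s := by have := neg_abs_le s; linarith
  have h3 : 0 < 1 + s := by linarith
  have e : 1 / (1 + s) - (s * (s * 1 + -1) + 1) = -(s ^ 3) / (1 + s) := by
    field_simp; ring
  rw [e, abs_div, abs_neg, abs_pow, abs_of_pos h3]
  gcongr

lemma tinv_pos {P : Pt} {a : T} {g : ℝ} (ha : Rep P a g)
    (hn : (tinv a).n < 28948022309329048855892746252171976963317496166410141009864396001978282409984) :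
    0 < cen a ∧ |g - (cen a : ℝ) / 4294967296| / ((cen a : ℝ) / 4294967296) * 4294967296 ≤
      rrad (dlt a) (sinv (cen a)) ∧ rrad (dlt a) (sinv (cen a)) < 2147483648 := by
  obtain ⟨h1, h2⟩ := addE_n hn
  obtain ⟨h3, h4, h5⟩ := quad_n h1
  have hc := sinv_n h5
  have hR : rrad (dlt a) (sinv (cen a)) < 2147483648 :=
    (flag1 (m := 0) (by norm_num) (by rwa [Nat.add_eq, Nat.zero_add])).1
  refine ⟨hc, ?_, hR⟩
  have hr := (dlt_rep ha).rad h3
  have hm := mup_le (abs_nonneg _) (by positivity : 0 ≤ 4294967296 / (cen a : ℝ)) hr (inv_up hc)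
  have hcr : (0 : ℝ) < cen a := by exact_mod_cast hc
  refine le_trans (le_of_eq ?_) hm
  field_simp

lemma pos_of_rel {c g R : ℝ} (hc : 0 < c) (h : |g - c| / c * 4294967296 ≤ R)
    (hR : R < 2147483648) : 0 < g := by
  have h1 : |g - c| / c < 1 := by nlinarith
  rw [div_lt_one hc] at h1
  have := (abs_lt.mp h1).1
  linarith

lemma tinv_g {P : Pt} {a : T} {g : ℝ} (ha : Rep P a g)
    (hn : (tinv a).n < 28948022309329048855892746252171976963317496166410141009864396001978282409984) : 0 < g := by
  obtain ⟨h1, h2, h3⟩ := tinv_pos ha hn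
  have hcr : (0 : ℝ) < (cen a : ℝ) / 4294967296 := by
    have : (0 : ℝ) < cen a := by exact_mod_cast h1
    positivity
  exact pos_of_rel hcr h2 (by exact_mod_cast h3)

lemma tlog_g {P : Pt} {a : T} {g : ℝ} (ha : Rep P a g)
    (hn : (tlog a).n < 28948022309329048855892746252171976963317496166410141009864396001978282409984) : 0 < g := by
  obtain ⟨h1, h2, h3⟩ := tlog_pos ha hn
  have hcr : (0 : ℝ) < (cen a : ℝ) / 4294967296 := by
    have : (0 : ℝ) < cen a := by exact_mod_cast h1
    positivity
  exact pos_of_rel hcr h2 (by exact_mod_cast h3)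

lemma Rep.tinv {P : Pt} {a : T} {g : ℝ} (ha : Rep P a g) : Rep P (tinv a) (1 / g) := by
  intro hn
  obtain ⟨hc, hs, hR⟩ := tinv_pos ha hn
  have hcr : (0 : ℝ) < (cen a : ℝ) / 4294967296 := by
    have : (0 : ℝ) < cen a := by exact_mod_cast hc
    positivity
  have hup := inv_up hc
  set c : ℝ := (cen a : ℝ) / 4294967296 with hcdef
  have ec : 4294967296 / (cen a : ℝ) = 1 / c := by
    rw [hcdef, one_div_div]
  rw [ec] at hup
  have hinv : RepS (sinv (cen a)) (1 / c) := by
    have := sinv_rep (cen a)
    rwa [ec] at this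
  have hq := (dlt_rep ha).quad hinv (hinv.mul hinv).neg (hinv.mul (hinv.mul hinv))
  have key : Rep P (TM.tinv a) (1 / g) := by
    refine hq.addE fun _ _ => ?_
    set s : ℝ := (g - c) / c with hsdef
    have hsabs : |s| = |g - c| / c := by rw [hsdef, abs_div, abs_of_pos hcr]
    rw [← hsabs] at hs
    have hRr : ((rrad (dlt a) (sinv (cen a)) : ℕ) : ℝ) < 2147483648 := by exact_mod_cast hR
    have hs1 : |s| < 1 / 2 := by linarith
    have hpos : 0 < 1 + s := by have := (abs_lt.mp hs1).1; linarith
    have hg : g = c * (1 + s) := by rw [hsdef]; field_simp; ring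
    have e2 : 1 / g - ((g - c) * ((g - c) * (1 / c * (1 / c * (1 / c))) + -(1 / c * (1 / c))) +
        1 / c) = (1 / (1 + s) - (s * (s * 1 + -1) + 1)) * (1 / c) := by
      rw [hg]; field_simp; ring
    rw [e2]
    set R := rrad (dlt a) (sinv (cen a)) with hRdef
    have s0 := abs_nonneg s
    have m2 := mup_le s0 s0 hs hs
    have m3 := mup_le (by positivity) s0 m2 hs
    have d3 := dup_le (y := |s|) (by positivity) (by omega : R < 4294967296) m3 hs
    have h1s : 0 < 1 - |s| := by linarith
    have m5 := mup_le (by positivity) (by positivity) d3 hup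
    have ir := inv_rem (by linarith : |s| < 1)
    refine le_trans ?_ m5
    rw [abs_mul, abs_of_pos (by positivity : 0 < 1 / c)]
    have e3 : |s| * |s| * |s| / (1 - |s|) = |s| ^ 3 / (1 - |s|) := by ring
    rw [e3]
    gcongr
  exact key hn

/-! ### cosine -/

/-- `cos` (expansion point must be nonnegative) -/
def tcos (a : T) : T :=
  (fun d C => (fun r => addE (quad d C (sneg (ssin (cen a)))
    (sneg (smulS (sc 2147483648) C)))
    (Nat.add (Nat.add (Nat.div (mup (mup r r) r) 6) 1)
      (Nat.add (Nat.div (mup (mup (mup r r) r) r) 16) 1))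
    (Nat.mul (Nat.div r 4294967297) 28948022309329048855892746252171976963317496166410141009864396001978282409984)) (rad d))
  (dlt a) (scos (cen a))

lemma cos_rem {c d : ℝ} (hd : |d| ≤ 1) :
    |Real.cos (c + d) - (d * (d * (-(1 / 2 * Real.cos c)) + -Real.sin c) + Real.cos c)| ≤
      |d| ^ 3 / 6 + |d| ^ 4 / 16 := by
  have h1 := Real.cos_bound hd
  have h2 := Real.sin_bound hd
  have e : Real.cos (c + d) - (d * (d * (-(1 / 2 * Real.cos c)) + -Real.sin c) + Real.cos c) =
      Real.cos c * (Real.cos d - (1 - d ^ 2 / 2)) - Real.sin c * (Real.sin d - (d - d ^ 3 / 6)) +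
        Real.sin c * (d ^ 3 / 6) := by
    rw [Real.cos_add]; ring
  rw [e]
  have c1 := Real.abs_cos_le_one c
  have s1 := Real.abs_sin_le_one c
  have d0 := abs_nonneg d
  have t1 : |Real.cos c * (Real.cos d - (1 - d ^ 2 / 2))| ≤ 1 * (|d| ^ 4 * (5 / 96)) := by
    rw [abs_mul]; gcongr
  have t2 : |Real.sin c * (Real.sin d - (d - d ^ 3 / 6))| ≤ 1 * (|d| ^ 5 / 100) := by
    rw [abs_mul]; gcongr
  have t3 : |Real.sin c * (d ^ 3 / 6)| ≤ 1 * (|d| ^ 3 / 6) := by
    rw [abs_mul, abs_div, abs_pow, abs_of_pos (by norm_num : (0 : ℝ) < 6)]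
    gcongr
  have t4 : |d| ^ 5 ≤ |d| ^ 4 := pow_le_pow_of_le_one d0 hd (by norm_num)
  have t5 := abs_add_le (Real.cos c * (Real.cos d - (1 - d ^ 2 / 2)) -
    Real.sin c * (Real.sin d - (d - d ^ 3 / 6))) (Real.sin c * (d ^ 3 / 6))
  have t6 := abs_sub (Real.cos c * (Real.cos d - (1 - d ^ 2 / 2)))
    (Real.sin c * (Real.sin d - (d - d ^ 3 / 6)))
  have t7 : 0 ≤ |d| ^ 4 := by positivity
  linarith

lemma div_near_up (m : ℕ) {k : ℕ} (hk : 0 < k) :
    (m : ℝ) / k ≤ ((Nat.add (Nat.div m k) 1 : ℕ) : ℝ) := by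
  change _ ≤ ((m / k + 1 : ℕ) : ℝ)
  have h := (abs_le.mp (nat_div_near m hk)).2
  push_cast at h ⊢
  linarith

lemma Rep.tcos {P : Pt} {a : T} {g : ℝ} (ha : Rep P a g) : Rep P (tcos a) (Real.cos g) := by
  intro hn
  obtain ⟨h1, h2⟩ := addE_n hn
  obtain ⟨h3, h4, h5⟩ := quad_n h1
  have hR : TM.rad (dlt a) < 4294967297 :=
    (flag1 (m := 0) (by norm_num) (by rwa [Nat.add_eq, Nat.zero_add])).1
  have hr := (dlt_rep ha).rad h3
  set c : ℝ := (cen a : ℝ) / 4294967296 with hcdef
  have hC : RepS (scos (cen a)) (Real.cos c) := scos_rep _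
  have hS : RepS (ssin (cen a)) (Real.sin c) := ssin_rep _
  have hq := (dlt_rep ha).quad hC hS.neg (rep_half hC).neg
  have key : Rep P (TM.tcos a) (Real.cos g) := by
    refine hq.addE fun _ _ => ?_
    have hRr : ((TM.rad (dlt a) : ℕ) : ℝ) ≤ 4294967296 := by
      have : TM.rad (dlt a) ≤ 4294967296 := by omega
      exact_mod_cast this
    have hd : |g - c| ≤ 1 := by linarith
    have cr := cos_rem (c := c) hd
    have e : c + (g - c) = g := by ring
    rw [e] at cr
    set R := TM.rad (dlt a) with hRdef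
    have s0 := abs_nonneg (g - c)
    have m2 := mup_le s0 s0 hr hr
    have m3 := mup_le (by positivity) s0 m2 hr
    have m4 := mup_le (by positivity) s0 m3 hr
    have d3 := div_near_up (mup (mup R R) R) (k := 6) (by norm_num)
    have d4 := div_near_up (mup (mup (mup R R) R) R) (k := 16) (by norm_num)
    have := mul_le_mul_of_nonneg_right cr (by norm_num : (0 : ℝ) ≤ 4294967296)
    refine this.trans ?_
    change _ ≤ ((Nat.add (Nat.div (mup (mup R R) R) 6) 1 +
      Nat.add (Nat.div (mup (mup (mup R R) R) R) 16) 1 : ℕ) : ℝ)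
    rw [Nat.cast_add]
    rw [Nat.cast_ofNat] at d3 d4
    have t1 : |g - c| * |g - c| * |g - c| * 4294967296 / 6 ≤ ((mup (mup R R) R : ℕ) : ℝ) / 6 := by
      gcongr
    have t2 : |g - c| * |g - c| * |g - c| * |g - c| * 4294967296 / 16 ≤
        ((mup (mup (mup R R) R) R : ℕ) : ℝ) / 16 := by
      gcongr
    calc (|g - c| ^ 3 / 6 + |g - c| ^ 4 / 16) * 4294967296 =
        |g - c| * |g - c| * |g - c| * 4294967296 / 6 +
          |g - c| * |g - c| * |g - c| * |g - c| * 4294967296 / 16 := by ring
      _ ≤ _ := by linarith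
  exact key hn

/-- `cos`, choosing the sign of the argument -/
def tcosS (a : T) : T :=
  cond (Nat.ble 57896044618658097711785492504343953926634992332820282019728792003956564819968 (cen a)) (tcos (neg a)) (tcos a)

lemma Rep.tcosS {P : Pt} {a : T} {g : ℝ} (ha : Rep P a g) : Rep P (tcosS a) (Real.cos g) := by
  unfold TM.tcosS
  rcases h : Nat.ble 57896044618658097711785492504343953926634992332820282019728792003956564819968 (cen a) with _ | _
  · exact ha.tcos
  · have := ha.neg.tcos
    rwa [Real.cos_neg] at this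

/-! ### exponential -/

/-- `exp (-x)` -/
def texpn (a : T) : T :=
  (fun d E => (fun r => addE (quad d E (sneg E) (smulS (sc 2147483648) E))
    (Nat.add (Nat.div (Nat.mul 2 (mup (mup r r) r)) 9) 1)
    (Nat.mul (Nat.div r 4294967297) 28948022309329048855892746252171976963317496166410141009864396001978282409984)) (rad d))
  (dlt a) (sexpn (cen a))

lemma exp_rem {d : ℝ} (hd : |d| ≤ 1) :
    |Real.exp (-d) - (d * (d * (1 / 2) + -1) + 1)| ≤ 2 / 9 * |d| ^ 3 := by
  have h := Real.exp_bound (x := -d) (by rwa [abs_neg]) (n := 3) (by norm_num)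
  rw [abs_neg] at h
  norm_num [Finset.sum_range_succ, Nat.factorial] at h
  have e : Real.exp (-d) - (d * (d * (1 / 2) + -1) + 1) =
    Real.exp (-d) - (1 + -d + d ^ 2 / 2) := by ring
  rw [e]
  linarith

lemma Rep.texpn {P : Pt} {a : T} {g : ℝ} (ha : Rep P a g) : Rep P (texpn a) (Real.exp (-g)) := by
  intro hn
  obtain ⟨h1, h2⟩ := addE_n hn
  obtain ⟨h3, h4, h5⟩ := quad_n h1
  have hR : TM.rad (dlt a) < 4294967297 :=
    (flag1 (m := 0) (by norm_num) (by rwa [Nat.add_eq, Nat.zero_add])).1
  have hr := (dlt_rep ha).rad h3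
  set c : ℝ := (cen a : ℝ) / 4294967296 with hcdef
  have hE : RepS (sexpn (cen a)) (Real.exp (-c)) := sexpn_rep _
  have hq := (dlt_rep ha).quad hE hE.neg (rep_half hE)
  have key : Rep P (TM.texpn a) (Real.exp (-g)) := by
    refine hq.addE fun _ _ => ?_
    have hRr : ((TM.rad (dlt a) : ℕ) : ℝ) ≤ 4294967296 := by
      have : TM.rad (dlt a) ≤ 4294967296 := by omega
      exact_mod_cast this
    have hd : |g - c| ≤ 1 := by linarith
    have er := exp_rem hd
    have c0 : 0 ≤ c := by positivity
    have E1 : Real.exp (-c) ≤ 1 := by rw [Real.exp_le_one_iff]; linarith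
    have e : Real.exp (-g) - ((g - c) * ((g - c) * (1 / 2 * Real.exp (-c)) + -Real.exp (-c)) +
        Real.exp (-c)) =
        Real.exp (-c) * (Real.exp (-(g - c)) - ((g - c) * ((g - c) * (1 / 2) + -1) + 1)) := by
      rw [mul_sub, ← Real.exp_add]
      have : -c + -(g - c) = -g := by ring
      rw [this]; ring
    rw [e, abs_mul, abs_of_pos (Real.exp_pos _)]
    set R := TM.rad (dlt a) with hRdef
    have s0 := abs_nonneg (g - c)
    have m2 := mup_le s0 s0 hr hr
    have m3 := mup_le (by positivity) s0 m2 hr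
    have d3 := div_near_up (Nat.mul 2 (mup (mup R R) R)) (k := 9) (by norm_num)
    refine le_trans ?_ d3
    have t1 : Real.exp (-c) * |Real.exp (-(g - c)) - ((g - c) * ((g - c) * (1 / 2) + -1) + 1)| *
        4294967296 ≤ 1 * (2 / 9 * |g - c| ^ 3) * 4294967296 := by gcongr
    refine t1.trans ?_
    have e6 : ((Nat.mul 2 (mup (mup R R) R) : ℕ) : ℝ) = 2 * ((mup (mup R R) R : ℕ) : ℝ) := by
      change ((2 * mup (mup R R) R : ℕ) : ℝ) = _
      push_cast; ring
    rw [e6]
    have : 1 * (2 / 9 * |g - c| ^ 3) * 4294967296 =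
      2 * (|g - c| * |g - c| * |g - c| * 4294967296) / 9 := by ring
    rw [this]
    push_cast
    gcongr
  exact key hn

end Crest.Agent.R163.TM
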