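import Crest.Agent.R163.TM.Comp

/-!
Row 163: the removable-singularity functions `-log (1 - y) / y` and `(1 - cos θ) / θ ^ 2`.
-/

set_option autoImplicit false
set_option linter.dupNamespace false

namespace Crest.Agent.R163.TM

/-- `-log (1 - y) / y` -/
noncomputable def lh (y : ℝ) : ℝ := if y = 0 then 1 else -Real.log (1 - y) / y

lemma mul_lh (y : ℝ) : y * lh y = -Real.log (1 - y) := by
  unfold lh
  split_ifs with h
  · rw [h]; simp
  · field_simp

/-- `(1 - cos θ) / θ ^ 2` -/
noncomputable def ch (θ : ℝ) : ℝ := if θ = 0 then 1 / 2 else (1 - Real.cos θ) / θ ^ 2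

lemma sq_mul_ch (θ : ℝ) : θ ^ 2 * ch θ = 1 - Real.cos θ := by
  unfold ch
  split_ifs with h
  · rw [h]; simp
  · field_simp

/-- an approximate constant -/
def ac (m : ℕ) : S := ⟨m, 1, m⟩

lemma ac_rep {m : ℕ} {r : ℝ} (h1 : (m : ℝ) ≤ r * 4294967296 + 1) (h2 : r * 4294967296 ≤ m + 1) :
    RepS (ac m) r := by
  intro _
  refine ⟨m, Cg.ofNat m, by simp [ac], ?_⟩
  rw [Int.cast_natCast]
  change _ ≤ ((1 : ℕ) : ℝ)
  rw [abs_le]
  push_cast
  constructor <;> linarith

/-- nine terms of the series of `-log (1 - y) / y` -/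
def lhP (a : T) : T :=
  addS (sc 4294967296) (mul a (addS (sc 2147483648) (mul a (addS (ac 1431655765) (mul a
    (addS (sc 1073741824) (mul a (addS (ac 858993459) (mul a (addS (ac 715827882) (mul a
      (addS (ac 613566756) (mul a (addS (sc 536870912) (smul (ac 477218588) a)))))))))))))))

def lhS (a : T) : T :=
  (fun r => addE (lhP a) (dup (mup (mup (mup (mup (mup r r) (mup r r)) (mup (mup r r) (mup r r)))
    r) 4294967296) r)
    (Nat.mul (Nat.div r 2147483648) 28948022309329048855892746252171976963317496166410141009864396001978282409984)) (rad a)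

lemma lh_series {y : ℝ} (hy : |y| < 1) :
    |lh y - (y * (y * (y * (y * (y * (y * (y * (y * (1 / 9) + 1 / 8) + 1 / 7) + 1 / 6) + 1 / 5) +
      1 / 4) + 1 / 3) + 1 / 2) + 1)| ≤ |y| ^ 9 / (1 - |y|) := by
  unfold lh
  split_ifs with h
  · rw [h]; simp
  · have h1 := Real.abs_log_sub_add_sum_range_le hy 9
    have hy0 : 0 < |y| := abs_pos.mpr h
    have e : -Real.log (1 - y) / y - (y * (y * (y * (y * (y * (y * (y * (y * (1 / 9) + 1 / 8) +
        1 / 7) + 1 / 6) + 1 / 5) + 1 / 4) + 1 / 3) + 1 / 2) + 1) =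
        -(∑ i ∈ Finset.range 9, y ^ (i + 1) / ((i : ℝ) + 1) + Real.log (1 - y)) / y := by
      norm_num [Finset.sum_range_succ]
      field_simp
      ring
    rw [e, abs_div, abs_neg, div_le_iff₀ hy0]
    calc _ ≤ |y| ^ (9 + 1) / (1 - |y|) := h1
      _ = |y| ^ 9 / (1 - |y|) * |y| := by ring

lemma Rep.lhS {P : Pt} {a : T} {g : ℝ} (ha : Rep P a g) : Rep P (lhS a) (lh g) := by
  intro hn
  obtain ⟨h1, h2⟩ := addE_n hn
  have hR : TM.rad a < 2147483648 :=
    (flag1 (m := 0) (by norm_num) (by rwa [Nat.add_eq, Nat.zero_add])).1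
  have han : a.n < 28948022309329048855892746252171976963317496166410141009864396001978282409984 := (mul_n_lt (addS_n h1).1).1
  have hr := ha.rad han
  have s1 : RepS (sc 4294967296) 1 := repS_sc _ (by norm_num)
  have s2 : RepS (sc 2147483648) (1 / 2) := repS_sc _ (by norm_num)
  have s3 : RepS (ac 1431655765) (1 / 3) := ac_rep (by norm_num) (by norm_num)
  have s4 : RepS (sc 1073741824) (1 / 4) := repS_sc _ (by norm_num)
  have s5 : RepS (ac 858993459) (1 / 5) := ac_rep (by norm_num) (by norm_num)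
  have s6 : RepS (ac 715827882) (1 / 6) := ac_rep (by norm_num) (by norm_num)
  have s7 : RepS (ac 613566756) (1 / 7) := ac_rep (by norm_num) (by norm_num)
  have s8 : RepS (sc 536870912) (1 / 8) := repS_sc _ (by norm_num)
  have s9 : RepS (ac 477218588) (1 / 9) := ac_rep (by norm_num) (by norm_num)
  have hp : Rep P (lhP a) _ := (ha.mul ((ha.mul ((ha.mul ((ha.mul ((ha.mul ((ha.mul ((ha.mul
    ((ha.smul s9).addS s8)).addS s7)).addS s6)).addS s5)).addS s4)).addS s3)).addS s2)).addS s1
  have key : Rep P (TM.lhS a) (lh g) := by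
    refine hp.addE fun _ _ => ?_
    have hRr : ((TM.rad a : ℕ) : ℝ) < 2147483648 := by exact_mod_cast hR
    have hg : |g| < 1 := by linarith
    refine (mul_le_mul_of_nonneg_right (lh_series hg) (by norm_num)).trans ?_
    set R := TM.rad a with hRdef
    have s0 := abs_nonneg g
    have m2 := mup_le s0 s0 hr hr
    have m4 := mup_le (by positivity) (by positivity) m2 m2
    have m8 := mup_le (by positivity) (by positivity) m4 m4
    have m9 := mup_le (by positivity) (by positivity) m8 hr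
    have m10 := mup_le (b := 4294967296) (y := 1) (by positivity) (by positivity) m9 (by norm_num)
    have d9 := dup_le (y := |g|) (by positivity) (by omega : R < 4294967296) m10 hr
    refine le_trans (le_of_eq ?_) d9
    ring
  exact key hn

/-- `2 log` -/
def tlog2 (a : T) : T :=
  (fun d iv L => (fun R s => addE (addS (sadd L L) (mul s (addS (sc 8589934592) (neg s))))
    (Nat.mul 2 (Nat.add (Nat.add (Nat.div (mup (mup R R) R) 3) 1) (dup (mup (mup (mup R R) R) R) R)))
    (Nat.mul (Nat.div R 2147483648) 28948022309329048855892746252171976963317496166410141009864396001978282409984)) (rrad d iv) (smul iv d))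
  (dlt a) (sinv (cen a)) (slog (cen a))

lemma tlog2_pos {P : Pt} {a : T} {g : ℝ} (ha : Rep P a g)
    (hn : (tlog2 a).n < 28948022309329048855892746252171976963317496166410141009864396001978282409984) :
    0 < cen a ∧ |g - (cen a : ℝ) / 4294967296| / ((cen a : ℝ) / 4294967296) * 4294967296 ≤
      rrad (dlt a) (sinv (cen a)) ∧ rrad (dlt a) (sinv (cen a)) < 2147483648 := by
  obtain ⟨h1, h2⟩ := addE_n hn
  obtain ⟨h3, h4⟩ := smul_n_lt (mul_n_lt (addS_n h1).1).1
  have hc := sinv_n h4
  have hR : rrad (dlt a) (sinv (cen a)) < 2147483648 :=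
    (flag1 (m := 0) (by norm_num) (by rwa [Nat.add_eq, Nat.zero_add])).1
  refine ⟨hc, ?_, hR⟩
  have hr := (dlt_rep ha).rad h3
  have hm := mup_le (abs_nonneg _) (by positivity : 0 ≤ 4294967296 / (cen a : ℝ)) hr (inv_up hc)
  have hcr : (0 : ℝ) < cen a := by exact_mod_cast hc
  refine le_trans (le_of_eq ?_) hm
  field_simp

lemma Rep.tlog2 {P : Pt} {a : T} {g : ℝ} (ha : Rep P a g) : Rep P (tlog2 a) (2 * Real.log g) := by
  intro hn
  obtain ⟨hc, hs, hR⟩ := tlog2_pos ha hn
  have hcr : (0 : ℝ) < (cen a : ℝ) / 4294967296 := by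
    have : (0 : ℝ) < cen a := by exact_mod_cast hc
    positivity
  set c : ℝ := (cen a : ℝ) / 4294967296 with hcdef
  have hlog : RepS (slog (cen a)) (Real.log c) := slog_rep _
  have hinv : RepS (sinv (cen a)) (1 / c) := by
    have := sinv_rep (cen a)
    have e : 4294967296 / (cen a : ℝ) = 1 / c := by
      rw [hcdef, one_div_div]
    rwa [e] at this
  have s2 : RepS (sc 8589934592) 2 := repS_sc _ (by norm_num)
  have hs0 := (dlt_rep ha).smul hinv
  have hq := (hs0.mul (hs0.neg.addS s2)).addS (hlog.add hlog)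
  have key : Rep P (TM.tlog2 a) (2 * Real.log g) := by
    refine hq.addE fun _ _ => ?_
    rw [← hcdef]
    set s : ℝ := (g - c) * (1 / c) with hsdef
    have hsabs : |s| = |g - c| / c := by rw [hsdef, mul_one_div, abs_div, abs_of_pos hcr]
    rw [← hsabs] at hs
    have hRr : ((rrad (dlt a) (sinv (cen a)) : ℕ) : ℝ) < 2147483648 := by exact_mod_cast hR
    have hs1 : |s| < 1 / 2 := by linarith
    have e1 : Real.log g = Real.log c + Real.log (1 + s) := by
      have : 1 + s = g / c := by rw [hsdef]; field_simp; ring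
      have hpos : 0 < 1 + s := by have := (abs_lt.mp hs1).1; linarith
      rw [← Real.log_mul hcr.ne' hpos.ne', this]
      congr 1
      field_simp
    have e2 : 2 * Real.log g - (s * (-s + 2) + (Real.log c + Real.log c)) =
        2 * (Real.log (1 + s) - (s * (s * (-(1 / 2)) + 1))) := by
      rw [e1]; ring
    rw [e2]
    set R := rrad (dlt a) (sinv (cen a)) with hRdef
    have s0 := abs_nonneg s
    have m2 := mup_le s0 s0 hs hs
    have m3 := mup_le (by positivity) s0 m2 hs
    have m4 := mup_le (by positivity) s0 m3 hs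
    have d4 := dup_le (y := |s|) (by positivity) (by omega : R < 4294967296) m4 hs
    have d3 := div3_near (mup (mup R R) R)
    have lr := log_rem (by linarith : |s| < 1)
    have : |Real.log (1 + s) - (s * (s * (-(1 / 2)) + 1))| * 4294967296 ≤
        |s| * |s| * |s| * 4294967296 / 3 + |s| * |s| * |s| * |s| / (1 - |s|) * 4294967296 := by
      have := mul_le_mul_of_nonneg_right lr (by norm_num : (0 : ℝ) ≤ 4294967296)
      calc _ ≤ _ := this
        _ = _ := by ring
    rw [abs_mul, abs_of_pos (by norm_num : (0 : ℝ) < 2), mul_assoc]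
    change _ ≤ ((2 * (Nat.add (Nat.div (mup (mup R R) R) 3) 1 +
      dup (mup (mup (mup R R) R) R) R) : ℕ) : ℝ)
    rw [Nat.cast_mul, Nat.cast_add, Nat.cast_ofNat]
    refine mul_le_mul_of_nonneg_left ?_ (by norm_num)
    refine this.trans ?_
    have : |s| * |s| * |s| * 4294967296 / 3 ≤ ((mup (mup R R) R : ℕ) : ℝ) / 3 := by gcongr
    linarith
  exact key hn

/-- `-log (1 - y) / y` for `y > 0` away from zero -/
def lhD (a : T) : T := mul (neg (tlog2 (addS (sc 4294967296) (neg a)))) (tinv (add a a))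

/-- `-log (1 - y) / y` for `y < 0` away from zero -/
def lhN (a : T) : T := mul (tlog2 (addS (sc 4294967296) (neg a))) (tinv (neg (add a a)))

lemma Rep.lhD {P : Pt} {a : T} {g : ℝ} (ha : Rep P a g) : Rep P (lhD a) (lh g) := by
  intro hn
  obtain ⟨h1, h2⟩ := mul_n_lt hn
  have hg := tinv_g (ha.add ha) h2
  have hg' : 0 < g := by linarith
  have s1 : RepS (sc 4294967296) 1 := repS_sc _ (by norm_num)
  have h := ((ha.neg.addS s1).tlog2.neg).mul (ha.add ha).tinv
  have e : -(2 * Real.log (-g + 1)) * (1 / (g + g)) = lh g := by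
    unfold lh
    rw [if_neg hg'.ne']
    have : -g + 1 = 1 - g := by ring
    rw [this, ← two_mul]
    field_simp
  rw [e] at h
  exact h hn

lemma Rep.lhN {P : Pt} {a : T} {g : ℝ} (ha : Rep P a g) : Rep P (lhN a) (lh g) := by
  intro hn
  obtain ⟨h1, h2⟩ := mul_n_lt hn
  have hg := tinv_g (ha.add ha).neg h2
  have hg' : g < 0 := by linarith
  have s1 : RepS (sc 4294967296) 1 := repS_sc _ (by norm_num)
  have h := ((ha.neg.addS s1).tlog2).mul (ha.add ha).neg.tinv
  have e : 2 * Real.log (-g + 1) * (1 / -(g + g)) = lh g := by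
    unfold lh
    rw [if_neg hg'.ne]
    have : -g + 1 = 1 - g := by ring
    rw [this, ← two_mul]
    field_simp
  rw [e] at h
  exact h hn

/-- `-log (1 - y) / y` -/
def tlh (a : T) : T :=
  cond (Nat.ble (rad a) 2147483647) (lhS a)
    (cond (Nat.ble 57896044618658097711785492504343953926634992332820282019728792003956564819968 (cen a)) (lhN a) (lhD a))

lemma Rep.tlh {P : Pt} {a : T} {g : ℝ} (ha : Rep P a g) : Rep P (tlh a) (lh g) := by
  unfold TM.tlh
  rcases Nat.ble (TM.rad a) 2147483647 with _ | _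
  · rcases Nat.ble 57896044618658097711785492504343953926634992332820282019728792003956564819968 (cen a) with _ | _
    · exact ha.lhD
    · exact ha.lhN
  · exact ha.lhS

/-! ### `(1 - cos θ) / θ ^ 2` -/

def chP (u : T) : T :=
  addS (sc 2147483648) (mul u (addS (sneg (ac 178956970)) (mul u (addS (ac 5965232)
    (smul (sneg (ac 106522)) u)))))

/-- `(1 - cos θ) / θ ^ 2` as a function of `u = θ ^ 2` -/
def tch (u : T) : T :=
  addE (chP u) 1310 (Nat.mul (Nat.div (rad u) 4294967297) 28948022309329048855892746252171976963317496166410141009864396001978282409984)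

lemma cos_taylor10 {θ : ℝ} (h : |θ| ≤ 1) :
    |Real.cos θ - (1 - θ ^ 2 / 2 + θ ^ 4 / 24 - θ ^ 6 / 720 + θ ^ 8 / 40320)| ≤
      |θ| ^ 10 * (11 / 36288000) := by
  have hx : ‖((θ : ℂ) * Complex.I)‖ ≤ 1 := by
    rw [norm_mul, Complex.norm_I, mul_one, Complex.norm_real, Real.norm_eq_abs]
    exact h
  have h2 := Complex.exp_bound hx (n := 10) (by norm_num)
  rw [norm_mul, Complex.norm_I, mul_one, Complex.norm_real, Real.norm_eq_abs] at h2
  have h3 : (((10 : ℕ).succ : ℝ) * ((Nat.factorial 10 : ℕ) * (10 : ℕ) : ℝ)⁻¹) = 11 / 36288000 := by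
    norm_num [Nat.factorial]
  rw [h3] at h2
  set c : ℝ := 1 - θ ^ 2 / 2 + θ ^ 4 / 24 - θ ^ 6 / 720 + θ ^ 8 / 40320
  set s : ℝ := θ - θ ^ 3 / 6 + θ ^ 5 / 120 - θ ^ 7 / 5040 + θ ^ 9 / 362880
  have h5 : ∑ m ∈ Finset.range 10, ((θ : ℂ) * Complex.I) ^ m / (m.factorial : ℂ) =
      (c : ℂ) + (s : ℂ) * Complex.I := by
    have i2 : Complex.I ^ 2 = -1 := Complex.I_sq
    have i3 : Complex.I ^ 3 = -Complex.I := by rw [pow_succ, i2]; ring
    have i4 : Complex.I ^ 4 = 1 := by rw [pow_succ, i3]; ring_nf; rw [i2]; ring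
    have i5 : Complex.I ^ 5 = Complex.I := by rw [pow_succ, i4]; ring
    have i6 : Complex.I ^ 6 = -1 := by rw [pow_succ, i5]; ring_nf; rw [i2]
    have i7 : Complex.I ^ 7 = -Complex.I := by rw [pow_succ, i6]; ring
    have i8 : Complex.I ^ 8 = 1 := by rw [pow_succ, i7]; ring_nf; rw [i2]; ring
    have i9 : Complex.I ^ 9 = Complex.I := by rw [pow_succ, i8]; ring
    simp only [Finset.sum_range_succ, Finset.sum_range_zero, mul_pow, i2, i3, i4, i5, i6, i7, i8, i9]
    simp only [c, s]
    push_cast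
    norm_num [Nat.factorial]
    ring
  rw [h5, Complex.exp_mul_I] at h2
  rw [← Complex.ofReal_cos, ← Complex.ofReal_sin] at h2
  set Z : ℂ := ((Real.cos θ : ℝ) : ℂ) + ((Real.sin θ : ℝ) : ℂ) * Complex.I -
    ((c : ℂ) + (s : ℂ) * Complex.I) with hZ
  have r1 : Z.re = Real.cos θ - c := by
    rw [hZ]
    simp [-Complex.ofReal_cos, -Complex.ofReal_sin]
  rw [← r1]
  exact (Complex.abs_re_le_norm Z).trans h2

lemma ch_series {θ : ℝ} (h : |θ| ≤ 1) :
    |ch θ - (θ ^ 2 * (θ ^ 2 * (θ ^ 2 * (-(1 / 40320)) + 1 / 720) + -(1 / 24)) + 1 / 2)| ≤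
      11 / 36288000 := by
  unfold ch
  split_ifs with h0
  · rw [h0]; norm_num
  · have h1 := cos_taylor10 h
    have ht : 0 < |θ| := abs_pos.mpr h0
    have e : (1 - Real.cos θ) / θ ^ 2 - (θ ^ 2 * (θ ^ 2 * (θ ^ 2 * (-(1 / 40320)) + 1 / 720) +
        -(1 / 24)) + 1 / 2) =
        -(Real.cos θ - (1 - θ ^ 2 / 2 + θ ^ 4 / 24 - θ ^ 6 / 720 + θ ^ 8 / 40320)) / θ ^ 2 := by
      field_simp
      ring
    rw [e, abs_div, abs_neg, abs_pow, div_le_iff₀ (by positivity)]
    refine h1.trans ?_
    have : |θ| ^ 10 ≤ |θ| ^ 2 := pow_le_pow_of_le_one ht.le h (by norm_num)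
    nlinarith

lemma Rep.tch {P : Pt} {u : T} {θ : ℝ} (hu : Rep P u (θ ^ 2)) : Rep P (tch u) (ch θ) := by
  intro hn
  obtain ⟨h1, h2⟩ := addE_n hn
  have hR : TM.rad u < 4294967297 :=
    (flag1 (m := 0) (by norm_num) (by rwa [Nat.add_eq, Nat.zero_add])).1
  have hun : u.n < 28948022309329048855892746252171976963317496166410141009864396001978282409984 := (mul_n_lt (addS_n h1).1).1
  have hr := hu.rad hun
  have s1 : RepS (sc 2147483648) (1 / 2) := repS_sc _ (by norm_num)
  have s2 : RepS (ac 178956970) (1 / 24) := ac_rep (by norm_num) (by norm_num)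
  have s3 : RepS (ac 5965232) (1 / 720) := ac_rep (by norm_num) (by norm_num)
  have s4 : RepS (ac 106522) (1 / 40320) := ac_rep (by norm_num) (by norm_num)
  have hp : Rep P (chP u) _ :=
    (hu.mul ((hu.mul ((hu.smul s4.neg).addS s3)).addS s2.neg)).addS s1
  have key : Rep P (TM.tch u) (ch θ) := by
    refine hp.addE fun _ _ => ?_
    have hRr : ((TM.rad u : ℕ) : ℝ) ≤ 4294967296 := by
      have : TM.rad u ≤ 4294967296 := by omega
      exact_mod_cast this
    rw [abs_of_nonneg (sq_nonneg θ)] at hr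
    have ht : |θ| ≤ 1 := by
      rw [← abs_one, ← sq_le_sq]; linarith
    have h3 := ch_series ht
    have := mul_le_mul_of_nonneg_right h3 (by norm_num : (0 : ℝ) ≤ 4294967296)
    refine this.trans ?_
    norm_num
  exact key hn

end Crest.Agent.R163.TM
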