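import Mathlib

/-!
Row 163: order-two Taylor models in three variables with kernel-friendly arithmetic.

Integers are stored in two's complement modulo `2 ^ 128` as natural numbers, so that every
operation is a handful of GMP-accelerated `Nat` operations.  Fixed point scale `2 ^ 32`.
-/

set_option autoImplicit false
set_option linter.dupNamespace false

namespace Crest.Agent.R163.TM

/-! ### two's complement -/

/-- `v` represents the integer `i` modulo `2 ^ 128` -/
def Cg (v : ℕ) (i : ℤ) : Prop := ∃ k : ℤ, (v : ℤ) = i + k * 115792089237316195423570985008687907853269984665640564039457584007913129639936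

lemma Cg.add {v w : ℕ} {i j : ℤ} (h : Cg v i) (h' : Cg w j) : Cg (Nat.add v w) (i + j) := by
  obtain ⟨k, hk⟩ := h
  obtain ⟨l, hl⟩ := h'
  refine ⟨k + l, ?_⟩
  rw [Nat.add_eq]; push_cast; rw [hk, hl]; ring

lemma Cg.mul {v w : ℕ} {i j : ℤ} (h : Cg v i) (h' : Cg w j) : Cg (Nat.mul v w) (i * j) := by
  obtain ⟨k, hk⟩ := h
  obtain ⟨l, hl⟩ := h'
  refine ⟨i * l + k * j + k * l * 115792089237316195423570985008687907853269984665640564039457584007913129639936, ?_⟩
  rw [Nat.mul_eq]; push_cast; rw [hk, hl]; ring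

lemma Cg.neg {v : ℕ} {i : ℤ} (h : Cg v i) :
    Cg (Nat.mul v 115792089237316195423570985008687907853269984665640564039457584007913129639935) (-i) := by
  obtain ⟨k, hk⟩ := h
  refine ⟨i - k + k * 115792089237316195423570985008687907853269984665640564039457584007913129639936, ?_⟩
  rw [Nat.mul_eq]; push_cast; rw [hk]; ring

lemma Cg.ofNat (n : ℕ) : Cg n (n : ℤ) := ⟨0, by simp⟩

/-- shift right by `32` with two's complement rounding towards `-∞` -/
def sh (v : ℕ) : ℕ :=
  Nat.add (Nat.div (Nat.mod (Nat.add v 57896044618658097711785492504343953926634992332820282019728792003956564819968)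
    115792089237316195423570985008687907853269984665640564039457584007913129639936) 4294967296)
    115792089223836222089995665111354400309760169328821991828187297767361324515328

/-- absolute value -/
def ab (v : ℕ) : ℕ :=
  Nat.add (Nat.sub (Nat.mod (Nat.add v 57896044618658097711785492504343953926634992332820282019728792003956564819968)
    115792089237316195423570985008687907853269984665640564039457584007913129639936) 57896044618658097711785492504343953926634992332820282019728792003956564819968)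
    (Nat.sub 57896044618658097711785492504343953926634992332820282019728792003956564819968
      (Nat.mod (Nat.add v 57896044618658097711785492504343953926634992332820282019728792003956564819968)
        115792089237316195423570985008687907853269984665640564039457584007913129639936))

lemma dec {v : ℕ} {i : ℤ} (h : Cg v i) (hi : |i| < 57896044618658097711785492504343953926634992332820282019728792003956564819968) :
    ((Nat.mod (Nat.add v 57896044618658097711785492504343953926634992332820282019728792003956564819968)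
      115792089237316195423570985008687907853269984665640564039457584007913129639936 : ℕ) : ℤ) =
      i + 57896044618658097711785492504343953926634992332820282019728792003956564819968 := by
  obtain ⟨k, hk⟩ := h
  have h1 := abs_lt.mp hi
  change (((v + 57896044618658097711785492504343953926634992332820282019728792003956564819968) %
    115792089237316195423570985008687907853269984665640564039457584007913129639936 : ℕ) : ℤ) = _
  push_cast
  rw [hk]
  have : i + k * 115792089237316195423570985008687907853269984665640564039457584007913129639936 + 57896044618658097711785492504343953926634992332820282019728792003956564819968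
      = (i + 57896044618658097711785492504343953926634992332820282019728792003956564819968) +
        k * 115792089237316195423570985008687907853269984665640564039457584007913129639936 := by ring
  rw [this, Int.add_mul_emod_self_right]
  exact Int.emod_eq_of_lt (by linarith) (by linarith)

lemma Cg.sh {v : ℕ} {i : ℤ} (h : Cg v i)
    (hi : |i| < 57896044618658097711785492504343953926634992332820282019728792003956564819968) : Cg (sh v) (i / 4294967296) := by
  have h1 := dec h hi
  set u := Nat.mod (Nat.add v 57896044618658097711785492504343953926634992332820282019728792003956564819968)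
      115792089237316195423570985008687907853269984665640564039457584007913129639936 with hu
  refine ⟨1, ?_⟩
  change ((u / 4294967296 + 115792089223836222089995665111354400309760169328821991828187297767361324515328 : ℕ) : ℤ) = _
  push_cast
  rw [h1]
  have h3 : i + 57896044618658097711785492504343953926634992332820282019728792003956564819968 =
      i + 13479973333575319897333507543509815336818572211270286240551805124608 * 4294967296 := by norm_num
  rw [h3, Int.add_mul_ediv_right _ _ (by norm_num)]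
  ring

lemma ab_eq {v : ℕ} {i : ℤ} (h : Cg v i)
    (hi : |i| < 57896044618658097711785492504343953926634992332820282019728792003956564819968) : ((ab v : ℕ) : ℤ) = |i| := by
  have h1 := dec h hi
  unfold ab
  set u := Nat.mod (Nat.add v 57896044618658097711785492504343953926634992332820282019728792003956564819968)
      115792089237316195423570985008687907853269984665640564039457584007913129639936 with hu
  change (((u - 57896044618658097711785492504343953926634992332820282019728792003956564819968) +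
    (57896044618658097711785492504343953926634992332820282019728792003956564819968 - u) : ℕ) : ℤ) = |i|
  rcases le_or_gt 0 i with h2 | h2
  · rw [abs_of_nonneg h2]
    omega
  · rw [abs_of_neg h2]
    omega

/-! ### Taylor models -/

structure T where
  c : ℕ
  l0 : ℕ
  l1 : ℕ
  l2 : ℕ
  q0 : ℕ
  q1 : ℕ
  q2 : ℕ
  q01 : ℕ
  q02 : ℕ
  q12 : ℕ
  e : ℕ
  n : ℕ

/-- integer coefficients -/
structure Z where
  c : ℤ
  l0 : ℤ
  l1 : ℤ
  l2 : ℤ
  q0 : ℤ
  q1 : ℤ
  q2 : ℤ
  q01 : ℤ
  q02 : ℤ
  q12 : ℤ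

/-- a point of the unit cube -/
structure Pt where
  x : ℝ
  y : ℝ
  z : ℝ
  hx : |x| ≤ 1
  hy : |y| ≤ 1
  hz : |z| ≤ 1

structure Cgs (a : T) (k : Z) : Prop where
  c : Cg a.c k.c
  l0 : Cg a.l0 k.l0
  l1 : Cg a.l1 k.l1
  l2 : Cg a.l2 k.l2
  q0 : Cg a.q0 k.q0
  q1 : Cg a.q1 k.q1
  q2 : Cg a.q2 k.q2
  q01 : Cg a.q01 k.q01
  q02 : Cg a.q02 k.q02
  q12 : Cg a.q12 k.q12

def Z.lA (k : Z) : ℤ := |k.l0| + |k.l1| + |k.l2|
def Z.qA (k : Z) : ℤ := |k.q0| + |k.q1| + |k.q2| + |k.q01| + |k.q02| + |k.q12|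
def Z.norm (k : Z) : ℤ := |k.c| + k.lA + k.qA

def Z.lv (k : Z) (P : Pt) : ℝ := k.l0 * P.x + k.l1 * P.y + k.l2 * P.z
def Z.qv (k : Z) (P : Pt) : ℝ := k.q0 * P.x ^ 2 + k.q1 * P.y ^ 2 + k.q2 * P.z ^ 2 +
  k.q01 * (P.x * P.y) + k.q02 * (P.x * P.z) + k.q12 * (P.y * P.z)
def Z.ev (k : Z) (P : Pt) : ℝ := k.c + k.lv P + k.qv P

lemma Z.lA_nonneg (k : Z) : 0 ≤ k.lA := by unfold Z.lA; positivity
lemma Z.qA_nonneg (k : Z) : 0 ≤ k.qA := by unfold Z.qA; positivity
lemma Z.norm_nonneg (k : Z) : 0 ≤ k.norm := by unfold Z.norm Z.lA Z.qA; positivity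

lemma abs_mul_le {a t : ℝ} (h : |t| ≤ 1) : |a * t| ≤ |a| := by
  rw [abs_mul]; exact mul_le_of_le_one_right (abs_nonneg a) h

lemma Pt.xx (P : Pt) : |P.x ^ 2| ≤ 1 := by
  rw [abs_pow]; exact pow_le_one₀ (abs_nonneg _) P.hx
lemma Pt.yy (P : Pt) : |P.y ^ 2| ≤ 1 := by
  rw [abs_pow]; exact pow_le_one₀ (abs_nonneg _) P.hy
lemma Pt.zz (P : Pt) : |P.z ^ 2| ≤ 1 := by
  rw [abs_pow]; exact pow_le_one₀ (abs_nonneg _) P.hz
lemma Pt.xy (P : Pt) : |P.x * P.y| ≤ 1 := (abs_mul_le P.hy).trans P.hx
lemma Pt.xz (P : Pt) : |P.x * P.z| ≤ 1 := (abs_mul_le P.hz).trans P.hx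
lemma Pt.yz (P : Pt) : |P.y * P.z| ≤ 1 := (abs_mul_le P.hz).trans P.hy

lemma abs_add3 (a b c : ℝ) : |a + b + c| ≤ |a| + |b| + |c| :=
  (abs_add_le _ _).trans (by gcongr; exact abs_add_le _ _)

lemma abs_add6 (a b c d e f : ℝ) : |a + b + c + d + e + f| ≤ |a| + |b| + |c| + |d| + |e| + |f| := by
  have h1 := abs_add_le (a + b + c + d + e) f
  have h2 := abs_add_le (a + b + c + d) e
  have h3 := abs_add_le (a + b + c) d
  have h4 := abs_add3 a b c
  linarith

lemma Z.lv_le (k : Z) (P : Pt) : |k.lv P| ≤ (k.lA : ℝ) := by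
  unfold Z.lv Z.lA
  push_cast
  refine (abs_add3 _ _ _).trans ?_
  have h1 := abs_mul_le (a := (k.l0 : ℝ)) P.hx
  have h2 := abs_mul_le (a := (k.l1 : ℝ)) P.hy
  have h3 := abs_mul_le (a := (k.l2 : ℝ)) P.hz
  linarith

lemma Z.qv_le (k : Z) (P : Pt) : |k.qv P| ≤ (k.qA : ℝ) := by
  unfold Z.qv Z.qA
  push_cast
  refine (abs_add6 _ _ _ _ _ _).trans ?_
  have h1 := abs_mul_le (a := (k.q0 : ℝ)) P.xx
  have h2 := abs_mul_le (a := (k.q1 : ℝ)) P.yy
  have h3 := abs_mul_le (a := (k.q2 : ℝ)) P.zz
  have h4 := abs_mul_le (a := (k.q01 : ℝ)) P.xy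
  have h5 := abs_mul_le (a := (k.q02 : ℝ)) P.xz
  have h6 := abs_mul_le (a := (k.q12 : ℝ)) P.yz
  linarith

/-- `a` is a Taylor model of the number `g` at the point `P` -/
def Rep (P : Pt) (a : T) (g : ℝ) : Prop :=
  a.n < 28948022309329048855892746252171976963317496166410141009864396001978282409984 →
    ∃ k : Z, Cgs a k ∧ k.norm ≤ a.n ∧ |g * 4294967296 - k.ev P| ≤ a.e

/-! ### operations -/

def la (a : T) : ℕ := Nat.add (Nat.add (ab a.l0) (ab a.l1)) (ab a.l2)
def qa (a : T) : ℕ := Nat.add (Nat.add (Nat.add (ab a.q0) (ab a.q1)) (Nat.add (ab a.q2) (ab a.q01)))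
  (Nat.add (ab a.q02) (ab a.q12))

lemma la_eq {a : T} {k : Z} (h : Cgs a k)
    (hn : k.norm < 57896044618658097711785492504343953926634992332820282019728792003956564819968) : ((la a : ℕ) : ℤ) = k.lA := by
  have h1 := k.qA_nonneg
  unfold Z.norm Z.lA at hn
  have h0 := abs_nonneg k.c
  have h2 := abs_nonneg k.l0
  have h3 := abs_nonneg k.l1
  have h4 := abs_nonneg k.l2
  change ((ab a.l0 + ab a.l1 + ab a.l2 : ℕ) : ℤ) = _
  push_cast
  rw [ab_eq h.l0 (by linarith), ab_eq h.l1 (by linarith), ab_eq h.l2 (by linarith)]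
  rfl

lemma qa_eq {a : T} {k : Z} (h : Cgs a k)
    (hn : k.norm < 57896044618658097711785492504343953926634992332820282019728792003956564819968) : ((qa a : ℕ) : ℤ) = k.qA := by
  have h1 := k.lA_nonneg
  unfold Z.norm Z.qA at hn
  have h0 := abs_nonneg k.c
  have h2 := abs_nonneg k.q0
  have h3 := abs_nonneg k.q1
  have h4 := abs_nonneg k.q2
  have h5 := abs_nonneg k.q01
  have h6 := abs_nonneg k.q02
  have h7 := abs_nonneg k.q12
  change ((ab a.q0 + ab a.q1 + (ab a.q2 + ab a.q01) + (ab a.q02 + ab a.q12) : ℕ) : ℤ) = _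
  push_cast
  rw [ab_eq h.q0 (by linarith), ab_eq h.q1 (by linarith), ab_eq h.q2 (by linarith),
    ab_eq h.q01 (by linarith), ab_eq h.q02 (by linarith), ab_eq h.q12 (by linarith)]
  unfold Z.qA
  ring

def add (a b : T) : T :=
  { c := Nat.add a.c b.c
    l0 := Nat.add a.l0 b.l0
    l1 := Nat.add a.l1 b.l1
    l2 := Nat.add a.l2 b.l2
    q0 := Nat.add a.q0 b.q0
    q1 := Nat.add a.q1 b.q1
    q2 := Nat.add a.q2 b.q2
    q01 := Nat.add a.q01 b.q01
    q02 := Nat.add a.q02 b.q02
    q12 := Nat.add a.q12 b.q12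
    e := Nat.add a.e b.e
    n := Nat.add a.n b.n }

def Z.add (a b : Z) : Z :=
  ⟨a.c + b.c, a.l0 + b.l0, a.l1 + b.l1, a.l2 + b.l2, a.q0 + b.q0, a.q1 + b.q1, a.q2 + b.q2,
    a.q01 + b.q01, a.q02 + b.q02, a.q12 + b.q12⟩

lemma Rep.add {P : Pt} {a b : T} {g h : ℝ} (ha : Rep P a g) (hb : Rep P b h) :
    Rep P (add a b) (g + h) := by
  intro hn
  change a.n + b.n < _ at hn
  obtain ⟨k, hk, hkn, hke⟩ := ha (by omega)
  obtain ⟨l, hl, hln, hle⟩ := hb (by omega)
  refine ⟨k.add l, ⟨hk.c.add hl.c, hk.l0.add hl.l0, hk.l1.add hl.l1, hk.l2.add hl.l2,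
    hk.q0.add hl.q0, hk.q1.add hl.q1, hk.q2.add hl.q2, hk.q01.add hl.q01, hk.q02.add hl.q02,
    hk.q12.add hl.q12⟩, ?_, ?_⟩
  · change _ ≤ ((a.n + b.n : ℕ) : ℤ)
    push_cast
    refine le_trans ?_ (add_le_add hkn hln)
    unfold Z.norm Z.lA Z.qA Z.add
    have h0 := abs_add_le k.c l.c
    have h1 := abs_add_le k.l0 l.l0
    have h2 := abs_add_le k.l1 l.l1
    have h3 := abs_add_le k.l2 l.l2
    have h4 := abs_add_le k.q0 l.q0
    have h5 := abs_add_le k.q1 l.q1
    have h6 := abs_add_le k.q2 l.q2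
    have h7 := abs_add_le k.q01 l.q01
    have h8 := abs_add_le k.q02 l.q02
    have h9 := abs_add_le k.q12 l.q12
    simp only
    linarith
  · change _ ≤ ((a.e + b.e : ℕ) : ℝ)
    push_cast
    have h1 : (g + h) * 4294967296 - (k.add l).ev P =
        (g * 4294967296 - k.ev P) + (h * 4294967296 - l.ev P) := by
      unfold Z.ev Z.lv Z.qv Z.add
      push_cast
      ring
    rw [h1]
    exact (abs_add_le _ _).trans (add_le_add hke hle)

def neg (a : T) : T :=
  { c := Nat.mul a.c 115792089237316195423570985008687907853269984665640564039457584007913129639935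
    l0 := Nat.mul a.l0 115792089237316195423570985008687907853269984665640564039457584007913129639935
    l1 := Nat.mul a.l1 115792089237316195423570985008687907853269984665640564039457584007913129639935
    l2 := Nat.mul a.l2 115792089237316195423570985008687907853269984665640564039457584007913129639935
    q0 := Nat.mul a.q0 115792089237316195423570985008687907853269984665640564039457584007913129639935
    q1 := Nat.mul a.q1 115792089237316195423570985008687907853269984665640564039457584007913129639935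
    q2 := Nat.mul a.q2 115792089237316195423570985008687907853269984665640564039457584007913129639935
    q01 := Nat.mul a.q01 115792089237316195423570985008687907853269984665640564039457584007913129639935
    q02 := Nat.mul a.q02 115792089237316195423570985008687907853269984665640564039457584007913129639935
    q12 := Nat.mul a.q12 115792089237316195423570985008687907853269984665640564039457584007913129639935
    e := a.e
    n := a.n }

def Z.neg (a : Z) : Z := ⟨-a.c, -a.l0, -a.l1, -a.l2, -a.q0, -a.q1, -a.q2, -a.q01, -a.q02, -a.q12⟩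

lemma Rep.neg {P : Pt} {a : T} {g : ℝ} (ha : Rep P a g) : Rep P (neg a) (-g) := by
  intro hn
  obtain ⟨k, hk, hkn, hke⟩ := ha hn
  refine ⟨k.neg, ⟨hk.c.neg, hk.l0.neg, hk.l1.neg, hk.l2.neg, hk.q0.neg, hk.q1.neg, hk.q2.neg,
    hk.q01.neg, hk.q02.neg, hk.q12.neg⟩, ?_, ?_⟩
  · refine le_trans (le_of_eq ?_) hkn
    unfold Z.norm Z.lA Z.qA Z.neg
    simp only [abs_neg]
  · have h1 : -g * 4294967296 - k.neg.ev P = -(g * 4294967296 - k.ev P) := by
      unfold Z.ev Z.lv Z.qv Z.neg
      push_cast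
      ring
    rw [h1, abs_neg]
    exact hke

def sub (a b : T) : T := add a (neg b)

lemma Rep.sub {P : Pt} {a b : T} {g h : ℝ} (ha : Rep P a g) (hb : Rep P b h) :
    Rep P (sub a b) (g - h) := by
  rw [sub_eq_add_neg]; exact ha.add hb.neg

/-- multiplication by a natural number -/
def nsm (m : ℕ) (a : T) : T :=
  { c := Nat.mul a.c m
    l0 := Nat.mul a.l0 m
    l1 := Nat.mul a.l1 m
    l2 := Nat.mul a.l2 m
    q0 := Nat.mul a.q0 m
    q1 := Nat.mul a.q1 m
    q2 := Nat.mul a.q2 m
    q01 := Nat.mul a.q01 m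
    q02 := Nat.mul a.q02 m
    q12 := Nat.mul a.q12 m
    e := Nat.mul a.e m
    n := Nat.mul (Nat.add a.n 1) (Nat.add m 1) }

def Z.nsm (m : ℕ) (a : Z) : Z := ⟨a.c * m, a.l0 * m, a.l1 * m, a.l2 * m, a.q0 * m, a.q1 * m,
  a.q2 * m, a.q01 * m, a.q02 * m, a.q12 * m⟩

lemma Rep.nsm {P : Pt} {a : T} {g : ℝ} (m : ℕ) (ha : Rep P a g) : Rep P (nsm m a) (g * m) := by
  intro hn
  change (a.n + 1) * (m + 1) < _ at hn
  obtain ⟨k, hk, hkn, hke⟩ := ha (by nlinarith)
  have hm := Cg.ofNat m
  refine ⟨k.nsm m, ⟨hk.c.mul hm, hk.l0.mul hm, hk.l1.mul hm, hk.l2.mul hm,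
    hk.q0.mul hm, hk.q1.mul hm, hk.q2.mul hm, hk.q01.mul hm, hk.q02.mul hm,
    hk.q12.mul hm⟩, ?_, ?_⟩
  · change _ ≤ (((a.n + 1) * (m + 1) : ℕ) : ℤ)
    have h1 : (k.nsm m).norm = k.norm * m := by
      unfold Z.norm Z.lA Z.qA Z.nsm
      simp only [abs_mul, Nat.abs_cast]
      ring
    rw [h1]
    push_cast
    have h2 : (k.norm : ℤ) * m ≤ a.n * m := mul_le_mul_of_nonneg_right hkn (by positivity)
    nlinarith [h2, k.norm_nonneg, (Nat.cast_nonneg m : (0 : ℤ) ≤ m)]
  · change _ ≤ ((a.e * m : ℕ) : ℝ)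
    push_cast
    have h1 : g * m * 4294967296 - (k.nsm m).ev P = (g * 4294967296 - k.ev P) * m := by
      unfold Z.ev Z.lv Z.qv Z.nsm
      push_cast
      ring
    rw [h1, abs_mul, Nat.abs_cast]
    exact mul_le_mul_of_nonneg_right hke (Nat.cast_nonneg m)

/-- overflow flag -/
lemma flag {a b c d m : ℕ} (h : Nat.add m (Nat.mul (Nat.add (Nat.add (Nat.div a 21267647932558653966460912964485513216)
    (Nat.div b 21267647932558653966460912964485513216)) (Nat.add (Nat.div c 28948022309329048855892746252171976963317496166410141009864396001978282409984) (Nat.div d 28948022309329048855892746252171976963317496166410141009864396001978282409984))) 28948022309329048855892746252171976963317496166410141009864396001978282409984) < 28948022309329048855892746252171976963317496166410141009864396001978282409984) :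
    a < 21267647932558653966460912964485513216 ∧ b < 21267647932558653966460912964485513216 ∧ c < 28948022309329048855892746252171976963317496166410141009864396001978282409984 ∧ d < 28948022309329048855892746252171976963317496166410141009864396001978282409984 ∧ m < 28948022309329048855892746252171976963317496166410141009864396001978282409984 := by
  change m + (a / 21267647932558653966460912964485513216 + b / 21267647932558653966460912964485513216 + (c / 28948022309329048855892746252171976963317496166410141009864396001978282409984 + d / 28948022309329048855892746252171976963317496166410141009864396001978282409984)) * 28948022309329048855892746252171976963317496166410141009864396001978282409984 < _ at h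
  have h1 : a / 21267647932558653966460912964485513216 + b / 21267647932558653966460912964485513216 + (c / 28948022309329048855892746252171976963317496166410141009864396001978282409984 + d / 28948022309329048855892746252171976963317496166410141009864396001978282409984) = 0 := by
    by_contra h0
    have : 1 ≤ a / 21267647932558653966460912964485513216 + b / 21267647932558653966460912964485513216 + (c / 28948022309329048855892746252171976963317496166410141009864396001978282409984 + d / 28948022309329048855892746252171976963317496166410141009864396001978282409984) := Nat.one_le_iff_ne_zero.mpr h0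
    have := Nat.mul_le_mul_right 28948022309329048855892746252171976963317496166410141009864396001978282409984 this
    omega
  refine ⟨?_, ?_, ?_, ?_, by omega⟩
  · by_contra h0
    have : 1 ≤ a / 21267647932558653966460912964485513216 := (Nat.one_le_div_iff (by norm_num)).mpr (by omega)
    omega
  · by_contra h0
    have : 1 ≤ b / 21267647932558653966460912964485513216 := (Nat.one_le_div_iff (by norm_num)).mpr (by omega)
    omega
  · by_contra h0
    have : 1 ≤ c / 28948022309329048855892746252171976963317496166410141009864396001978282409984 := (Nat.one_le_div_iff (by norm_num)).mpr (by omega)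
    omega
  · by_contra h0
    have : 1 ≤ d / 28948022309329048855892746252171976963317496166410141009864396001978282409984 := (Nat.one_le_div_iff (by norm_num)).mpr (by omega)
    omega

/-- exact norm -/
def nn (a : T) : ℕ := Nat.add (Nat.add (ab a.c) (la a)) (qa a)

lemma nn_eq {a : T} {k : Z} (h : Cgs a k) (hn : k.norm < 57896044618658097711785492504343953926634992332820282019728792003956564819968) : ((nn a : ℕ) : ℤ) = k.norm := by
  have hc : |k.c| < 57896044618658097711785492504343953926634992332820282019728792003956564819968 := by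
    have := k.lA_nonneg; have := k.qA_nonneg
    unfold Z.norm at hn; linarith
  change ((ab a.c + la a + qa a : ℕ) : ℤ) = _
  push_cast
  rw [ab_eq h.c hc, la_eq h hn, qa_eq h hn]
  rfl

lemma fl_lo (i : ℤ) : |(i : ℝ) / 4294967296 - ((i / 4294967296 : ℤ) : ℝ)| ≤ 1 := by
  have h1 := Int.mul_ediv_add_emod i 4294967296
  have h2 := Int.emod_nonneg i (by norm_num : (4294967296 : ℤ) ≠ 0)
  have h3 := Int.emod_lt_of_pos i (by norm_num : (0 : ℤ) < 4294967296)
  have h4 : (i : ℝ) = 4294967296 * ((i / 4294967296 : ℤ) : ℝ) + ((i % 4294967296 : ℤ) : ℝ) := by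
    exact_mod_cast h1.symm
  have h5 : (0 : ℝ) ≤ ((i % 4294967296 : ℤ) : ℝ) := by exact_mod_cast h2
  have h6 : ((i % 4294967296 : ℤ) : ℝ) ≤ 4294967296 := by exact_mod_cast h3.le
  rw [h4, abs_le]
  constructor <;> linarith

lemma fl_abs (i : ℤ) : |((i / 4294967296 : ℤ) : ℝ)| ≤ |(i : ℝ)| / 4294967296 + 1 := by
  have h1 := fl_lo i
  have h2 : |((i / 4294967296 : ℤ) : ℝ)| ≤
      |(i : ℝ) / 4294967296| + |(i : ℝ) / 4294967296 - ((i / 4294967296 : ℤ) : ℝ)| := by
    have := abs_sub_abs_le_abs_sub ((i / 4294967296 : ℤ) : ℝ) ((i : ℝ) / 4294967296)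
    rw [abs_sub_comm ((i / 4294967296 : ℤ) : ℝ)] at this
    linarith
  rw [abs_div] at h2
  have h3 : |(4294967296 : ℝ)| = 4294967296 := abs_of_pos (by norm_num)
  rw [h3] at h2
  linarith

lemma shr_le (m : ℕ) : (m : ℝ) / 4294967296 ≤ ((m / 4294967296 : ℕ) : ℝ) + 1 := by
  have h3 : m < 4294967296 * (m / 4294967296 + 1) := by
    have := Nat.div_add_mod m 4294967296
    have := Nat.mod_lt m (by norm_num : 4294967296 > 0)
    omega
  have h4 : (m : ℝ) < 4294967296 * (((m / 4294967296 : ℕ) : ℝ) + 1) := by exact_mod_cast h3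
  rw [div_le_iff₀ (by norm_num)]
  linarith

/-- exact product of the integer coefficients (degree `≤ 2` part, scale not yet removed) -/
def Z.raw (a b : Z) : Z :=
  { c := a.c * b.c
    l0 := a.c * b.l0 + a.l0 * b.c
    l1 := a.c * b.l1 + a.l1 * b.c
    l2 := a.c * b.l2 + a.l2 * b.c
    q0 := a.c * b.q0 + a.q0 * b.c + a.l0 * b.l0
    q1 := a.c * b.q1 + a.q1 * b.c + a.l1 * b.l1
    q2 := a.c * b.q2 + a.q2 * b.c + a.l2 * b.l2
    q01 := a.c * b.q01 + a.q01 * b.c + (a.l0 * b.l1 + a.l1 * b.l0)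
    q02 := a.c * b.q02 + a.q02 * b.c + (a.l0 * b.l2 + a.l2 * b.l0)
    q12 := a.c * b.q12 + a.q12 * b.c + (a.l1 * b.l2 + a.l2 * b.l1) }

lemma Z.raw_norm (a b : Z) : (a.raw b).norm ≤ a.norm * b.norm := by
  have t2 : ∀ u v u' v' : ℤ, |u * v + u' * v'| ≤ |u| * |v| + |u'| * |v'| := fun u v u' v' => by
    refine (abs_add_le _ _).trans ?_; rw [abs_mul, abs_mul]
  have t3 : ∀ u v u' v' u'' v'' : ℤ, |u * v + u' * v' + u'' * v''| ≤
      |u| * |v| + |u'| * |v'| + |u''| * |v''| := fun u v u' v' u'' v'' => by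
    refine (abs_add_le _ _).trans ?_; rw [abs_mul u'']; linarith [t2 u v u' v']
  have t4 : ∀ u v u' v' u'' v'' u3 v3 : ℤ, |u * v + u' * v' + (u'' * v'' + u3 * v3)| ≤
      |u| * |v| + |u'| * |v'| + (|u''| * |v''| + |u3| * |v3|) := fun u v u' v' u'' v'' u3 v3 => by
    refine (abs_add_le _ _).trans ?_; linarith [t2 u v u' v', t2 u'' v'' u3 v3]
  have e0 : |(a.raw b).c| = |a.c| * |b.c| := abs_mul _ _
  have e1 : |(a.raw b).l0| ≤ |a.c| * |b.l0| + |a.l0| * |b.c| := t2 _ _ _ _
  have e2 : |(a.raw b).l1| ≤ |a.c| * |b.l1| + |a.l1| * |b.c| := t2 _ _ _ _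
  have e3 : |(a.raw b).l2| ≤ |a.c| * |b.l2| + |a.l2| * |b.c| := t2 _ _ _ _
  have e4 : |(a.raw b).q0| ≤ |a.c| * |b.q0| + |a.q0| * |b.c| + |a.l0| * |b.l0| := t3 _ _ _ _ _ _
  have e5 : |(a.raw b).q1| ≤ |a.c| * |b.q1| + |a.q1| * |b.c| + |a.l1| * |b.l1| := t3 _ _ _ _ _ _
  have e6 : |(a.raw b).q2| ≤ |a.c| * |b.q2| + |a.q2| * |b.c| + |a.l2| * |b.l2| := t3 _ _ _ _ _ _
  have e7 : |(a.raw b).q01| ≤ |a.c| * |b.q01| + |a.q01| * |b.c| +
    (|a.l0| * |b.l1| + |a.l1| * |b.l0|) := t4 _ _ _ _ _ _ _ _
  have e8 : |(a.raw b).q02| ≤ |a.c| * |b.q02| + |a.q02| * |b.c| +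
    (|a.l0| * |b.l2| + |a.l2| * |b.l0|) := t4 _ _ _ _ _ _ _ _
  have e9 : |(a.raw b).q12| ≤ |a.c| * |b.q12| + |a.q12| * |b.c| +
    (|a.l1| * |b.l2| + |a.l2| * |b.l1|) := t4 _ _ _ _ _ _ _ _
  have key : a.norm * b.norm = |a.c| * |b.c| + (|a.c| * |b.l0| + |a.l0| * |b.c|) +
      (|a.c| * |b.l1| + |a.l1| * |b.c|) + (|a.c| * |b.l2| + |a.l2| * |b.c|) +
      (|a.c| * |b.q0| + |a.q0| * |b.c| + |a.l0| * |b.l0|) +
      (|a.c| * |b.q1| + |a.q1| * |b.c| + |a.l1| * |b.l1|) +
      (|a.c| * |b.q2| + |a.q2| * |b.c| + |a.l2| * |b.l2|) +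
      (|a.c| * |b.q01| + |a.q01| * |b.c| + (|a.l0| * |b.l1| + |a.l1| * |b.l0|)) +
      (|a.c| * |b.q02| + |a.q02| * |b.c| + (|a.l0| * |b.l2| + |a.l2| * |b.l0|)) +
      (|a.c| * |b.q12| + |a.q12| * |b.c| + (|a.l1| * |b.l2| + |a.l2| * |b.l1|)) +
      (a.lA * b.qA + a.qA * b.lA + a.qA * b.qA) := by
    unfold Z.norm Z.lA Z.qA
    ring
  have h1 := mul_nonneg a.lA_nonneg b.qA_nonneg
  have h2 := mul_nonneg a.qA_nonneg b.lA_nonneg
  have h3 := mul_nonneg a.qA_nonneg b.qA_nonneg
  rw [key]
  unfold Z.norm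
  unfold Z.lA at *
  unfold Z.qA at *
  linarith

/-- coefficientwise rounding -/
def Z.fl (a : Z) : Z :=
  ⟨a.c / 4294967296, a.l0 / 4294967296, a.l1 / 4294967296, a.l2 / 4294967296,
    a.q0 / 4294967296, a.q1 / 4294967296, a.q2 / 4294967296, a.q01 / 4294967296,
    a.q02 / 4294967296, a.q12 / 4294967296⟩

lemma Z.fl_norm (a : Z) : ((a.fl.norm : ℤ) : ℝ) ≤ (a.norm : ℝ) / 4294967296 + 10 := by
  unfold Z.norm Z.lA Z.qA Z.fl
  push_cast
  have h0 := fl_abs a.c
  have h1 := fl_abs a.l0
  have h2 := fl_abs a.l1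
  have h3 := fl_abs a.l2
  have h4 := fl_abs a.q0
  have h5 := fl_abs a.q1
  have h6 := fl_abs a.q2
  have h7 := fl_abs a.q01
  have h8 := fl_abs a.q02
  have h9 := fl_abs a.q12
  linarith

lemma Z.fl_ev (a : Z) (P : Pt) : |a.ev P / 4294967296 - a.fl.ev P| ≤ 10 := by
  have t : ∀ (i : ℤ) {s : ℝ}, |s| ≤ 1 →
      |((i : ℝ) / 4294967296 - ((i / 4294967296 : ℤ) : ℝ)) * s| ≤ 1 := fun i s hs =>
    (abs_mul_le hs).trans (fl_lo i)
  have h1 : a.ev P / 4294967296 - a.fl.ev P =
      ((a.c : ℝ) / 4294967296 - ((a.c / 4294967296 : ℤ) : ℝ)) * 1 +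
      ((a.l0 : ℝ) / 4294967296 - ((a.l0 / 4294967296 : ℤ) : ℝ)) * P.x +
      ((a.l1 : ℝ) / 4294967296 - ((a.l1 / 4294967296 : ℤ) : ℝ)) * P.y +
      ((a.l2 : ℝ) / 4294967296 - ((a.l2 / 4294967296 : ℤ) : ℝ)) * P.z +
      (((a.q0 : ℝ) / 4294967296 - ((a.q0 / 4294967296 : ℤ) : ℝ)) * P.x ^ 2 +
      ((a.q1 : ℝ) / 4294967296 - ((a.q1 / 4294967296 : ℤ) : ℝ)) * P.y ^ 2 +
      ((a.q2 : ℝ) / 4294967296 - ((a.q2 / 4294967296 : ℤ) : ℝ)) * P.z ^ 2 +
      ((a.q01 : ℝ) / 4294967296 - ((a.q01 / 4294967296 : ℤ) : ℝ)) * (P.x * P.y) +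
      ((a.q02 : ℝ) / 4294967296 - ((a.q02 / 4294967296 : ℤ) : ℝ)) * (P.x * P.z) +
      ((a.q12 : ℝ) / 4294967296 - ((a.q12 / 4294967296 : ℤ) : ℝ)) * (P.y * P.z)) := by
    unfold Z.ev Z.lv Z.qv Z.fl
    ring
  rw [h1]
  have g0 := t a.c (s := 1) (by simp)
  have g1 := t a.l0 P.hx
  have g2 := t a.l1 P.hy
  have g3 := t a.l2 P.hz
  have g4 := t a.q0 P.xx
  have g5 := t a.q1 P.yy
  have g6 := t a.q2 P.zz
  have g7 := t a.q01 P.xy
  have g8 := t a.q02 P.xz
  have g9 := t a.q12 P.yz
  refine (abs_add_le _ _).trans ?_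
  have k1 := abs_add6 (((a.q0 : ℝ) / 4294967296 - ((a.q0 / 4294967296 : ℤ) : ℝ)) * P.x ^ 2)
      (((a.q1 : ℝ) / 4294967296 - ((a.q1 / 4294967296 : ℤ) : ℝ)) * P.y ^ 2)
      (((a.q2 : ℝ) / 4294967296 - ((a.q2 / 4294967296 : ℤ) : ℝ)) * P.z ^ 2)
      (((a.q01 : ℝ) / 4294967296 - ((a.q01 / 4294967296 : ℤ) : ℝ)) * (P.x * P.y))
      (((a.q02 : ℝ) / 4294967296 - ((a.q02 / 4294967296 : ℤ) : ℝ)) * (P.x * P.z))
      (((a.q12 : ℝ) / 4294967296 - ((a.q12 / 4294967296 : ℤ) : ℝ)) * (P.y * P.z))
  have k2 := (abs_add_le (((a.c : ℝ) / 4294967296 - ((a.c / 4294967296 : ℤ) : ℝ)) * 1 +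
      ((a.l0 : ℝ) / 4294967296 - ((a.l0 / 4294967296 : ℤ) : ℝ)) * P.x +
      ((a.l1 : ℝ) / 4294967296 - ((a.l1 / 4294967296 : ℤ) : ℝ)) * P.y)
      (((a.l2 : ℝ) / 4294967296 - ((a.l2 / 4294967296 : ℤ) : ℝ)) * P.z))
  have k3 := abs_add3 (((a.c : ℝ) / 4294967296 - ((a.c / 4294967296 : ℤ) : ℝ)) * 1)
      (((a.l0 : ℝ) / 4294967296 - ((a.l0 / 4294967296 : ℤ) : ℝ)) * P.x)
      (((a.l1 : ℝ) / 4294967296 - ((a.l1 / 4294967296 : ℤ) : ℝ)) * P.y)
  linarith

/-- the product of two Taylor models -/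
def mul (a b : T) : T :=
  { c := sh (Nat.mul a.c b.c)
    l0 := sh (Nat.add (Nat.mul a.c b.l0) (Nat.mul a.l0 b.c))
    l1 := sh (Nat.add (Nat.mul a.c b.l1) (Nat.mul a.l1 b.c))
    l2 := sh (Nat.add (Nat.mul a.c b.l2) (Nat.mul a.l2 b.c))
    q0 := sh (Nat.add (Nat.add (Nat.mul a.c b.q0) (Nat.mul a.q0 b.c)) (Nat.mul a.l0 b.l0))
    q1 := sh (Nat.add (Nat.add (Nat.mul a.c b.q1) (Nat.mul a.q1 b.c)) (Nat.mul a.l1 b.l1))
    q2 := sh (Nat.add (Nat.add (Nat.mul a.c b.q2) (Nat.mul a.q2 b.c)) (Nat.mul a.l2 b.l2))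
    q01 := sh (Nat.add (Nat.add (Nat.mul a.c b.q01) (Nat.mul a.q01 b.c))
      (Nat.add (Nat.mul a.l0 b.l1) (Nat.mul a.l1 b.l0)))
    q02 := sh (Nat.add (Nat.add (Nat.mul a.c b.q02) (Nat.mul a.q02 b.c))
      (Nat.add (Nat.mul a.l0 b.l2) (Nat.mul a.l2 b.l0)))
    q12 := sh (Nat.add (Nat.add (Nat.mul a.c b.q12) (Nat.mul a.q12 b.c))
      (Nat.add (Nat.mul a.l1 b.l2) (Nat.mul a.l2 b.l1)))
    e := Nat.add (Nat.div (Nat.add (Nat.add (Nat.add (Nat.mul (la a) (qa b))
      (Nat.mul (qa a) (Nat.add (la b) (qa b))))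
      (Nat.mul a.e (Nat.add (Nat.add (ab b.c) (la b)) (Nat.add (qa b) b.e))))
      (Nat.mul b.e (Nat.add (Nat.add (ab a.c) (la a)) (qa a)))) 4294967296) 11
    n := Nat.add (Nat.add (Nat.div (Nat.mul (nn a) (nn b)) 4294967296) 11)
      (Nat.mul (Nat.add (Nat.add (Nat.div (nn a) 21267647932558653966460912964485513216) (Nat.div (nn b) 21267647932558653966460912964485513216))
        (Nat.add (Nat.div a.n 28948022309329048855892746252171976963317496166410141009864396001978282409984) (Nat.div b.n 28948022309329048855892746252171976963317496166410141009864396001978282409984)))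
        28948022309329048855892746252171976963317496166410141009864396001978282409984) }

lemma mul_n (a b : T) : (mul a b).n =
    Nat.add (Nat.add (Nat.div (Nat.mul (nn a) (nn b)) 4294967296) 11)
      (Nat.mul (Nat.add (Nat.add (Nat.div (nn a) 21267647932558653966460912964485513216) (Nat.div (nn b) 21267647932558653966460912964485513216))
        (Nat.add (Nat.div a.n 28948022309329048855892746252171976963317496166410141009864396001978282409984) (Nat.div b.n 28948022309329048855892746252171976963317496166410141009864396001978282409984)))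
        28948022309329048855892746252171976963317496166410141009864396001978282409984) := rfl

lemma Rep.mul {P : Pt} {a b : T} {g h : ℝ} (ha : Rep P a g) (hb : Rep P b h) :
    Rep P (mul a b) (g * h) := by
  intro hn
  rw [mul_n] at hn
  obtain ⟨h1, h2, h4, h5, h3⟩ := flag hn
  obtain ⟨k, hk, hkn0, hke⟩ := ha (by omega)
  obtain ⟨l, hl, hln0, hle⟩ := hb (by omega)
  have hkn : k.norm ≤ (nn a : ℤ) := (nn_eq hk (by omega)).ge
  have hln : l.norm ≤ (nn b : ℤ) := (nn_eq hl (by omega)).ge
  have hkn' : k.norm < 21267647932558653966460912964485513216 := by omega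
  have hln' : l.norm < 21267647932558653966460912964485513216 := by omega
  have hraw := k.raw_norm l
  have hprod : k.norm * l.norm ≤ nn a * nn b :=
    mul_le_mul hkn hln l.norm_nonneg (Int.natCast_nonneg _)
  have hbig : (nn a : ℤ) * nn b ≤ 21267647932558653966460912964485513216 * 21267647932558653966460912964485513216 :=
    mul_le_mul (by omega) (by omega) (Int.natCast_nonneg _) (by norm_num)
  have hR : (k.raw l).norm < 57896044618658097711785492504343953926634992332820282019728792003956564819968 := by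
    refine lt_of_le_of_lt (hraw.trans (hprod.trans hbig)) ?_
    norm_num
  have hpos := (k.raw l).lA_nonneg
  have hpos' := (k.raw l).qA_nonneg
  have b0 := abs_nonneg (k.raw l).c
  have b1 := abs_nonneg (k.raw l).l0
  have b2 := abs_nonneg (k.raw l).l1
  have b3 := abs_nonneg (k.raw l).l2
  have b4 := abs_nonneg (k.raw l).q0
  have b5 := abs_nonneg (k.raw l).q1
  have b6 := abs_nonneg (k.raw l).q2
  have b7 := abs_nonneg (k.raw l).q01
  have b8 := abs_nonneg (k.raw l).q02
  have b9 := abs_nonneg (k.raw l).q12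
  have hR' := hR
  unfold Z.norm Z.lA Z.qA at hR'
  refine ⟨(k.raw l).fl, ⟨?_, ?_, ?_, ?_, ?_, ?_, ?_, ?_, ?_, ?_⟩, ?_, ?_⟩
  · exact (hk.c.mul hl.c).sh (i := (k.raw l).c) (by linarith)
  · exact ((hk.c.mul hl.l0).add (hk.l0.mul hl.c)).sh (i := (k.raw l).l0) (by linarith)
  · exact ((hk.c.mul hl.l1).add (hk.l1.mul hl.c)).sh (i := (k.raw l).l1) (by linarith)
  · exact ((hk.c.mul hl.l2).add (hk.l2.mul hl.c)).sh (i := (k.raw l).l2) (by linarith)
  · exact (((hk.c.mul hl.q0).add (hk.q0.mul hl.c)).add (hk.l0.mul hl.l0)).sh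
      (i := (k.raw l).q0) (by linarith)
  · exact (((hk.c.mul hl.q1).add (hk.q1.mul hl.c)).add (hk.l1.mul hl.l1)).sh
      (i := (k.raw l).q1) (by linarith)
  · exact (((hk.c.mul hl.q2).add (hk.q2.mul hl.c)).add (hk.l2.mul hl.l2)).sh
      (i := (k.raw l).q2) (by linarith)
  · exact (((hk.c.mul hl.q01).add (hk.q01.mul hl.c)).add ((hk.l0.mul hl.l1).add
      (hk.l1.mul hl.l0))).sh (i := (k.raw l).q01) (by linarith)
  · exact (((hk.c.mul hl.q02).add (hk.q02.mul hl.c)).add ((hk.l0.mul hl.l2).add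
      (hk.l2.mul hl.l0))).sh (i := (k.raw l).q02) (by linarith)
  · exact (((hk.c.mul hl.q12).add (hk.q12.mul hl.c)).add ((hk.l1.mul hl.l2).add
      (hk.l2.mul hl.l1))).sh (i := (k.raw l).q12) (by linarith)
  · -- norm
    have g1 := (k.raw l).fl_norm
    have g2 : ((k.raw l).norm : ℝ) ≤ ((nn a * nn b : ℕ) : ℝ) := by
      exact_mod_cast hraw.trans hprod
    have g3 := shr_le (nn a * nn b)
    have g4 : (((k.raw l).fl.norm : ℤ) : ℝ) ≤
        ((nn a * nn b / 4294967296 + 11 : ℕ) : ℝ) := by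
      push_cast
      have : ((k.raw l).norm : ℝ) / 4294967296 ≤ ((nn a * nn b : ℕ) : ℝ) / 4294967296 := by
        gcongr
      push_cast at this g3
      linarith
    have g5 : (k.raw l).fl.norm ≤ ((nn a * nn b / 4294967296 + 11 : ℕ) : ℤ) := by
      generalize nn a * nn b / 4294967296 + 11 = N at g4 ⊢
      exact_mod_cast g4
    refine g5.trans ?_
    rw [mul_n]
    exact Int.ofNat_le.mpr (Nat.le_add_right _ _)
  · -- error
    have hk' : k.norm < 57896044618658097711785492504343953926634992332820282019728792003956564819968 := by linarith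
    have hl' : l.norm < 57896044618658097711785492504343953926634992332820282019728792003956564819968 := by linarith
    have eka := la_eq hk hk'
    have eqa := qa_eq hk hk'
    have ela := la_eq hl hl'
    have elq := qa_eq hl hl'
    have hkc : |k.c| < 57896044618658097711785492504343953926634992332820282019728792003956564819968 := by
      have := k.lA_nonneg; have := k.qA_nonneg
      unfold Z.norm at hk'; linarith
    have hlc : |l.c| < 57896044618658097711785492504343953926634992332820282019728792003956564819968 := by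
      have := l.lA_nonneg; have := l.qA_nonneg
      unfold Z.norm at hl'; linarith
    have ekc := ab_eq hk.c hkc
    have elc := ab_eq hl.c hlc
    -- real versions
    have rka : ((la a : ℕ) : ℝ) = (k.lA : ℝ) := by exact_mod_cast eka
    have rqa : ((qa a : ℕ) : ℝ) = (k.qA : ℝ) := by exact_mod_cast eqa
    have rla : ((la b : ℕ) : ℝ) = (l.lA : ℝ) := by exact_mod_cast ela
    have rlq : ((qa b : ℕ) : ℝ) = (l.qA : ℝ) := by exact_mod_cast elq
    have rkc : ((ab a.c : ℕ) : ℝ) = |(k.c : ℝ)| := by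
      have : (((ab a.c : ℕ) : ℤ) : ℝ) = ((|k.c| : ℤ) : ℝ) := by rw [ekc]
      push_cast at this; exact this
    have rlc : ((ab b.c : ℕ) : ℝ) = |(l.c : ℝ)| := by
      have : (((ab b.c : ℕ) : ℤ) : ℝ) = ((|l.c| : ℤ) : ℝ) := by rw [elc]
      push_cast at this; exact this
    set E : ℕ := (la a * qa b + qa a * (la b + qa b) + a.e * ((ab b.c + la b) + (qa b + b.e))) +
      b.e * ((ab a.c + la a) + qa a) with hE
    change _ ≤ ((E / 4294967296 + 11 : ℕ) : ℝ)
    have hsh := shr_le E
    -- real estimates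
    have u1 := k.lv_le P
    have u2 := k.qv_le P
    have u3 := l.lv_le P
    have u4 := l.qv_le P
    set εa := g * 4294967296 - k.ev P with hεa
    set εb := h * 4294967296 - l.ev P with hεb
    have v1 : |k.lv P * l.qv P| ≤ (k.lA : ℝ) * l.qA := by
      rw [abs_mul]; exact mul_le_mul u1 u4 (abs_nonneg _) ((abs_nonneg _).trans u1)
    have v2 : |k.qv P * (l.lv P + l.qv P)| ≤ (k.qA : ℝ) * (l.lA + l.qA) := by
      rw [abs_mul]
      exact mul_le_mul u2 ((abs_add_le _ _).trans (add_le_add u3 u4)) (abs_nonneg _)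
        ((abs_nonneg _).trans u2)
    have v3 : |εa * (l.ev P + εb)| ≤ (a.e : ℝ) * (|(l.c : ℝ)| + l.lA + (l.qA + b.e)) := by
      rw [abs_mul]
      refine mul_le_mul hke ?_ (abs_nonneg _) (Nat.cast_nonneg _)
      refine (abs_add_le _ _).trans ?_
      have : |l.ev P| ≤ |(l.c : ℝ)| + l.lA + l.qA := by
        unfold Z.ev
        refine (abs_add3 _ _ _).trans ?_
        linarith
      linarith
    have v4 : |εb * k.ev P| ≤ (b.e : ℝ) * (|(k.c : ℝ)| + k.lA + k.qA) := by
      rw [abs_mul]
      refine mul_le_mul hle ?_ (abs_nonneg _) (Nat.cast_nonneg _)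
      unfold Z.ev
      refine (abs_add3 _ _ _).trans ?_
      linarith
    have key : g * 4294967296 * (h * 4294967296) - (k.raw l).ev P =
        k.lv P * l.qv P + k.qv P * (l.lv P + l.qv P) + εa * (l.ev P + εb) + εb * k.ev P := by
      have e1 : g * 4294967296 = k.ev P + εa := by rw [hεa]; ring
      have e2 : h * 4294967296 = l.ev P + εb := by rw [hεb]; ring
      rw [e1, e2]
      unfold Z.ev Z.lv Z.qv Z.raw
      push_cast
      ring
    have hEr : (E : ℝ) = (k.lA : ℝ) * l.qA + (k.qA : ℝ) * (l.lA + l.qA) +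
        (a.e : ℝ) * (|(l.c : ℝ)| + l.lA + (l.qA + b.e)) +
        (b.e : ℝ) * (|(k.c : ℝ)| + k.lA + k.qA) := by
      rw [hE]; push_cast; rw [rka, rqa, rla, rlq, rkc, rlc]
    have hbound : |g * 4294967296 * (h * 4294967296) - (k.raw l).ev P| ≤ E := by
      rw [key, hEr]
      have w1 := abs_add3 (k.lv P * l.qv P) (k.qv P * (l.lv P + l.qv P)) (εa * (l.ev P + εb))
      have w2 := abs_add_le (k.lv P * l.qv P + k.qv P * (l.lv P + l.qv P) + εa * (l.ev P + εb))
        (εb * k.ev P)
      linarith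
    have hfl := (k.raw l).fl_ev P
    have e3 : g * h * 4294967296 - (k.raw l).fl.ev P =
        (g * 4294967296 * (h * 4294967296) - (k.raw l).ev P) / 4294967296 +
        ((k.raw l).ev P / 4294967296 - (k.raw l).fl.ev P) := by ring
    rw [e3]
    refine (abs_add_le _ _).trans ?_
    rw [abs_div, abs_of_pos (by norm_num : (0 : ℝ) < 4294967296)]
    have : |g * 4294967296 * (h * 4294967296) - (k.raw l).ev P| / 4294967296 ≤
        (E : ℝ) / 4294967296 := by gcongr
    push_cast
    linarith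

end Crest.Agent.R163.TM
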