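import Crest.Agent.R163.TM.TreeA

/-!
Row 163: certificate data (generated), part 2.
-/

set_option autoImplicit false
set_option linter.dupNamespace false
set_option maxRecDepth 100000

namespace Crest.Agent.R163.TM.DA

open Tr

theorem k8 : OK 0 8589934592 16777216 33554432 0 1623497637 := check_sound
  (a (a (a (a (a (a (a (a (a s (c l (c l l))) (c l (c l l))) (c l (c l l))) (c l (c l l))) (c l (c
    l l))) (c l (c l (a (a l l) (a l l))))) (c l (c l (c (a l l) (a (a l l) l))))) (a (c l (c l
    (a (a l l) l))) l)) (a l s))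
  (by decide +kernel)

theorem k9 : OK 0 8589934592 33554432 67108864 0 1623497637 := check_sound
  (a (a (a (a (a (a (a (a s (c l (c l l))) (c l (c l l))) (c l (c l l))) (c l (c l l))) (c l (c l
    (c l (a l l))))) (c l (c (a l l) (c (a l l) (a (a l l) (b l l)))))) (a (c l (c l (c l (a (a
    l l) l)))) (b l l))) (a (a l l) s))
  (by decide +kernel)

theorem k10 : OK 0 8589934592 67108864 134217728 0 1623497637 := check_sound
  (a (a (a (a (a (a (a s (c l (c l l))) (c l (c l l))) (c l (c l (a l l)))) (c l (c (a l l) (c l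
    (a l l))))) (c (a l l) (c (a l l) (c (a l l) (a (a l (a l l)) (c l (b l l))))))) (a (c (a l
    l) (c (a l l) (c (a l l) (a (b l (a l l)) (b l l))))) (c (a l l) (b l (a l l))))) (a (b (a l
    l) (a l l)) s))
  (by decide +kernel)

theorem k11 : OK 0 4294967296 134217728 268435456 0 1623497637 := check_sound
  (a (a (a (a (a s (c l (c l l))) (c l (c l (a l l)))) (c l (c (a l l) (c l (a l (a l l)))))) (c
    (a l l) (c (a l l) (c (a (a l l) (a l l)) (a (a (b l l) (b l l)) (b (a l l) (a l l))))))) (a
    (c (a l l) (c (b l l) (c (b (a l l) (a l l)) (a (b (a l l) (a l l)) (b (a l l) (a l l))))))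
    (c (b l l) (b (a (a l l) (a l l)) (a (a l l) (a l l))))))
  (by decide +kernel)

theorem k12 : OK 4294967296 8589934592 134217728 268435456 0 1623497637 := check_sound
  (a (a (b (a (a l l) (a l l)) (a (a l l) (a l l))) (b (a (a l l) (a l l)) (a (a l l) (a l l))))
    s)
  (by decide +kernel)

theorem k13 : OK 0 2147483648 268435456 536870912 0 1623497637 := check_sound
  (a (a (a s (c l (c l (c l (a l l))))) (c l (c (c l l) (c (a l l) (a (b l l) (b l l)))))) (c (a l
    l) (c (a l (a l l)) (c (a (a l l) (b l l)) (a (b (a (a l l) (a l l)) (a (a l l) (a l l))) (b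
    (c l (a l l)) (c l (a l l))))))))
  (by decide +kernel)

end Crest.Agent.R163.TM.DA
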