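import Crest.Agent.R163.TM.TreeA

/-!
Row 163: certificate data (generated), part 3.
-/

set_option autoImplicit false
set_option linter.dupNamespace false
set_option maxRecDepth 100000

namespace Crest.Agent.R163.TM.DA

open Tr

theorem k14 : OK 2147483648 4294967296 268435456 536870912 0 1623497637 := check_sound
  (a (c (a l (a l l)) (c (b (a l l) (a l l)) (c (b (a l l) (a l l)) (a (b (c l (a l l)) (a l l))
    (b (a l l) l))))) (c (b (a l l) (a l l)) (b (a (c l (a l l)) (a l l)) (a (a l l) (a l l)))))
  (by decide +kernel)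

theorem k15 : OK 4294967296 8589934592 268435456 536870912 0 1623497637 := check_sound
  (a (a (b (a (c l (b l l)) (c (b l l) (b l l))) (a (c l (a l l)) (c l (a l l)))) (b (a (b (a l l)
    (a l l)) (b (c l l) (c l l))) (a (c (a l l) (a l l)) (c (a l l) l)))) s)
  (by decide +kernel)

theorem k16 : OK 0 2147483648 536870912 1073741824 0 1623497637 := check_sound
  (a (a s (c (a l l) (c (a l l) (c (b (a l l) (a s l)) (b (a (c l (a l l)) (c l (a l l))) (a s (c
    l (a l l)))))))) (c (a (a l l) (a l l)) (c (a (b l l) (b l l)) (c (a (b (a l l) (a l l)) (b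
    l l)) (a (b (c (a l l) (a (a l l) (a l l))) (c (a l l) (a (a l l) (a l l)))) (b (c (a l l)
    (a (a l l) (a l l))) (c (a l l) (a (a l l) (a l l)))))))))
  (by decide +kernel)

theorem k17 : OK 2147483648 4294967296 536870912 1073741824 0 1623497637 := check_sound
  (a (c (b (a l l) (a l l)) (c (b (a l l) (a l l)) (c (b (a l l) (a l l)) (b (a (c l (b l l)) (a l
    l)) (a (a (b l l) l) (a l l)))))) (b (c (a l l) (a (c l (a l l)) (b (a l l) (a l l)))) (c (a
    l l) (a (c l (a l l)) (a l l)))))
  (by decide +kernel)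

theorem k18 : OK 4294967296 8589934592 536870912 1073741824 0 1623497637 := check_sound
  (a (a (b (a (c (a l l) (b l l)) (b (a l l) (a l l))) (a (c l (a l l)) (c (a l l) (a l l)))) (b
    (a (b (a l l) (a l l)) (b (a l s) (a l s))) (a (b (a l l) (a l l)) (b l l)))) s)
  (by decide +kernel)

theorem k19 : OK 0 2147483648 1073741824 2147483648 0 1623497637 := check_sound
  (a s (c (b (a (a l l) (a l l)) (a s (a l l))) (c (b (a (a l l) (a l l)) (a s (a l l))) (c (b (a
    (a (a l l) (a l l)) (b l l)) (a s (a l l))) (b (a (c (a (b l s) (b l l)) (a (b (a l l) s) (b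
    (b l l) (a l l)))) (b (c (a l l) (a (a l l) (b l l))) (c l (a (b (a l l) l) (a l l))))) (a s
    (a (c l (b (a l l) s)) (b (a l l) (a l l)))))))))
  (by decide +kernel)

end Crest.Agent.R163.TM.DA
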