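import Crest.Agent.R163.TM.TreeA

/-!
Row 163: certificate data (generated), part 4.
-/

set_option autoImplicit false
set_option linter.dupNamespace false
set_option maxRecDepth 100000

namespace Crest.Agent.R163.TM.DA

open Tr

theorem k20 : OK 2147483648 3221225472 1073741824 2147483648 0 1623497637 := check_sound
  (b (c (a (a l l) (b l l)) (a (c (b l l) (b (c l (a (a l l) l)) (c l (a (a l l) l)))) (c (b l l)
    (b (c l l) (c l (a l l)))))) (c (a (a l l) (b l (a l l))) (a (c (b l l) (c (b l l) (b (a l
    l) (a l l)))) (c (b l l) (b (a (a l l) l) (a (a l l) l))))))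
  (by decide +kernel)

theorem k21 : OK 3221225472 4294967296 1073741824 2147483648 0 1623497637 := check_sound
  (b (c (a (b l l) (b l l)) (a (b (c l (a l l)) (c l (a l l))) (b (a l l) (a l l)))) (a (c (b l (a
    l l)) (b (c l (a l l)) (c l (a l l)))) (b (c (a l l) (a l l)) (c (a l l) (a (a l l) l)))))
  (by decide +kernel)

theorem k22 : OK 4294967296 8589934592 1073741824 2147483648 0 1623497637 := check_sound
  (a (b (a (a (b (c l (a l l)) (c l (a l l))) (b (c l (a l l)) (c l (a l l)))) (b (a (a l l) s) (a
    (a l l) s))) (a (a (b (c (a l l) (a l l)) (c (a l l) (a l l))) (b (a (a l l) (a l l)) (a (a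
    l l) (a l l)))) (a (b (a l s) (a (a l s) s)) s))) s)
  (by decide +kernel)

theorem k23 : OK 2147483648 3221225472 2147483648 3221225472 0 1623497637 := check_sound
  (a (b (c (a (a l l) (a l l)) (c (a (a l l) (a l l)) (a (b (a l l) s) (b (a l l) (a l l))))) s)
    (b (c (b (a l l) (a l l)) (c (b (a l l) (a l l)) (b (a (a l l) l) (a (a l l) l)))) (c (a (b
    l s) (b l l)) (a (b (c l l) s) (b (c l l) (a l l))))))
  (by decide +kernel)

theorem k24 : OK 3221225472 4294967296 2147483648 3221225472 0 1623497637 := check_sound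
  (b (a (c (b (a l l) (a l l)) (b (a (b l l) (a l l)) (a (b l l) (a l l)))) (b (c (a l l) (a (a l
    l) (a l l))) (a (c l (a l l)) (c l (a l l))))) (a (c (b (a l l) (a l l)) (b (a (a l l) (a l
    l)) (a (a l l) (a l l)))) (b (a (c l (a l l)) (b l l)) (a (c l (a l l)) (a l l)))))
  (by decide +kernel)

theorem k25 : OK 2147483648 4294967296 3221225472 4294967296 0 1623497637 := check_sound
  (a s (a (b (a (b (c l (a l l)) s) (b (c l l) (a l l))) s) (b (b (a (a l l) l) (a l l)) (a (b l
    s) (a l l)))))
  (by decide +kernel)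

theorem k26 : OK 4294967296 8589934592 2147483648 4294967296 0 1623497637 := check_sound
  (a (b (a (b (a (b (a (b l l) (b l l)) (a (b l l) (a l l))) (b (a (a l l) (a l l)) (a (a l l) (a
    l s)))) (a (b (a (a l l) (a l l)) (a (a l l) l)) (b (a (a l l) s) (a l s)))) s) (a (b (a (b
    (a l l) (a l l)) s) (a (b (a l s) (a l s)) s)) s)) s)
  (by decide +kernel)

end Crest.Agent.R163.TM.DA
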