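import Crest.Agent.R163.TM.DataA1
import Crest.Agent.R163.TM.DataA2
import Crest.Agent.R163.TM.DataA3
import Crest.Agent.R163.TM.DataA4

set_option autoImplicit false
set_option linter.dupNamespace false
set_option maxRecDepth 100000

namespace Crest.Agent.R163.TM.DA

/-- the whole domain -/
theorem okA : OK 0 8589934592 0 4294967296 0 1623497637 :=
  (OK.b 2147483648 (OK.b 1073741824 (OK.b 536870912 (OK.b 268435456 (OK.b 134217728 (OK.b 67108864 (OK.b 33554432 (OK.b 16777216 (OK.b 8388608 (OK.b 4194304 (OK.b 2097152 (OK.b 1048576 (OK.b 524288 (OK.b 262144 (OK.b 131072 k0 k1) k2) k3) k4) k5) k6) k7) k8) k9) k10) (OK.a 4294967296 k11 k12)) (OK.a 4294967296 (OK.a 2147483648 k13 k14) k15)) (OK.a 4294967296 (OK.a 2147483648 k16 k17) k18)) (OK.a 4294967296 (OK.a 2147483648 k19 (OK.a 3221225472 k20 k21)) k22)) (OK.a 4294967296 (OK.a 2147483648 (OK.skip (by decide +kernel)) (OK.b 3221225472 (OK.a 3221225472 k23 k24) k25)) k26))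

end Crest.Agent.R163.TM.DA
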