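import Crest.Agent.R163.TM.TreeA

/-!
Row 163: certificate data (generated), part 1.
-/

set_option autoImplicit false
set_option linter.dupNamespace false
set_option maxRecDepth 100000

namespace Crest.Agent.R163.TM.DA

open Tr

theorem k0 : OK 0 8589934592 0 131072 0 1623497637 := check_sound
  (b (b s (a (a (a (a (a (a (a (a (a (a s (c l (c l l))) (c l (c l l))) (c l (c l l))) (c l (c l
    l))) (c l (c l l))) (c l (c l l))) (c l (c l l))) (c l (c l l))) (a (c l (a l l)) l)) l)) (a
    (a (a (a (a (a (a (a (a (a s (c l (c l l))) (c l (c l l))) (c l (c l l))) (c l (c l l))) (c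
    l (c l l))) (c l (c l l))) (c l (c l l))) (c l (c l l))) (a (c l (a l l)) l)) l))
  (by decide +kernel)

theorem k1 : OK 0 8589934592 131072 262144 0 1623497637 := check_sound
  (a (a (a (a (a (a (a (a (a (a s (c l (c l l))) (c l (c l l))) (c l (c l l))) (c l (c l l))) (c l
    (c l l))) (c l (c l l))) (c l (c l l))) (c l (c l l))) (a (c l (a l l)) l)) l)
  (by decide +kernel)

theorem k2 : OK 0 8589934592 262144 524288 0 1623497637 := check_sound
  (a (a (a (a (a (a (a (a (a (a s (c l (c l l))) (c l (c l l))) (c l (c l l))) (c l (c l l))) (c l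
    (c l l))) (c l (c l l))) (c l (c l l))) (c l (c l l))) (a (c l (a l l)) l)) l)
  (by decide +kernel)

theorem k3 : OK 0 8589934592 524288 1048576 0 1623497637 := check_sound
  (a (a (a (a (a (a (a (a (a (a s (c l (c l l))) (c l (c l l))) (c l (c l l))) (c l (c l l))) (c l
    (c l l))) (c l (c l l))) (c l (c l l))) (c l (c l l))) (a (c l (a l l)) l)) l)
  (by decide +kernel)

theorem k4 : OK 0 8589934592 1048576 2097152 0 1623497637 := check_sound
  (a (a (a (a (a (a (a (a (a (a s (c l (c l l))) (c l (c l l))) (c l (c l l))) (c l (c l l))) (c l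
    (c l l))) (c l (c l l))) (c l (c l l))) (c l (c l l))) (a (c l (a l l)) l)) l)
  (by decide +kernel)

theorem k5 : OK 0 8589934592 2097152 4194304 0 1623497637 := check_sound
  (a (a (a (a (a (a (a (a (a (a s (c l (c l l))) (c l (c l l))) (c l (c l l))) (c l (c l l))) (c l
    (c l l))) (c l (c l l))) (c l (c l l))) (c l (c l l))) (a (c l (c l l)) l)) l)
  (by decide +kernel)

theorem k6 : OK 0 8589934592 4194304 8388608 0 1623497637 := check_sound
  (a (a (a (a (a (a (a (a (a (a s (c l (c l l))) (c l (c l l))) (c l (c l l))) (c l (c l l))) (c l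
    (c l l))) (c l (c l l))) (c l (c l (a l l)))) (c l (c l (a l l)))) (a (c l (c l l)) l)) l)
  (by decide +kernel)

theorem k7 : OK 0 8589934592 8388608 16777216 0 1623497637 := check_sound
  (a (a (a (a (a (a (a (a (a (a s (c l (c l l))) (c l (c l l))) (c l (c l l))) (c l (c l l))) (c l
    (c l l))) (c l (c l l))) (c l (c l (a l l)))) (c l (c l (a (a l l) l)))) (a (c l (c l (a l
    l))) l)) l)
  (by decide +kernel)

end Crest.Agent.R163.TM.DA
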