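import Crest.Agent.R163.TM.Comp2
import Crest.Agent.R163.SKLC

/-!
Row 163, `q = 3`, antiferromagnetic case with `κ ≤ 0.378`: Taylor model of the pointwise
inequality in the variables `f₂`, `f₃`, `κ`.
-/

set_option autoImplicit false
set_option linter.dupNamespace false

namespace Crest.Agent.R163.TM

/-! ### variables -/

def vx (c h : ℕ) : T := ⟨c, h, 0, 0, 0, 0, 0, 0, 0, 0, 0, Nat.add c h⟩
def vy (c h : ℕ) : T := ⟨c, 0, h, 0, 0, 0, 0, 0, 0, 0, 0, Nat.add c h⟩
def vz (c h : ℕ) : T := ⟨c, 0, 0, h, 0, 0, 0, 0, 0, 0, 0, Nat.add c h⟩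

lemma cg0 : Cg 0 0 := ⟨0, by simp⟩

lemma vx_rep (P : Pt) (c h : ℕ) {g : ℝ} (hg : g * 4294967296 = c + h * P.x) :
    Rep P (vx c h) g := by
  intro _
  refine ⟨⟨c, h, 0, 0, 0, 0, 0, 0, 0, 0⟩, ⟨Cg.ofNat _, Cg.ofNat _, cg0, cg0, cg0, cg0, cg0, cg0,
    cg0, cg0⟩, ?_, ?_⟩
  · change _ ≤ ((c + h : ℕ) : ℤ)
    unfold Z.norm Z.lA Z.qA
    simp
  · have : g * 4294967296 - Z.ev ⟨c, h, 0, 0, 0, 0, 0, 0, 0, 0⟩ P = 0 := by
      unfold Z.ev Z.lv Z.qv; push_cast; rw [hg]; ring
    rw [this, abs_zero]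
    exact Nat.cast_nonneg _

lemma vy_rep (P : Pt) (c h : ℕ) {g : ℝ} (hg : g * 4294967296 = c + h * P.y) :
    Rep P (vy c h) g := by
  intro _
  refine ⟨⟨c, 0, h, 0, 0, 0, 0, 0, 0, 0⟩, ⟨Cg.ofNat _, cg0, Cg.ofNat _, cg0, cg0, cg0, cg0, cg0,
    cg0, cg0⟩, ?_, ?_⟩
  · change _ ≤ ((c + h : ℕ) : ℤ)
    unfold Z.norm Z.lA Z.qA
    simp
  · have : g * 4294967296 - Z.ev ⟨c, 0, h, 0, 0, 0, 0, 0, 0, 0⟩ P = 0 := by
      unfold Z.ev Z.lv Z.qv; push_cast; rw [hg]; ring
    rw [this, abs_zero]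
    exact Nat.cast_nonneg _

lemma vz_rep (P : Pt) (c h : ℕ) {g : ℝ} (hg : g * 4294967296 = c + h * P.z) :
    Rep P (vz c h) g := by
  intro _
  refine ⟨⟨c, 0, 0, h, 0, 0, 0, 0, 0, 0⟩, ⟨Cg.ofNat _, cg0, cg0, Cg.ofNat _, cg0, cg0, cg0, cg0,
    cg0, cg0⟩, ?_, ?_⟩
  · change _ ≤ ((c + h : ℕ) : ℤ)
    unfold Z.norm Z.lA Z.qA
    simp
  · have : g * 4294967296 - Z.ev ⟨c, 0, 0, h, 0, 0, 0, 0, 0, 0⟩ P = 0 := by
      unfold Z.ev Z.lv Z.qv; push_cast; rw [hg]; ring
    rw [this, abs_zero]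
    exact Nat.cast_nonneg _

/-! ### lower bound test -/

def ngp (v : ℕ) : ℕ := Nat.sub 57896044618658097711785492504343953926634992332820282019728792003956564819968
  (Nat.mod (Nat.add v 57896044618658097711785492504343953926634992332820282019728792003956564819968)
    115792089237316195423570985008687907853269984665640564039457584007913129639936)

lemma ngp_eq {v : ℕ} {i : ℤ} (h : Cg v i)
    (hi : |i| < 57896044618658097711785492504343953926634992332820282019728792003956564819968) :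
    -i ≤ ((ngp v : ℕ) : ℤ) := by
  have h1 := dec h hi
  unfold ngp
  set u := Nat.mod (Nat.add v 57896044618658097711785492504343953926634992332820282019728792003956564819968)
      115792089237316195423570985008687907853269984665640564039457584007913129639936 with hu
  change -i ≤ (((57896044618658097711785492504343953926634992332820282019728792003956564819968 - u) : ℕ) : ℤ)
  omega

/-- everything that has to be smaller than the constant coefficient -/
def low (a : T) : ℕ :=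
  Nat.add (Nat.add (Nat.add (la a) a.e) (Nat.add (Nat.add (ab a.q01) (ab a.q02)) (ab a.q12)))
    (Nat.add (Nat.add (ngp a.q0) (ngp a.q1)) (ngp a.q2))

def chk (a : T) : Bool :=
  and (Nat.ble (low a) (cen a)) (and
    (Nat.ble (cen a) 28948022309329048855892746252171976963317496166410141009864396001978282409983)
    (Nat.ble a.n 28948022309329048855892746252171976963317496166410141009864396001978282409983))

lemma neg_sq_le {q : ℤ} {m : ℕ} {x : ℝ} (h : -q ≤ (m : ℤ)) (hx : |x| ≤ 1) :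
    -((m : ℕ) : ℝ) ≤ (q : ℝ) * x ^ 2 := by
  have h1 : -(q : ℝ) ≤ m := by exact_mod_cast h
  have h2 : x ^ 2 ≤ 1 := by rw [← sq_abs]; exact pow_le_one₀ (abs_nonneg _) hx
  have h3 : 0 ≤ x ^ 2 := sq_nonneg x
  have h4 : (0 : ℝ) ≤ m := Nat.cast_nonneg m
  nlinarith

lemma chk_sound {P : Pt} {a : T} {g : ℝ} (ha : Rep P a g) (h : chk a = true) : 0 ≤ g := by
  unfold chk at h
  rw [Bool.and_eq_true, Bool.and_eq_true] at h
  obtain ⟨h1, h2, h3⟩ := h
  have h1' := Nat.le_of_ble_eq_true h1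
  have h2' := Nat.le_of_ble_eq_true h2
  have h3' := Nat.le_of_ble_eq_true h3
  obtain ⟨k, hk, hkn, hke⟩ := ha (by omega)
  have hk' : k.norm < 57896044618658097711785492504343953926634992332820282019728792003956564819968 := by
    omega
  have hsum := hk'
  unfold Z.norm Z.lA Z.qA at hsum
  have b0 := abs_nonneg k.c
  have b1 := abs_nonneg k.l0
  have b2 := abs_nonneg k.l1
  have b3 := abs_nonneg k.l2
  have b4 := abs_nonneg k.q0
  have b5 := abs_nonneg k.q1
  have b6 := abs_nonneg k.q2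
  have b7 := abs_nonneg k.q01
  have b8 := abs_nonneg k.q02
  have b9 := abs_nonneg k.q12
  -- the centre is exact
  have hc : k.c = (cen a : ℤ) := by
    obtain ⟨m, hm⟩ := hk.c
    have hcen : ((cen a : ℕ) : ℤ) = (a.c : ℤ) %
        115792089237316195423570985008687907853269984665640564039457584007913129639936 := by
      change ((a.c % 115792089237316195423570985008687907853269984665640564039457584007913129639936 : ℕ) : ℤ) = _
      push_cast; rfl
    have hk2 : |k.c| < 28948022309329048855892746252171976963317496166410141009864396001978282409984 := by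
      have := k.lA_nonneg; have := k.qA_nonneg
      unfold Z.norm at hkn
      omega
    have := abs_lt.mp hk2
    omega
  have rka : ((la a : ℕ) : ℝ) = (k.lA : ℝ) := by exact_mod_cast la_eq hk hk'
  have rq : ∀ {v : ℕ} {i : ℤ}, Cg v i →
      |i| < 57896044618658097711785492504343953926634992332820282019728792003956564819968 →
      ((ab v : ℕ) : ℝ) = |(i : ℝ)| := by
    intro v i hv hi
    have : (((ab v : ℕ) : ℤ) : ℝ) = ((|i| : ℤ) : ℝ) := by rw [ab_eq hv hi]
    push_cast at this; exact this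
  have r1 := rq hk.q01 (by linarith)
  have r2 := rq hk.q02 (by linarith)
  have r3 := rq hk.q12 (by linarith)
  have n0 := neg_sq_le (ngp_eq hk.q0 (by linarith)) P.hx
  have n1 := neg_sq_le (ngp_eq hk.q1 (by linarith)) P.hy
  have n2 := neg_sq_le (ngp_eq hk.q2 (by linarith)) P.hz
  have hl := k.lv_le P
  have m1 := (abs_mul_le (a := (k.q01 : ℝ)) P.xy)
  have m2 := (abs_mul_le (a := (k.q02 : ℝ)) P.xz)
  have m3 := (abs_mul_le (a := (k.q12 : ℝ)) P.yz)
  have hlow : ((low a : ℕ) : ℝ) ≤ ((cen a : ℕ) : ℝ) := Nat.cast_le.mpr h1'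
  have hlow2 : ((low a : ℕ) : ℝ) = (((la a : ℕ) : ℝ) + a.e) + (((ab a.q01 : ℕ) : ℝ) +
      ((ab a.q02 : ℕ) : ℝ) + ((ab a.q12 : ℕ) : ℝ)) + (((ngp a.q0 : ℕ) : ℝ) +
      ((ngp a.q1 : ℕ) : ℝ) + ((ngp a.q2 : ℕ) : ℝ)) := by
    change ((((la a + a.e) + (ab a.q01 + ab a.q02 + ab a.q12)) +
      (ngp a.q0 + ngp a.q1 + ngp a.q2) : ℕ) : ℝ) = _
    push_cast; ring
  rw [hlow2, rka, r1, r2, r3] at hlow
  have hcr : (k.c : ℝ) = (cen a : ℝ) := by rw [hc]; push_cast; rfl
  have hev : 0 ≤ k.ev P - a.e := by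
    unfold Z.ev Z.qv
    have := (abs_le.mp hl).1
    have := (abs_le.mp m1).1
    have := (abs_le.mp m2).1
    have := (abs_le.mp m3).1
    linarith
  have := (abs_le.mp hke).1
  have hfin : 0 ≤ g * 4294967296 := by linarith
  exact le_of_mul_le_mul_right (by rw [zero_mul]; exact hfin) (by norm_num : (0 : ℝ) < 4294967296)

/-! ### the function -/

/-- constants: `t = 17 / 32`, `μ = 19 / 16`, `c₁ = 405 / 65536`, `K = kk / 2 ^ 32` -/
def fA (f1 f2 f3 ka : T) : T :=
  (fun z1 z2 z3 l1 l2 l3 =>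
  (fun y1 y2 y3 =>
  (fun w1 w2 w3 k2 =>
  (fun n1 n2 n3 =>
  (fun s1 s2 s3 =>
  add (sub (add (add (mul z1 l1) (mul z2 l2)) (mul z3 l3))
      (nsm 2 (add (add (mul z1 w1) (mul z2 w2)) (mul z3 w3))))
    (add (smul (sc 5100273664) (sub
      (add (add (mul f1 (tcosS (smul (sc 1140850688) (sub l2 l3))))
        (mul f2 (tcosS (smul (sc 1140850688) (sub l1 l3)))))
        (mul f3 (tcosS (smul (sc 1140850688) (sub l1 l2)))))
      (nsm 3 (texpn (smul (ac 404051285) (add (add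
        (mul (addS (sc 4294967296) (neg y1)) (mul s1 (tch (smul (sc 1212153856) (mul k2 s1)))))
        (mul (addS (sc 4294967296) (neg y2)) (mul s2 (tch (smul (sc 1212153856) (mul k2 s2))))))
        (mul (addS (sc 4294967296) (neg y3)) (mul s3 (tch (smul (sc 1212153856) (mul k2 s3)))))))))))
      (addS (sc 14636757) (neg (smul (sc 26542080)
        (add (add (mul z1 z1) (mul z2 z2)) (mul z3 z3)))))))
  (mul n1 n1) (mul n2 n2) (mul n3 n3))
  (sub w2 w3) (sub w1 w3) (sub w1 w2))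
  (mul z1 (tlh y1)) (mul z2 (tlh y2)) (mul z3 (tlh y3)) (mul ka ka))
  (mul ka z1) (mul ka z2) (mul ka z3))
  (addS (sneg (sc 4294967296)) f1) (addS (sneg (sc 4294967296)) f2) (addS (sneg (sc 4294967296)) f3)
  (tlog2 f1) (tlog2 f2) (tlog2 f3)

def evA (c2 h2 c3 h3 kc kh : ℕ) : T :=
  (fun f2 f3 => fA (addS (sc 12884901888) (neg (add f2 f3))) f2 f3 (vz kc kh)) (vx c2 h2) (vy c3 h3)

end Crest.Agent.R163.TM
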