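import Crest.Agent.R163.TM.DataA

/-!
Row 163, `q = 3`, antiferromagnetic: the pointwise inequality `Ineq3` for all `0 < κ ≤ 0.378` and
its consequences for Poisson trees with `d ≥ 7` and regular trees with `b ≥ 7`.
-/

set_option autoImplicit false
set_option linter.dupNamespace false

namespace Crest.Agent.R163.TM

/-! ### elementary bounds -/

lemma neg_log_le {v : ℝ} (h0 : 0 ≤ v) (h1 : v ≤ 189 / 250) : -Real.log (1 - v) ≤ 187 / 100 * v := by
  -- concavity of `log` on `[61/250, 1]`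
  have hc := (strictConcaveOn_log_Ioi.concaveOn).2 (Set.mem_Ioi.mpr (by norm_num : (0 : ℝ) < 1))
    (Set.mem_Ioi.mpr (by norm_num : (0 : ℝ) < 61 / 250))
    (show 0 ≤ 1 - v * (250 / 189) by linarith) (show 0 ≤ v * (250 / 189) by positivity) (by ring)
  simp only [smul_eq_mul, Real.log_one, mul_zero, zero_add, mul_one] at hc
  have e : 1 - v * (250 / 189) + v * (250 / 189) * (61 / 250) = 1 - v := by ring
  rw [e] at hc
  have hl : -Real.log (61 / 250) ≤ 1413 / 1000 := by
    have h2 : Real.log (250 / 61) ≤ 1413 / 1000 := by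
      have e1 : (250 : ℝ) / 61 = 2 ^ 2 * (125 / 122) := by norm_num
      rw [e1, Real.log_mul (by norm_num) (by norm_num), Real.log_pow]
      have h3 := Real.log_le_sub_one_of_pos (by norm_num : (0 : ℝ) < 125 / 122)
      have h4 := Real.log_two_lt_d9
      push_cast
      linarith
    have e2 : Real.log (61 / 250) = -Real.log (250 / 61) := by
      rw [← Real.log_inv]; norm_num
    rw [e2]; linarith
  nlinarith

/-- `-u log (1 - κ u) / κ ≤ 1.87 u²` for `0 ≤ u ≤ 2` -/
lemma g_pos {κ u : ℝ} (hκ : 0 < κ) (hκ1 : κ ≤ 189 / 500) (h0 : 0 ≤ u) (h1 : u ≤ 2) :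
    u * (-Real.log (1 - κ * u)) / κ ≤ 187 / 100 * u ^ 2 := by
  have h2 := neg_log_le (v := κ * u) (by positivity) (by nlinarith)
  rw [div_le_iff₀ hκ]
  nlinarith

/-- `-u log (1 - κ u) / κ ≤ u²` for `u ≤ 0` -/
lemma g_neg {κ u : ℝ} (hκ : 0 < κ) (h0 : u ≤ 0) :
    u * (-Real.log (1 - κ * u)) / κ ≤ u ^ 2 := by
  have hp : 0 < 1 - κ * u := by nlinarith
  have h2 := Real.log_le_sub_one_of_pos hp
  rw [div_le_iff₀ hκ]
  nlinarith

lemma cx_le_one {t x y z : ℝ} (hx : 0 ≤ x) (hy : 0 ≤ y) (hz : 0 ≤ z) (hs : x + y + z = 3) :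
    cx t x y z ≤ 1 := by
  unfold cx
  have h1 := Real.cos_le_one (t * (Real.log y - Real.log z))
  have h2 := Real.cos_le_one (t * (Real.log z - Real.log x))
  have h3 := Real.cos_le_one (t * (Real.log x - Real.log y))
  have a1 := mul_le_mul_of_nonneg_left h1 hx
  have a2 := mul_le_mul_of_nonneg_left h2 hy
  have a3 := mul_le_mul_of_nonneg_left h3 hz
  linarith

lemma neg_one_le_cx {t x y z : ℝ} (hx : 0 ≤ x) (hy : 0 ≤ y) (hz : 0 ≤ z) (hs : x + y + z = 3) :
    -1 ≤ cx t x y z := by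
  unfold cx
  have h1 := Real.neg_one_le_cos (t * (Real.log y - Real.log z))
  have h2 := Real.neg_one_le_cos (t * (Real.log z - Real.log x))
  have h3 := Real.neg_one_le_cos (t * (Real.log x - Real.log y))
  have a1 := mul_le_mul_of_nonneg_left h1 hx
  have a2 := mul_le_mul_of_nonneg_left h2 hy
  have a3 := mul_le_mul_of_nonneg_left h3 hz
  linarith

/-- near the boundary -/
lemma gA_boundary {y z κ : ℝ} (hκ : 0 < κ) (hκ1 : κ ≤ 189 / 500) (hz : 0 < z) (hzy : z < y)
    (hyx : y < 3 - y - z)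
    (hb : 589 / 50 ≤ (y - 1) * Real.log y + (z - 1) * Real.log z) :
    0 ≤ gA (3 - y - z) y z κ := by
  have hy : 0 < y := hz.trans hzy
  set x := 3 - y - z with hx
  have hxpos : 0 < x := by linarith
  have hx1 : 1 < x := by linarith
  have hx2 : x < 3 := by linarith
  have hz1 : z < 1 := by linarith
  have hy1 : y < 3 / 2 := by linarith
  -- `sx` from below
  have hlx : (x - 1) ^ 2 / 3 ≤ (x - 1) * Real.log x := by
    have h1 := Real.one_sub_inv_le_log_of_pos hxpos
    have h2 : (x - 1) / 3 ≤ 1 - x⁻¹ := by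
      have : 1 - x⁻¹ = (x - 1) / x := by field_simp
      rw [this]
      gcongr
    nlinarith
  -- `sx (W)` from above
  have g1 := g_pos hκ hκ1 (u := x - 1) (by linarith) (by linarith)
  have g3 := g_neg hκ (u := z - 1) (by linarith)
  have g2 : (y - 1) * (-Real.log (1 - κ * (y - 1))) / κ ≤ 1 := by
    rcases le_total y 1 with h | h
    · have := g_neg hκ (u := y - 1) (by linarith)
      nlinarith
    · have := g_pos hκ hκ1 (u := y - 1) (by linarith) (by linarith)
      nlinarith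
  have g3' : (z - 1) * (-Real.log (1 - κ * (z - 1))) / κ ≤ 1 := by nlinarith
  have hW : (1 / κ ^ 2) * sx (1 - κ * (x - 1)) (1 - κ * (y - 1)) (1 - κ * (z - 1)) ≤
      (187 / 100 * (x - 1) ^ 2 + 2) / 2 := by
    have e : (1 / κ ^ 2) * sx (1 - κ * (x - 1)) (1 - κ * (y - 1)) (1 - κ * (z - 1)) =
        ((x - 1) * (-Real.log (1 - κ * (x - 1))) / κ + (y - 1) * (-Real.log (1 - κ * (y - 1))) / κ +
          (z - 1) * (-Real.log (1 - κ * (z - 1))) / κ) / 2 := by
      unfold sx; field_simp; ring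
    rw [e]
    linarith
  have hsx : sx x y z ≥ ((x - 1) ^ 2 / 3 + 589 / 50) / 2 := by
    unfold sx; linarith
  have w1 : 0 ≤ 1 - κ * (x - 1) := by nlinarith
  have w2 : 0 ≤ 1 - κ * (y - 1) := by nlinarith
  have w3 : 0 ≤ 1 - κ * (z - 1) := by nlinarith
  have hc := neg_one_le_cx (t := 17 / 32) hxpos.le hy.le hz.le (by rw [hx]; ring)
  have hcw := cx_le_one (t := 17 / 32) w1 w2 w3 (by rw [hx]; ring)
  have he : Real.exp (-((1 / κ ^ 2) * (1 -
      cx (17 / 32) (1 - κ * (x - 1)) (1 - κ * (y - 1)) (1 - κ * (z - 1))))) ≤ 1 := by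
    rw [Real.exp_le_one_iff]
    have : 0 ≤ (1 / κ ^ 2) * (1 -
      cx (17 / 32) (1 - κ * (x - 1)) (1 - κ * (y - 1)) (1 - κ * (z - 1))) :=
      mul_nonneg (by positivity) (by linarith)
    linarith
  have hp : (x - 1) ^ 2 + (y - 1) ^ 2 + (z - 1) ^ 2 ≤ 6 := by nlinarith
  have hxx : (x - 1) ^ 2 ≤ 4 := by nlinarith
  unfold gA
  nlinarith

lemma log_small {y : ℝ} {n : ℕ} (hy : 0 < y) (h : y ≤ (1 / 2) ^ n) :
    (n : ℝ) * (6931471803 / 10000000000) ≤ -Real.log y := by
  have h1 := Real.log_le_log hy h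
  rw [Real.log_pow, Real.log_div one_ne_zero two_ne_zero, Real.log_one, zero_sub] at h1
  have h2 := Real.log_two_gt_d9
  have h3 : (0 : ℝ) ≤ n := Nat.cast_nonneg n
  nlinarith

lemma mul_log_nonneg {y : ℝ} (hy : 0 < y) : 0 ≤ (y - 1) * Real.log y := by
  rcases le_total y 1 with h | h
  · exact mul_nonneg_of_nonpos_of_nonpos (by linarith) (Real.log_nonpos hy.le h)
  · exact mul_nonneg (by linarith) (Real.log_nonneg h)

/-- strict chamber -/
lemma gA_chamber {y z κ : ℝ} (hκ : 0 < κ) (hκ1 : κ * 4294967296 ≤ 1623497637) (hz : 0 < z)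
    (hzy : z < y) (hyx : y < 3 - y - z) : 0 ≤ gA (3 - y - z) y z κ := by
  have hκ2 : κ ≤ 189 / 500 := by linarith
  have hy : 0 < y := hz.trans hzy
  rcases le_or_gt z (1 / 131072) with h1 | h1
  · refine gA_boundary hκ hκ2 hz hzy hyx ?_
    have h2 := log_small (n := 17) hz (by norm_num at h1 ⊢; linarith)
    have h3 := mul_log_nonneg hy
    push_cast at h2
    nlinarith
  · rcases le_or_gt y (1 / 512) with h2 | h2
    · refine gA_boundary hκ hκ2 hz hzy hyx ?_
      have h3 := log_small (n := 9) hy (by norm_num at h2 ⊢; linarith)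
      have h4 := log_small (n := 9) hz (by norm_num at h2 ⊢; linarith)
      push_cast at h3 h4
      nlinarith
    · have h := DA.okA y z κ (by push_cast; linarith) (by push_cast; linarith)
        (by push_cast; linarith) (by push_cast; linarith) (by push_cast; linarith)
        (by push_cast; linarith) hκ hzy hyx h1 h2
      exact h

/-! ### closure of the chamber -/

lemma sx_cont {f g h : ℝ → ℝ} {a : ℝ} (hf : ContinuousAt f a) (hg : ContinuousAt g a)
    (hh : ContinuousAt h a) (f0 : f a ≠ 0) (g0 : g a ≠ 0) (h0 : h a ≠ 0) :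
    ContinuousAt (fun s => sx (f s) (g s) (h s)) a := by
  unfold sx
  exact ((((hf.sub continuousAt_const).mul (hf.log f0)).add
    ((hg.sub continuousAt_const).mul (hg.log g0))).add
    ((hh.sub continuousAt_const).mul (hh.log h0))).div_const 2

lemma cx_cont {t : ℝ} {f g h : ℝ → ℝ} {a : ℝ} (hf : ContinuousAt f a) (hg : ContinuousAt g a)
    (hh : ContinuousAt h a) (f0 : f a ≠ 0) (g0 : g a ≠ 0) (h0 : h a ≠ 0) :
    ContinuousAt (fun s => cx t (f s) (g s) (h s)) a := by
  have c : ∀ {u v : ℝ → ℝ}, ContinuousAt u a → ContinuousAt v a → u a ≠ 0 → v a ≠ 0 →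
      ContinuousAt (fun s => Real.cos (t * (Real.log (u s) - Real.log (v s)))) a :=
    fun hu hv u0 v0 => Real.continuous_cos.continuousAt.comp
      (continuousAt_const.mul ((hu.log u0).sub (hv.log v0)))
  unfold cx
  exact (((hf.mul (c hg hh g0 h0)).add (hg.mul (c hh hf h0 f0))).add
    (hh.mul (c hf hg f0 g0))).div_const 3

lemma gA_cont {κ : ℝ} {f g h : ℝ → ℝ} {a : ℝ} (hf : ContinuousAt f a) (hg : ContinuousAt g a)
    (hh : ContinuousAt h a) (f0 : f a ≠ 0) (g0 : g a ≠ 0) (h0 : h a ≠ 0)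
    (f1 : 1 - κ * (f a - 1) ≠ 0) (g1 : 1 - κ * (g a - 1) ≠ 0) (h1 : 1 - κ * (h a - 1) ≠ 0) :
    ContinuousAt (fun s => gA (f s) (g s) (h s) κ) a := by
  have w : ∀ {u : ℝ → ℝ}, ContinuousAt u a → ContinuousAt (fun s => 1 - κ * (u s - 1)) a :=
    fun hu => continuousAt_const.sub (continuousAt_const.mul (hu.sub continuousAt_const))
  have s1 := sx_cont hf hg hh f0 g0 h0
  have s2 := sx_cont (w hf) (w hg) (w hh) f1 g1 h1
  have c1 := cx_cont (t := 17 / 32) hf hg hh f0 g0 h0
  have c2 := cx_cont (t := 17 / 32) (w hf) (w hg) (w hh) f1 g1 h1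
  unfold gA
  exact (((s1.sub (s2.const_mul (1 / κ ^ 2))).const_mul 4).add (((c1.const_mul 3).sub
    ((Real.continuous_exp.continuousAt.comp (((continuousAt_const.sub c2).const_mul
      (1 / κ ^ 2)).neg)).const_mul 3)).const_mul (19 / 16))).add
    (continuousAt_const.sub (((((hf.sub continuousAt_const).pow 2).add
      ((hg.sub continuousAt_const).pow 2)).add ((hh.sub continuousAt_const).pow 2)).const_mul
        (405 / 65536)))

lemma gA_sorted {x y z κ : ℝ} (hκ : 0 < κ) (hκ1 : κ * 4294967296 ≤ 1623497637) (hz : 0 < z)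
    (hzy : z ≤ y) (hyx : y ≤ x) (hs : x + y + z = 3) : 0 ≤ gA x y z κ := by
  have hy : 0 < y := by linarith
  have hx : 0 < x := by linarith
  have hκ2 : κ ≤ 189 / 500 := by linarith
  have hx3 : x < 3 := by linarith
  have hc : ContinuousAt (fun s : ℝ => gA (x + s * (3 / 2 - x)) (y + s * (1 - y))
      (z + s * (1 / 2 - z)) κ) 0 := by
    have l : ∀ p q : ℝ, ContinuousAt (fun s : ℝ => p + s * q) 0 := fun p q => by fun_prop
    refine gA_cont (l _ _) (l _ _) (l _ _) ?_ ?_ ?_ ?_ ?_ ?_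
    · simp only [zero_mul, add_zero]; exact hx.ne'
    · simp only [zero_mul, add_zero]; exact hy.ne'
    · simp only [zero_mul, add_zero]; exact hz.ne'
    · simp only [zero_mul, add_zero]; nlinarith
    · simp only [zero_mul, add_zero]; nlinarith
    · simp only [zero_mul, add_zero]; nlinarith
  have h1 : Filter.Tendsto (fun s : ℝ => gA (x + s * (3 / 2 - x)) (y + s * (1 - y))
      (z + s * (1 / 2 - z)) κ) (nhdsWithin 0 (Set.Ioi 0)) (nhds (gA x y z κ)) := by
    have := hc.tendsto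
    simp only [zero_mul, add_zero] at this
    exact this.mono_left nhdsWithin_le_nhds
  refine ge_of_tendsto h1 ?_
  filter_upwards [Ioo_mem_nhdsGT (show (0 : ℝ) < 1 by norm_num)] with s hs1
  obtain ⟨s0, s1⟩ := hs1
  have e : x + s * (3 / 2 - x) = 3 - (y + s * (1 - y)) - (z + s * (1 / 2 - z)) := by
    have : x = 3 - y - z := by linarith
    rw [this]; ring
  rw [e]
  refine gA_chamber hκ hκ1 ?_ ?_ ?_
  · nlinarith
  · nlinarith
  · rw [← e]; nlinarith

lemma cx_swap12 (t x y z : ℝ) : cx t y x z = cx t x y z := by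
  unfold cx
  have h1 : Real.cos (t * (Real.log x - Real.log z)) = Real.cos (t * (Real.log z - Real.log x)) := by
    rw [← Real.cos_neg]; congr 1; ring
  have h2 : Real.cos (t * (Real.log z - Real.log y)) = Real.cos (t * (Real.log y - Real.log z)) := by
    rw [← Real.cos_neg]; congr 1; ring
  have h3 : Real.cos (t * (Real.log y - Real.log x)) = Real.cos (t * (Real.log x - Real.log y)) := by
    rw [← Real.cos_neg]; congr 1; ring
  rw [h1, h2, h3]; ring

lemma cx_swap23 (t x y z : ℝ) : cx t x z y = cx t x y z := by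
  unfold cx
  have h1 : Real.cos (t * (Real.log z - Real.log y)) = Real.cos (t * (Real.log y - Real.log z)) := by
    rw [← Real.cos_neg]; congr 1; ring
  have h2 : Real.cos (t * (Real.log y - Real.log x)) = Real.cos (t * (Real.log x - Real.log y)) := by
    rw [← Real.cos_neg]; congr 1; ring
  have h3 : Real.cos (t * (Real.log x - Real.log z)) = Real.cos (t * (Real.log z - Real.log x)) := by
    rw [← Real.cos_neg]; congr 1; ring
  rw [h1, h2, h3]; ring

lemma sx_swap12 (x y z : ℝ) : sx y x z = sx x y z := by unfold sx; ring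
lemma sx_swap23 (x y z : ℝ) : sx x z y = sx x y z := by unfold sx; ring

lemma gA_swap12 (x y z κ : ℝ) : gA y x z κ = gA x y z κ := by
  unfold gA
  rw [cx_swap12 (17 / 32) x y z, sx_swap12 x y z, cx_swap12 (17 / 32) (1 - κ * (x - 1)),
    sx_swap12 (1 - κ * (x - 1))]
  ring

lemma gA_swap23 (x y z κ : ℝ) : gA x z y κ = gA x y z κ := by
  unfold gA
  rw [cx_swap23 (17 / 32) x y z, sx_swap23 x y z, cx_swap23 (17 / 32) (1 - κ * (x - 1)),
    sx_swap23 (1 - κ * (x - 1))]
  ring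

theorem gA_nonneg {x y z κ : ℝ} (hκ : 0 < κ) (hκ1 : κ * 4294967296 ≤ 1623497637) (hx : 0 < x)
    (hy : 0 < y) (hz : 0 < z) (hs : x + y + z = 3) : 0 ≤ gA x y z κ := by
  rcases le_total x y with h1 | h1 <;> rcases le_total y z with h2 | h2 <;>
    rcases le_total x z with h3 | h3
  · -- x ≤ y ≤ z
    have := gA_sorted hκ hκ1 hx h1 h2 (by linarith)
    rwa [gA_swap12, gA_swap23, gA_swap12] at this
  · have := gA_sorted hκ hκ1 hx h1 h2 (by linarith)
    rwa [gA_swap12, gA_swap23, gA_swap12] at this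
  · -- x ≤ z ≤ y
    have := gA_sorted hκ hκ1 hx h3 h2 (by linarith)
    rwa [gA_swap23, gA_swap12] at this
  · -- z ≤ x ≤ y
    have := gA_sorted hκ hκ1 hz h3 h1 (by linarith)
    rwa [gA_swap12] at this
  · -- y ≤ x ≤ z
    have := gA_sorted hκ hκ1 hy h1 h3 (by linarith)
    rwa [gA_swap12, gA_swap23] at this
  · -- y ≤ z ≤ x
    have := gA_sorted hκ hκ1 hy h2 h3 (by linarith)
    rwa [gA_swap23] at this
  · have := gA_sorted hκ hκ1 hz h2 h1 (by linarith)
    exact this
  · exact gA_sorted hκ hκ1 hz h2 h1 (by linarith)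

/-- the certificate (A) -/
theorem ineqA {κ θ : ℝ} (hκ : 0 < κ) (hκ1 : κ * 4294967296 ≤ 1623497637) (hθ : θ = 1 / κ ^ 2) :
    Ineq3 (m := 1) (fun _ => 19 / 16) (fun _ => 17 / 32) κ θ (4 / 3) (405 / 65536)
      (405 / 65536 / 5 - 14636757 / 4294967296 / 3) (1 / 5) := by
  intro x y z hx hy hz hs
  have h := gA_nonneg hκ hκ1 hx hy hz hs
  unfold gA at h
  rw [Fin.sum_univ_one, hθ]
  have e : Real.exp (-(1 / κ ^ 2) * (1 -
      cx (17 / 32) (1 - κ * (x - 1)) (1 - κ * (y - 1)) (1 - κ * (z - 1)))) =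
      Real.exp (-((1 / κ ^ 2) * (1 -
      cx (17 / 32) (1 - κ * (x - 1)) (1 - κ * (y - 1)) (1 - κ * (z - 1))))) := by
    congr 1; ring
  rw [e]
  linarith

/-- positivity of `C_t` on the message side -/
theorem cx_msg_nonneg {κ x y z : ℝ} (hκ : 0 < κ) (hκ2 : κ ≤ 189 / 500) (hx : 0 ≤ x) (hy : 0 ≤ y)
    (hz : 0 ≤ z) (hs : x + y + z = 3) :
    0 ≤ cx (17 / 32) (1 - κ * (x - 1)) (1 - κ * (y - 1)) (1 - κ * (z - 1)) := by
  have b : ∀ u : ℝ, 0 ≤ u → u ≤ 3 → 61 / 250 ≤ 1 - κ * (u - 1) ∧ 1 - κ * (u - 1) ≤ 689 / 500 :=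
    fun u h0 h1 => ⟨by nlinarith, by nlinarith⟩
  have hc : ∀ u v : ℝ, 61 / 250 ≤ u → u ≤ 689 / 500 → 61 / 250 ≤ v → v ≤ 689 / 500 →
      0 ≤ Real.cos (17 / 32 * (Real.log u - Real.log v)) := by
    have key : ∀ u v : ℝ, 61 / 250 ≤ u → u ≤ 689 / 500 → 61 / 250 ≤ v → v ≤ 689 / 500 →
        Real.log u - Real.log v ≤ 2 := by
      intro u v h1 h2 h3 h4
      have l1 := Real.log_le_sub_one_of_pos (by linarith : 0 < u)
      have l2 := neg_log_le (v := 1 - v)
      rcases le_or_gt v 1 with h | h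
      · have l3 := l2 (by linarith) (by linarith)
        have e : 1 - (1 - v) = v := by ring
        rw [e] at l3
        linarith
      · have := Real.log_nonneg h.le
        linarith
    intro u v h1 h2 h3 h4
    have k1 := key u v h1 h2 h3 h4
    have k2 := key v u h3 h4 h1 h2
    have hpi := Real.pi_gt_three
    refine Real.cos_nonneg_of_neg_pi_div_two_le_of_le ?_ ?_ <;> linarith
  obtain ⟨a1, a2⟩ := b x hx (by linarith)
  obtain ⟨b1, b2⟩ := b y hy (by linarith)
  obtain ⟨c1, c2⟩ := b z hz (by linarith)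
  unfold cx
  have := mul_nonneg (by linarith : 0 ≤ 1 - κ * (x - 1)) (hc _ _ b1 b2 c1 c2)
  have := mul_nonneg (by linarith : 0 ≤ 1 - κ * (y - 1)) (hc _ _ c1 c2 a1 a2)
  have := mul_nonneg (by linarith : 0 ≤ 1 - κ * (z - 1)) (hc _ _ a1 a2 b1 b2)
  linarith

end Crest.Agent.R163.TM
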