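import Crest.Agent.R163.TM.Core

/-!
Row 163: scalar balls and composition of Taylor models with one-variable functions.
-/

set_option autoImplicit false
set_option linter.dupNamespace false

namespace Crest.Agent.R163.TM

/-- scalar ball: value `v` (two's complement, scale `2 ^ 32`), error `e`, size bound `n` -/
structure S where
  v : ℕ
  e : ℕ
  n : ℕ

def RepS (s : S) (r : ℝ) : Prop :=
  s.n < 28948022309329048855892746252171976963317496166410141009864396001978282409984 →
    ∃ i : ℤ, Cg s.v i ∧ |i| ≤ s.n ∧ |r * 4294967296 - i| ≤ s.e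

/-! ### scalar operations -/

def sneg (a : S) : S := ⟨Nat.mul a.v 115792089237316195423570985008687907853269984665640564039457584007913129639935, a.e, a.n⟩

lemma RepS.neg {a : S} {r : ℝ} (ha : RepS a r) : RepS (sneg a) (-r) := by
  intro hn
  obtain ⟨i, h1, h2, h3⟩ := ha hn
  refine ⟨-i, h1.neg, by rwa [abs_neg], ?_⟩
  have : -r * 4294967296 - ((-i : ℤ) : ℝ) = -(r * 4294967296 - i) := by push_cast; ring
  rw [this, abs_neg]
  exact h3

def sadd (a b : S) : S := ⟨Nat.add a.v b.v, Nat.add a.e b.e, Nat.add a.n b.n⟩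

lemma RepS.add {a b : S} {r s : ℝ} (ha : RepS a r) (hb : RepS b s) : RepS (sadd a b) (r + s) := by
  intro hn
  change a.n + b.n < _ at hn
  obtain ⟨i, h1, h2, h3⟩ := ha (by omega)
  obtain ⟨j, k1, k2, k3⟩ := hb (by omega)
  refine ⟨i + j, h1.add k1, ?_, ?_⟩
  · change _ ≤ ((a.n + b.n : ℕ) : ℤ)
    push_cast
    exact (abs_add_le _ _).trans (add_le_add h2 k2)
  · change _ ≤ ((a.e + b.e : ℕ) : ℝ)
    push_cast
    have : (r + s) * 4294967296 - (i + j) =
      (r * 4294967296 - i) + (s * 4294967296 - j) := by ring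
    rw [this]
    exact (abs_add_le _ _).trans (add_le_add h3 k3)

def smulS (a b : S) : S :=
  { v := sh (Nat.mul a.v b.v)
    e := Nat.add (Nat.div (Nat.add (Nat.add (Nat.mul (ab a.v) b.e) (Nat.mul (ab b.v) a.e))
      (Nat.mul a.e b.e)) 4294967296) 2
    n := Nat.add (Nat.add (Nat.div (Nat.mul (ab a.v) (ab b.v)) 4294967296) 2)
      (Nat.mul (Nat.add (Nat.add (Nat.div (ab a.v) 21267647932558653966460912964485513216) (Nat.div (ab b.v) 21267647932558653966460912964485513216))
        (Nat.add (Nat.div a.n 28948022309329048855892746252171976963317496166410141009864396001978282409984) (Nat.div b.n 28948022309329048855892746252171976963317496166410141009864396001978282409984)))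
        28948022309329048855892746252171976963317496166410141009864396001978282409984) }

lemma smulS_n (a b : S) : (smulS a b).n =
    Nat.add (Nat.add (Nat.div (Nat.mul (ab a.v) (ab b.v)) 4294967296) 2)
      (Nat.mul (Nat.add (Nat.add (Nat.div (ab a.v) 21267647932558653966460912964485513216) (Nat.div (ab b.v) 21267647932558653966460912964485513216))
        (Nat.add (Nat.div a.n 28948022309329048855892746252171976963317496166410141009864396001978282409984) (Nat.div b.n 28948022309329048855892746252171976963317496166410141009864396001978282409984)))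
        28948022309329048855892746252171976963317496166410141009864396001978282409984) := rfl

lemma RepS.mul {a b : S} {r s : ℝ} (ha : RepS a r) (hb : RepS b s) :
    RepS (smulS a b) (r * s) := by
  intro hn
  rw [smulS_n] at hn
  obtain ⟨h1, h2, h4, h5, h3⟩ := flag hn
  obtain ⟨i, i1, i20, i3⟩ := ha (by omega)
  obtain ⟨j, j1, j20, j3⟩ := hb (by omega)
  have i2 : |i| ≤ (ab a.v : ℤ) := (ab_eq i1 (by omega)).ge
  have j2 : |j| ≤ (ab b.v : ℤ) := (ab_eq j1 (by omega)).ge
  have hprod : |i| * |j| ≤ ab a.v * ab b.v := mul_le_mul i2 j2 (abs_nonneg _) (Int.natCast_nonneg _)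
  have hbig : (ab a.v : ℤ) * ab b.v ≤ 21267647932558653966460912964485513216 * 21267647932558653966460912964485513216 :=
    mul_le_mul (by omega) (by omega) (Int.natCast_nonneg _) (by norm_num)
  have hR : |i * j| < 57896044618658097711785492504343953926634992332820282019728792003956564819968 := by
    rw [abs_mul]
    refine lt_of_le_of_lt (hprod.trans hbig) ?_
    norm_num
  refine ⟨i * j / 4294967296, (i1.mul j1).sh hR, ?_, ?_⟩
  · have g1 := fl_abs (i * j)
    have g2 : |((i * j : ℤ) : ℝ)| ≤ ((ab a.v * ab b.v : ℕ) : ℝ) := by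
      rw [← Int.cast_abs, abs_mul]
      exact_mod_cast hprod
    have g3 := shr_le (ab a.v * ab b.v)
    have g4 : |((i * j / 4294967296 : ℤ) : ℝ)| ≤ ((ab a.v * ab b.v / 4294967296 + 2 : ℕ) : ℝ) := by
      have : |((i * j : ℤ) : ℝ)| / 4294967296 ≤ ((ab a.v * ab b.v : ℕ) : ℝ) / 4294967296 := by gcongr
      rw [Nat.cast_add]
      push_cast at this g3 ⊢
      push_cast at g1
      linarith
    have g5 : |i * j / 4294967296| ≤ ((ab a.v * ab b.v / 4294967296 + 2 : ℕ) : ℤ) := by
      generalize ab a.v * ab b.v / 4294967296 + 2 = N at g4 ⊢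
      generalize i * j / 4294967296 = M at g4 ⊢
      exact_mod_cast g4
    refine g5.trans ?_
    rw [smulS_n]
    exact Int.ofNat_le.mpr (Nat.le_add_right _ _)
  · have e1 := ab_eq i1 (by linarith : |i| < 57896044618658097711785492504343953926634992332820282019728792003956564819968)
    have e2 := ab_eq j1 (by linarith : |j| < 57896044618658097711785492504343953926634992332820282019728792003956564819968)
    have r1 : ((ab a.v : ℕ) : ℝ) = |(i : ℝ)| := by
      have : (((ab a.v : ℕ) : ℤ) : ℝ) = ((|i| : ℤ) : ℝ) := by rw [e1]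
      push_cast at this; exact this
    have r2 : ((ab b.v : ℕ) : ℝ) = |(j : ℝ)| := by
      have : (((ab b.v : ℕ) : ℤ) : ℝ) = ((|j| : ℤ) : ℝ) := by rw [e2]
      push_cast at this; exact this
    set E : ℕ := ab a.v * b.e + ab b.v * a.e + a.e * b.e with hE
    change _ ≤ ((E / 4294967296 + 2 : ℕ) : ℝ)
    have hsh := shr_le E
    set x := r * 4294967296 - i with hx
    set y := s * 4294967296 - j with hy
    have key : r * s * 4294967296 - ((i * j / 4294967296 : ℤ) : ℝ) =
        ((i * y + j * x + x * y) / 4294967296) +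
        (((i * j : ℤ) : ℝ) / 4294967296 - ((i * j / 4294967296 : ℤ) : ℝ)) := by
      rw [hx, hy]; push_cast; ring
    rw [key]
    have h4 := fl_lo (i * j)
    have h5 : |(i * y + j * x + x * y) / 4294967296| ≤ (E : ℝ) / 4294967296 := by
      rw [abs_div, abs_of_pos (by norm_num : (0 : ℝ) < 4294967296)]
      gcongr
      refine (abs_add3 _ _ _).trans ?_
      rw [abs_mul, abs_mul, abs_mul, hE]
      push_cast
      rw [r1, r2]
      have t1 : |(i : ℝ)| * |y| ≤ |(i : ℝ)| * b.e := by gcongr
      have t2 : |(j : ℝ)| * |x| ≤ |(j : ℝ)| * a.e := by gcongr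
      have t3 : |x| * |y| ≤ (a.e : ℝ) * b.e := mul_le_mul i3 j3 (abs_nonneg _) (Nat.cast_nonneg _)
      linarith
    refine (abs_add_le _ _).trans ?_
    rw [Nat.cast_add]
    push_cast at hsh h4 ⊢
    linarith

/-- an exact nonnegative constant `m / 2 ^ 32` -/
def sc (m : ℕ) : S := ⟨m, 0, m⟩

lemma repS_sc (m : ℕ) {r : ℝ} (h : r * 4294967296 = m) : RepS (sc m) r := by
  intro _
  refine ⟨m, Cg.ofNat m, by simp [sc], ?_⟩
  simp [sc, h]

/-! ### scalar times Taylor model -/

/-- add a scalar -/
def addS (s : S) (a : T) : T :=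
  { c := Nat.add a.c s.v
    l0 := a.l0
    l1 := a.l1
    l2 := a.l2
    q0 := a.q0
    q1 := a.q1
    q2 := a.q2
    q01 := a.q01
    q02 := a.q02
    q12 := a.q12
    e := Nat.add a.e s.e
    n := Nat.add a.n s.n }

lemma Rep.addS {P : Pt} {a : T} {g : ℝ} {s : S} {r : ℝ} (hs : RepS s r) (ha : Rep P a g) :
    Rep P (addS s a) (g + r) := by
  intro hn
  change a.n + s.n < _ at hn
  obtain ⟨i, i1, i2, i3⟩ := hs (by omega)
  obtain ⟨k, hk, hkn, hke⟩ := ha (by omega)
  refine ⟨⟨k.c + i, k.l0, k.l1, k.l2, k.q0, k.q1, k.q2, k.q01, k.q02, k.q12⟩,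
    ⟨hk.c.add i1, hk.l0, hk.l1, hk.l2, hk.q0, hk.q1, hk.q2, hk.q01, hk.q02, hk.q12⟩, ?_, ?_⟩
  · change _ ≤ ((a.n + s.n : ℕ) : ℤ)
    push_cast
    have := abs_add_le k.c i
    unfold Z.norm at *
    change |k.c + i| + k.lA + k.qA ≤ _
    linarith
  · change _ ≤ ((a.e + s.e : ℕ) : ℝ)
    push_cast
    have : (g + r) * 4294967296 -
        Z.ev ⟨k.c + i, k.l0, k.l1, k.l2, k.q0, k.q1, k.q2, k.q01, k.q02, k.q12⟩ P =
        (g * 4294967296 - k.ev P) + (r * 4294967296 - i) := by
      unfold Z.ev Z.lv Z.qv; push_cast; ring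
    rw [this]
    exact (abs_add_le _ _).trans (add_le_add hke i3)

/-- multiply by a scalar -/
def smul (s : S) (a : T) : T :=
  { c := sh (Nat.mul a.c s.v)
    l0 := sh (Nat.mul a.l0 s.v)
    l1 := sh (Nat.mul a.l1 s.v)
    l2 := sh (Nat.mul a.l2 s.v)
    q0 := sh (Nat.mul a.q0 s.v)
    q1 := sh (Nat.mul a.q1 s.v)
    q2 := sh (Nat.mul a.q2 s.v)
    q01 := sh (Nat.mul a.q01 s.v)
    q02 := sh (Nat.mul a.q02 s.v)
    q12 := sh (Nat.mul a.q12 s.v)
    e := Nat.add (Nat.div (Nat.add (Nat.mul (ab s.v) a.e)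
      (Nat.mul s.e (Nat.add (Nat.add (ab a.c) (la a)) (Nat.add (qa a) a.e)))) 4294967296) 11
    n := Nat.add (Nat.add (Nat.div (Nat.mul (nn a) (ab s.v)) 4294967296) 11)
      (Nat.mul (Nat.add (Nat.add (Nat.div (nn a) 21267647932558653966460912964485513216) (Nat.div (ab s.v) 21267647932558653966460912964485513216))
        (Nat.add (Nat.div a.n 28948022309329048855892746252171976963317496166410141009864396001978282409984) (Nat.div s.n 28948022309329048855892746252171976963317496166410141009864396001978282409984)))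
        28948022309329048855892746252171976963317496166410141009864396001978282409984) }

lemma smul_n (s : S) (a : T) : (smul s a).n =
    Nat.add (Nat.add (Nat.div (Nat.mul (nn a) (ab s.v)) 4294967296) 11)
      (Nat.mul (Nat.add (Nat.add (Nat.div (nn a) 21267647932558653966460912964485513216) (Nat.div (ab s.v) 21267647932558653966460912964485513216))
        (Nat.add (Nat.div a.n 28948022309329048855892746252171976963317496166410141009864396001978282409984) (Nat.div s.n 28948022309329048855892746252171976963317496166410141009864396001978282409984)))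
        28948022309329048855892746252171976963317496166410141009864396001978282409984) := rfl

def Z.smul (i : ℤ) (a : Z) : Z := ⟨a.c * i, a.l0 * i, a.l1 * i, a.l2 * i, a.q0 * i, a.q1 * i,
  a.q2 * i, a.q01 * i, a.q02 * i, a.q12 * i⟩

lemma Z.smul_norm (i : ℤ) (a : Z) : (a.smul i).norm = a.norm * |i| := by
  unfold Z.norm Z.lA Z.qA Z.smul
  simp only [abs_mul]
  ring

lemma Rep.smul {P : Pt} {a : T} {g : ℝ} {s : S} {r : ℝ} (hs : RepS s r) (ha : Rep P a g) :
    Rep P (smul s a) (g * r) := by
  intro hn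
  rw [smul_n] at hn
  obtain ⟨h1, h2, h4, h5, h3⟩ := flag hn
  obtain ⟨k, hk, hkn0, hke⟩ := ha (by omega)
  obtain ⟨i, i1, i20, i3⟩ := hs (by omega)
  have hkn : k.norm ≤ (nn a : ℤ) := (nn_eq hk (by omega)).ge
  have i2 : |i| ≤ (ab s.v : ℤ) := (ab_eq i1 (by omega)).ge
  have hk' : k.norm < 57896044618658097711785492504343953926634992332820282019728792003956564819968 := by omega
  have hraw := k.smul_norm i
  have hprod : k.norm * |i| ≤ nn a * ab s.v :=
    mul_le_mul hkn i2 (abs_nonneg _) (Int.natCast_nonneg _)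
  have hbig : (nn a : ℤ) * ab s.v ≤ 21267647932558653966460912964485513216 * 21267647932558653966460912964485513216 :=
    mul_le_mul (by omega) (by omega) (Int.natCast_nonneg _) (by norm_num)
  have hR : (k.smul i).norm < 57896044618658097711785492504343953926634992332820282019728792003956564819968 := by
    rw [hraw]
    refine lt_of_le_of_lt (hprod.trans hbig) ?_
    norm_num
  have b0 := abs_nonneg (k.smul i).c
  have b1 := abs_nonneg (k.smul i).l0
  have b2 := abs_nonneg (k.smul i).l1
  have b3 := abs_nonneg (k.smul i).l2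
  have b4 := abs_nonneg (k.smul i).q0
  have b5 := abs_nonneg (k.smul i).q1
  have b6 := abs_nonneg (k.smul i).q2
  have b7 := abs_nonneg (k.smul i).q01
  have b8 := abs_nonneg (k.smul i).q02
  have b9 := abs_nonneg (k.smul i).q12
  have hR' := hR
  unfold Z.norm Z.lA Z.qA at hR'
  refine ⟨(k.smul i).fl, ⟨?_, ?_, ?_, ?_, ?_, ?_, ?_, ?_, ?_, ?_⟩, ?_, ?_⟩
  · exact (hk.c.mul i1).sh (i := (k.smul i).c) (by linarith)
  · exact (hk.l0.mul i1).sh (i := (k.smul i).l0) (by linarith)
  · exact (hk.l1.mul i1).sh (i := (k.smul i).l1) (by linarith)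
  · exact (hk.l2.mul i1).sh (i := (k.smul i).l2) (by linarith)
  · exact (hk.q0.mul i1).sh (i := (k.smul i).q0) (by linarith)
  · exact (hk.q1.mul i1).sh (i := (k.smul i).q1) (by linarith)
  · exact (hk.q2.mul i1).sh (i := (k.smul i).q2) (by linarith)
  · exact (hk.q01.mul i1).sh (i := (k.smul i).q01) (by linarith)
  · exact (hk.q02.mul i1).sh (i := (k.smul i).q02) (by linarith)
  · exact (hk.q12.mul i1).sh (i := (k.smul i).q12) (by linarith)
  · -- norm
    have g1 := (k.smul i).fl_norm
    have g2 : ((k.smul i).norm : ℝ) ≤ ((nn a * ab s.v : ℕ) : ℝ) := by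
      rw [hraw]; exact_mod_cast hprod
    have g3 := shr_le (nn a * ab s.v)
    have g4 : (((k.smul i).fl.norm : ℤ) : ℝ) ≤
        ((nn a * ab s.v / 4294967296 + 11 : ℕ) : ℝ) := by
      push_cast
      have : ((k.smul i).norm : ℝ) / 4294967296 ≤ ((nn a * ab s.v : ℕ) : ℝ) / 4294967296 := by
        gcongr
      push_cast at this g3
      linarith
    have g5 : (k.smul i).fl.norm ≤ ((nn a * ab s.v / 4294967296 + 11 : ℕ) : ℤ) := by
      generalize nn a * ab s.v / 4294967296 + 11 = N at g4 ⊢
      exact_mod_cast g4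
    refine g5.trans ?_
    rw [smul_n]
    exact Int.ofNat_le.mpr (Nat.le_add_right _ _)
  · -- error
    have hkc : |k.c| < 57896044618658097711785492504343953926634992332820282019728792003956564819968 := by
      have := k.lA_nonneg; have := k.qA_nonneg
      unfold Z.norm at hk'; linarith
    have rka : ((la a : ℕ) : ℝ) = (k.lA : ℝ) := by exact_mod_cast la_eq hk hk'
    have rqa : ((qa a : ℕ) : ℝ) = (k.qA : ℝ) := by exact_mod_cast qa_eq hk hk'
    have rkc : ((ab a.c : ℕ) : ℝ) = |(k.c : ℝ)| := by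
      have : (((ab a.c : ℕ) : ℤ) : ℝ) = ((|k.c| : ℤ) : ℝ) := by rw [ab_eq hk.c hkc]
      push_cast at this; exact this
    have rv : ((ab s.v : ℕ) : ℝ) = |(i : ℝ)| := by
      have : (((ab s.v : ℕ) : ℤ) : ℝ) = ((|i| : ℤ) : ℝ) := by rw [ab_eq i1 (by linarith)]
      push_cast at this; exact this
    set E : ℕ := ab s.v * a.e + s.e * (ab a.c + la a + (qa a + a.e)) with hE
    change _ ≤ ((E / 4294967296 + 11 : ℕ) : ℝ)
    have hsh := shr_le E
    have u1 := k.lv_le P
    have u2 := k.qv_le P
    set εa := g * 4294967296 - k.ev P with hεa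
    set εr := r * 4294967296 - i with hεr
    have hev : |k.ev P| ≤ |(k.c : ℝ)| + k.lA + k.qA := by
      unfold Z.ev
      refine (abs_add3 _ _ _).trans ?_
      linarith
    have key : g * 4294967296 * (r * 4294967296) - (k.smul i).ev P =
        i * εa + εr * (k.ev P + εa) := by
      have e1 : g * 4294967296 = k.ev P + εa := by rw [hεa]; ring
      have e2 : r * 4294967296 = i + εr := by rw [hεr]; ring
      rw [e1, e2]
      unfold Z.ev Z.lv Z.qv Z.smul
      push_cast
      ring
    have hbound : |g * 4294967296 * (r * 4294967296) - (k.smul i).ev P| ≤ E := by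
      rw [key, hE]
      push_cast
      rw [rka, rqa, rkc, rv]
      refine (abs_add_le _ _).trans ?_
      rw [abs_mul, abs_mul]
      have t1 : |(i : ℝ)| * |εa| ≤ |(i : ℝ)| * a.e := by gcongr
      have t2 : |εr| * |k.ev P + εa| ≤ (s.e : ℝ) * (|(k.c : ℝ)| + k.lA + (k.qA + a.e)) := by
        refine mul_le_mul i3 ?_ (abs_nonneg _) (Nat.cast_nonneg _)
        refine (abs_add_le _ _).trans ?_
        linarith
      linarith
    have hfl := (k.smul i).fl_ev P
    have e3 : g * r * 4294967296 - (k.smul i).fl.ev P =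
        (g * 4294967296 * (r * 4294967296) - (k.smul i).ev P) / 4294967296 +
        ((k.smul i).ev P / 4294967296 - (k.smul i).fl.ev P) := by ring
    rw [e3]
    refine (abs_add_le _ _).trans ?_
    rw [abs_div, abs_of_pos (by norm_num : (0 : ℝ) < 4294967296)]
    have : |g * 4294967296 * (r * 4294967296) - (k.smul i).ev P| / 4294967296 ≤
        (E : ℝ) / 4294967296 := by gcongr
    rw [Nat.cast_add]
    push_cast at hsh ⊢
    linarith

/-! ### radius, remainder, composition -/

/-- bound for the absolute value -/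
def rad (a : T) : ℕ := Nat.add (Nat.add (ab a.c) (la a)) (Nat.add (qa a) a.e)

lemma Rep.rad {P : Pt} {a : T} {g : ℝ} (ha : Rep P a g)
    (hn : a.n < 28948022309329048855892746252171976963317496166410141009864396001978282409984) : |g| * 4294967296 ≤ rad a := by
  obtain ⟨k, hk, hkn, hke⟩ := ha hn
  have hk' : k.norm < 57896044618658097711785492504343953926634992332820282019728792003956564819968 := by omega
  have hkc : |k.c| < 57896044618658097711785492504343953926634992332820282019728792003956564819968 := by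
    have := k.lA_nonneg; have := k.qA_nonneg
    unfold Z.norm at hk'; linarith
  have rka : ((la a : ℕ) : ℝ) = (k.lA : ℝ) := by exact_mod_cast la_eq hk hk'
  have rqa : ((qa a : ℕ) : ℝ) = (k.qA : ℝ) := by exact_mod_cast qa_eq hk hk'
  have rkc : ((ab a.c : ℕ) : ℝ) = |(k.c : ℝ)| := by
    have : (((ab a.c : ℕ) : ℤ) : ℝ) = ((|k.c| : ℤ) : ℝ) := by rw [ab_eq hk.c hkc]
    push_cast at this; exact this
  have hev : |k.ev P| ≤ |(k.c : ℝ)| + k.lA + k.qA := by
    unfold Z.ev
    refine (abs_add3 _ _ _).trans ?_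
    have := k.lv_le P
    have := k.qv_le P
    linarith
  change _ ≤ ((ab a.c + la a + (qa a + a.e) : ℕ) : ℝ)
  push_cast
  rw [rka, rqa, rkc]
  have h1 : |g| * 4294967296 = |g * 4294967296| := by
    rw [abs_mul, abs_of_pos (by norm_num : (0 : ℝ) < 4294967296)]
  rw [h1]
  have h2 : g * 4294967296 = (g * 4294967296 - k.ev P) + k.ev P := by ring
  rw [h2]
  refine (abs_add_le _ _).trans ?_
  linarith

/-- increase the error and the size flag -/
def addE (a : T) (e n : ℕ) : T :=
  { c := a.c
    l0 := a.l0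
    l1 := a.l1
    l2 := a.l2
    q0 := a.q0
    q1 := a.q1
    q2 := a.q2
    q01 := a.q01
    q02 := a.q02
    q12 := a.q12
    e := Nat.add a.e e
    n := Nat.add a.n n }

lemma Rep.addE {P : Pt} {a : T} {g h : ℝ} {e n : ℕ} (ha : Rep P a g)
    (hh : a.n < 28948022309329048855892746252171976963317496166410141009864396001978282409984 →
      n < 28948022309329048855892746252171976963317496166410141009864396001978282409984 → |h - g| * 4294967296 ≤ e) :
    Rep P (addE a e n) h := by
  intro hn
  change a.n + n < _ at hn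
  obtain ⟨k, hk, hkn, hke⟩ := ha (by omega)
  refine ⟨k, ⟨hk.c, hk.l0, hk.l1, hk.l2, hk.q0, hk.q1, hk.q2, hk.q01, hk.q02, hk.q12⟩, ?_, ?_⟩
  · change _ ≤ ((a.n + n : ℕ) : ℤ)
    push_cast; linarith
  · change _ ≤ ((a.e + e : ℕ) : ℝ)
    push_cast
    have h1 := hh (by omega) (by omega)
    have h2 : h * 4294967296 - k.ev P = (g * 4294967296 - k.ev P) + (h - g) * 4294967296 := by ring
    rw [h2]
    refine (abs_add_le _ _).trans ?_
    rw [abs_mul (h - g), abs_of_pos (by norm_num : (0 : ℝ) < 4294967296)]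
    linarith

/-- `u0 + d (u1 + u2 d)` -/
def quad (d : T) (u0 u1 u2 : S) : T := addS u0 (mul d (addS u1 (smul u2 d)))

lemma Rep.quad {P : Pt} {d : T} {x : ℝ} {u0 u1 u2 : S} {r0 r1 r2 : ℝ} (hd : Rep P d x)
    (h0 : RepS u0 r0) (h1 : RepS u1 r1) (h2 : RepS u2 r2) :
    Rep P (quad d u0 u1 u2) (x * (x * r2 + r1) + r0) :=
  (hd.mul ((hd.smul h2).addS h1)).addS h0

end Crest.Agent.R163.TM
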