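import Crest.Agent.R163.TM.Fun

/-!
Row 163: scalar values of `exp`, `cos`, `sin`, `log`, `1 / x` (internal scale `2 ^ 48`).
-/

set_option autoImplicit false
set_option linter.dupNamespace false

namespace Crest.Agent.R163.TM

/-! ### general shift -/

lemma Cg.shg {v : ℕ} {i : ℤ} (d m adj : ℕ) (hd : 0 < d)
    (h1 : m * d = 57896044618658097711785492504343953926634992332820282019728792003956564819968)
    (h2 : adj + m = 115792089237316195423570985008687907853269984665640564039457584007913129639936) (h : Cg v i)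
    (hi : |i| < 57896044618658097711785492504343953926634992332820282019728792003956564819968) :
    Cg (Nat.add (Nat.div (Nat.mod (Nat.add v 57896044618658097711785492504343953926634992332820282019728792003956564819968)
    115792089237316195423570985008687907853269984665640564039457584007913129639936) d) adj) (i / d) := by
  have h3 := dec h hi
  set u := Nat.mod (Nat.add v 57896044618658097711785492504343953926634992332820282019728792003956564819968)
      115792089237316195423570985008687907853269984665640564039457584007913129639936 with hu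
  refine ⟨1, ?_⟩
  change ((u / d + adj : ℕ) : ℤ) = _
  push_cast
  rw [h3]
  have h4 : (57896044618658097711785492504343953926634992332820282019728792003956564819968 : ℤ) = (m : ℤ) * d := by exact_mod_cast h1.symm
  have h5 : (adj : ℤ) = 115792089237316195423570985008687907853269984665640564039457584007913129639936 - m := by
    have : ((adj + m : ℕ) : ℤ) = 115792089237316195423570985008687907853269984665640564039457584007913129639936 := by rw [h2]; rfl
    push_cast at this; linarith
  rw [h4, Int.add_mul_ediv_right _ _ (by exact_mod_cast hd.ne'), h5]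
  ring

lemma fl_gen (i : ℤ) {d : ℕ} (hd : 0 < d) : |(i : ℝ) / d - ((i / d : ℤ) : ℝ)| ≤ 1 := by
  have hd' : (d : ℤ) ≠ 0 := by exact_mod_cast hd.ne'
  have h1 := Int.mul_ediv_add_emod i d
  have h2 := Int.emod_nonneg i hd'
  have h3 := Int.emod_lt_of_pos i (by exact_mod_cast hd : (0 : ℤ) < d)
  have hdr : (0 : ℝ) < d := by exact_mod_cast hd
  have h4 : (i : ℝ) = d * ((i / d : ℤ) : ℝ) + ((i % d : ℤ) : ℝ) := by
    exact_mod_cast h1.symm
  have h5 : (0 : ℝ) ≤ ((i % d : ℤ) : ℝ) := by exact_mod_cast h2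
  have h6 : ((i % d : ℤ) : ℝ) ≤ d := by exact_mod_cast h3.le
  have h7 : (i : ℝ) / d - ((i / d : ℤ) : ℝ) = ((i % d : ℤ) : ℝ) / d := by
    rw [eq_div_iff hdr.ne', sub_mul, div_mul_cancel₀ _ hdr.ne']
    linarith
  rw [h7, abs_of_nonneg (by positivity), div_le_one hdr]
  exact h6

lemma nat_div_near (m : ℕ) {d : ℕ} (hd : 0 < d) : |(m : ℝ) / d - ((m / d : ℕ) : ℝ)| ≤ 1 := by
  have h := fl_gen (m : ℤ) hd
  have e : (((m : ℤ) / (d : ℤ) : ℤ) : ℝ) = ((m / d : ℕ) : ℝ) := by
    rw [← Int.natCast_div, Int.cast_natCast]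
  rw [e, Int.cast_natCast] at h
  exact h

lemma nat_sub_near (a b : ℕ) {y : ℝ} (hy : 0 ≤ y) :
    |((a - b : ℕ) : ℝ) - y| ≤ |(a : ℝ) - b - y| := by
  rcases le_total b a with h | h
  · rw [Nat.cast_sub h]
  · rw [Nat.sub_eq_zero_of_le h, Nat.cast_zero, zero_sub, abs_neg, abs_of_nonneg hy]
    have : (a : ℝ) ≤ b := by exact_mod_cast h
    rw [abs_of_nonpos (by linarith)]
    linarith

/-- `D - W T / (k D)` -/
def stp (kD W t : ℕ) : ℕ := Nat.sub 281474976710656 (Nat.div (Nat.mul W t) kD)

lemma stp_near {k : ℕ} (hk : 1 ≤ k) {W t : ℕ} {w r η : ℝ} (h0 : 0 ≤ w) (h1 : w ≤ 1 / 4)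
    (hη : η ≤ 1) (hW : |(W : ℝ) - w * 281474976710656| ≤ η) (r0 : 0 ≤ r) (r1 : r ≤ 1)
    (hT : |(t : ℝ) - r * 281474976710656| ≤ 4) :
    |((stp (k * 281474976710656) W t : ℕ) : ℝ) - (1 - w * r / k) * 281474976710656| ≤ 4 ∧
      0 ≤ 1 - w * r / k ∧ 1 - w * r / k ≤ 1 := by
  have hk' : (1 : ℝ) ≤ k := by exact_mod_cast hk
  have hwr : 0 ≤ w * r := mul_nonneg h0 r0
  have hwr1 : w * r ≤ 1 / 4 := by nlinarith
  have e1 : w * r / k ≤ 1 / 4 := by
    rw [div_le_iff₀ (by linarith)]; nlinarith
  have e2 : 0 ≤ w * r / k := by positivity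
  refine ⟨?_, by linarith, by linarith⟩
  change |((281474976710656 - (W * t) / (k * 281474976710656) : ℕ) : ℝ) - _| ≤ 4
  refine (nat_sub_near _ _ (by nlinarith)).trans ?_
  have h2 := nat_div_near (W * t) (d := k * 281474976710656) (by positivity)
  set X : ℝ := ((W * t / (k * 281474976710656) : ℕ) : ℝ)
  push_cast at h2 ⊢
  have e3 : (281474976710656 : ℝ) - X - (1 - w * r / k) * 281474976710656 =
      ((W : ℝ) * t / (k * 281474976710656) - X) -
      ((W : ℝ) * t - w * 281474976710656 * (r * 281474976710656)) / (k * 281474976710656) := by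
    field_simp
    ring
  rw [e3]
  have hη0 : 0 ≤ η := (abs_nonneg _).trans hW
  have ht : |(t : ℝ)| ≤ 281474976710656 + 4 := by
    have : (t : ℝ) = (t - r * 281474976710656) + r * 281474976710656 := by ring
    rw [this]
    refine (abs_add_le _ _).trans ?_
    rw [abs_of_nonneg (by positivity : 0 ≤ r * 281474976710656)]
    linarith
  have e4 : |(W : ℝ) * t - w * 281474976710656 * (r * 281474976710656)| ≤
      2 * 281474976710656 + 4 := by
    have : (W : ℝ) * t - w * 281474976710656 * (r * 281474976710656) =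
        (W - w * 281474976710656) * t + w * 281474976710656 * (t - r * 281474976710656) := by ring
    rw [this]
    refine (abs_add_le _ _).trans ?_
    rw [abs_mul, abs_mul, abs_of_nonneg (by positivity : 0 ≤ w * 281474976710656)]
    have t1 : |(W : ℝ) - w * 281474976710656| * |(t : ℝ)| ≤ 1 * (281474976710656 + 4) :=
      mul_le_mul (hW.trans hη) ht (abs_nonneg _) (by norm_num)
    have t2 : w * 281474976710656 * |(t : ℝ) - r * 281474976710656| ≤
        1 / 4 * 281474976710656 * 4 / 2 + 1/4 * 281474976710656 * 4 / 2 := by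
      have : w * 281474976710656 * |(t : ℝ) - r * 281474976710656| ≤
        1 / 4 * 281474976710656 * 4 := by gcongr
      linarith
    nlinarith
  have e5 : |((W : ℝ) * t - w * 281474976710656 * (r * 281474976710656)) /
      (k * 281474976710656)| ≤ 3 := by
    rw [abs_div, abs_of_pos (by positivity : (0 : ℝ) < k * 281474976710656),
      div_le_iff₀ (by positivity)]
    nlinarith
  have := abs_sub ((W : ℝ) * t / (k * 281474976710656) - X)
    (((W : ℝ) * t - w * 281474976710656 * (r * 281474976710656)) / (k * 281474976710656))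
  linarith

/-! ### exponential -/

/-- `exp (-w)`, `w = W / 2 ^ 48`, `W ≤ 2 ^ 46` -/
def en8 (W : ℕ) : ℕ :=
  stp 281474976710656 W (stp 562949953421312 W (stp 844424930131968 W (stp 1125899906842624 W
    (stp 1407374883553280 W (stp 1688849860263936 W (stp 1970324836974592 W
      (stp 2251799813685248 W 281474976710656)))))))

lemma en8_near {W : ℕ} {w : ℝ} (h0 : 0 ≤ w) (h1 : w ≤ 1 / 4) (hW : (W : ℝ) = w * 281474976710656) :
    |((en8 W : ℕ) : ℝ) - Real.exp (-w) * 281474976710656| ≤ 3292 := by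
  have hW' : |(W : ℝ) - w * 281474976710656| ≤ 0 := by rw [hW]; simp
  have hw : w ≤ 1 / 4 := by linarith
  obtain ⟨a8, b8, c8⟩ := stp_near (k := 8) (by norm_num) h0 hw zero_le_one hW'
    zero_le_one le_rfl (t := 281474976710656) (by norm_num)
  obtain ⟨a7, b7, c7⟩ := stp_near (k := 7) (by norm_num) h0 hw zero_le_one hW' b8 c8 a8
  obtain ⟨a6, b6, c6⟩ := stp_near (k := 6) (by norm_num) h0 hw zero_le_one hW' b7 c7 a7
  obtain ⟨a5, b5, c5⟩ := stp_near (k := 5) (by norm_num) h0 hw zero_le_one hW' b6 c6 a6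
  obtain ⟨a4, b4, c4⟩ := stp_near (k := 4) (by norm_num) h0 hw zero_le_one hW' b5 c5 a5
  obtain ⟨a3, b3, c3⟩ := stp_near (k := 3) (by norm_num) h0 hw zero_le_one hW' b4 c4 a4
  obtain ⟨a2, b2, c2⟩ := stp_near (k := 2) (by norm_num) h0 hw zero_le_one hW' b3 c3 a3
  obtain ⟨a1, b1, c1⟩ := stp_near (k := 1) (by norm_num) h0 hw zero_le_one hW' b2 c2 a2
  norm_num at a1
  have hx : |(-w)| ≤ 1 := by rw [abs_neg, abs_of_nonneg h0]; linarith
  have h2 := Real.exp_bound hx (n := 9) (by norm_num)
  rw [abs_neg, abs_of_nonneg h0] at h2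
  have h3 : w ^ 9 * (((9 : ℕ).succ : ℝ) / ((Nat.factorial 9 : ℕ) * (9 : ℕ))) ≤
      3288 / 281474976710656 := by
    have : w ^ 9 ≤ (1 / 4) ^ 9 := by gcongr
    norm_num [Nat.factorial] at this ⊢
    linarith
  have h4 := h2.trans h3
  set s := Real.exp (-w)
  have h5 : ∑ m ∈ Finset.range 9, (-w) ^ m / (m.factorial : ℝ) =
      1 - w * (1 - w * (1 - w * (1 - w * (1 - w * (1 - w * (1 - w * (1 - w / 8) / 7) / 6) / 5) / 4)
        / 3) / 2) := by
    norm_num [Finset.sum_range_succ, Nat.factorial]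
    ring
  rw [h5] at h4
  set r := 1 - w * (1 - w * (1 - w * (1 - w * (1 - w * (1 - w * (1 - w * (1 - w / 8) / 7) / 6) / 5)
    / 4) / 3) / 2)
  change |((en8 W : ℕ) : ℝ) - _| ≤ 4 at a1
  have h6 : ((en8 W : ℕ) : ℝ) - s * 281474976710656 =
      (((en8 W : ℕ) : ℝ) - r * 281474976710656) - (s - r) * 281474976710656 := by ring
  rw [h6]
  refine (abs_sub _ _).trans ?_
  rw [abs_mul (s - r), abs_of_pos (by norm_num : (0 : ℝ) < 281474976710656)]
  have : |s - r| * 281474976710656 ≤ 3288 / 281474976710656 * 281474976710656 := by gcongr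
  linarith

/-- squaring at scale `2 ^ 48` -/
def sq48 (t : ℕ) : ℕ := Nat.div (Nat.mul t t) 281474976710656

lemma sq48_near {t : ℕ} {r ε : ℝ} (h0 : 0 ≤ r) (h1 : r ≤ 1) (hε : ε ≤ 1000000)
    (h : |(t : ℝ) - r * 281474976710656| ≤ ε) :
    |((sq48 t : ℕ) : ℝ) - r ^ 2 * 281474976710656| ≤ 2 * ε + 2 := by
  have h2 := nat_div_near (t * t) (d := 281474976710656) (by norm_num)
  change |(((t * t) / 281474976710656 : ℕ) : ℝ) - _| ≤ _
  set X : ℝ := (((t * t) / 281474976710656 : ℕ) : ℝ)
  push_cast at h2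
  have hε0 : 0 ≤ ε := (abs_nonneg _).trans h
  set y := (t : ℝ) - r * 281474976710656 with hy
  have e1 : X - r ^ 2 * 281474976710656 =
      -((t : ℝ) * t / 281474976710656 - X) + (2 * r * y + y * y / 281474976710656) := by
    rw [hy]; ring
  rw [e1]
  refine (abs_add_le _ _).trans ?_
  rw [abs_neg]
  have e2 : |2 * r * y + y * y / 281474976710656| ≤ 2 * ε + 1 := by
    refine (abs_add_le _ _).trans ?_
    rw [abs_mul, abs_div, abs_mul y y, abs_of_nonneg (by positivity : 0 ≤ 2 * r),
      abs_of_pos (by norm_num : (0 : ℝ) < 281474976710656)]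
    have t1 : 2 * r * |y| ≤ 2 * 1 * ε := by gcongr
    have t2 : |y| * |y| ≤ 1000000 * 1000000 :=
      mul_le_mul (h.trans hε) (h.trans hε) (abs_nonneg _) (by norm_num)
    have t3 : |y| * |y| / 281474976710656 ≤ 1 := by
      rw [div_le_one (by norm_num)]; linarith
    linarith
  linarith

/-- `exp (-c / 2 ^ 32)` for `c ≤ 2 ^ 34` -/
def sexpn (c : ℕ) : S :=
  ⟨Nat.div (sq48 (sq48 (sq48 (sq48 (en8 (Nat.mul c 4096)))))) 65536, 2,
    Nat.add 8589934592 (Nat.mul (Nat.div c 17179869185) 28948022309329048855892746252171976963317496166410141009864396001978282409984)⟩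

lemma sexpn_rep (c : ℕ) : RepS (sexpn c) (Real.exp (-((c : ℝ) / 4294967296))) := by
  intro hn
  change 8589934592 + (c / 17179869185) * 28948022309329048855892746252171976963317496166410141009864396001978282409984 < _ at hn
  have hc : c ≤ 17179869184 := by
    by_contra h
    have : 1 ≤ c / 17179869185 := (Nat.one_le_div_iff (by norm_num)).mpr (by omega)
    omega
  set w : ℝ := (c : ℝ) / 4294967296 / 16 with hw
  have h0 : 0 ≤ w := by positivity
  have hcr : (c : ℝ) ≤ 17179869184 := by exact_mod_cast hc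
  have h1 : w ≤ 1 / 4 := by
    rw [hw, div_div, div_le_iff₀ (by norm_num)]; linarith
  have hW : ((Nat.mul c 4096 : ℕ) : ℝ) = w * 281474976710656 := by
    change ((c * 4096 : ℕ) : ℝ) = _
    push_cast; rw [hw]; ring
  have g0 := en8_near h0 h1 hW
  have ee : ∀ y : ℝ, 0 ≤ Real.exp y := fun y => (Real.exp_pos y).le
  have el : ∀ y : ℝ, 0 ≤ y → Real.exp (-y) ≤ 1 := fun y hy => by
    rw [Real.exp_le_one_iff]; linarith
  have es : ∀ y : ℝ, Real.exp (-y) ^ 2 = Real.exp (-(2 * y)) := fun y => by
    rw [← Real.exp_nat_mul]; congr 1; push_cast; ring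
  have g1 := sq48_near (ee _) (el _ h0) (by norm_num) g0
  rw [es] at g1
  have g2 := sq48_near (ee _) (el _ (by positivity)) (by norm_num) g1
  rw [es] at g2
  have g3 := sq48_near (ee _) (el _ (by positivity)) (by norm_num) g2
  rw [es] at g3
  have g4 := sq48_near (ee _) (el _ (by positivity)) (by norm_num) g3
  rw [es] at g4
  have e5 : 2 * (2 * (2 * (2 * w))) = (c : ℝ) / 4294967296 := by rw [hw]; ring
  rw [e5] at g4
  set V := sq48 (sq48 (sq48 (sq48 (en8 (Nat.mul c 4096))))) with hV
  have h6 := nat_div_near V (d := 65536) (by norm_num)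
  refine ⟨((V / 65536 : ℕ) : ℤ), Cg.ofNat _, ?_, ?_⟩
  · rw [Nat.abs_cast]
    refine Int.ofNat_le.mpr (le_trans ?_ (Nat.le_add_right _ _))
    have e7 : (V : ℝ) ≤ 562949953421312 := by
      have := (abs_le.mp g4).2
      have := el ((c : ℝ) / 4294967296) (by positivity)
      nlinarith
    have e8 : V ≤ 562949953421312 := by exact_mod_cast e7
    omega
  · change |_ - ((((V / 65536 : ℕ) : ℤ)) : ℝ)| ≤ ((2 : ℕ) : ℝ)
    rw [Int.cast_natCast]
    set X : ℝ := ((V / 65536 : ℕ) : ℝ)
    push_cast at h6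
    have e9 : Real.exp (-((c : ℝ) / 4294967296)) * 4294967296 - X =
      ((V : ℝ) / 65536 - X) -
        ((V : ℝ) - Real.exp (-((c : ℝ) / 4294967296)) * 281474976710656) / 65536 := by ring
    rw [e9]
    refine (abs_sub _ _).trans ?_
    rw [abs_div, abs_of_pos (by norm_num : (0 : ℝ) < 65536)]
    have : |(V : ℝ) - Real.exp (-((c : ℝ) / 4294967296)) * 281474976710656| / 65536 ≤ 1 := by
      rw [div_le_one (by norm_num)]
      linarith
    push_cast
    linarith

/-! ### reciprocal -/

/-- `1 / (c / 2 ^ 32)` -/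
def sinv (c : ℕ) : S :=
  ⟨Nat.div 18446744073709551616 c, 1, Nat.add (Nat.div 18446744073709551616 c)
    (Nat.mul (Nat.sub 1 c) 28948022309329048855892746252171976963317496166410141009864396001978282409984)⟩

lemma sinv_rep (c : ℕ) : RepS (sinv c) (4294967296 / (c : ℝ)) := by
  intro hn
  change 18446744073709551616 / c + (1 - c) * 28948022309329048855892746252171976963317496166410141009864396001978282409984 < _ at hn
  have hc : 0 < c := by
    by_contra h
    have : c = 0 := by omega
    subst this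
    norm_num at hn
  refine ⟨((18446744073709551616 / c : ℕ) : ℤ), Cg.ofNat _, ?_, ?_⟩
  · rw [Nat.abs_cast]
    exact Int.ofNat_le.mpr (Nat.le_add_right _ _)
  · have h := nat_div_near 18446744073709551616 hc
    change |_ - ((((18446744073709551616 / c : ℕ) : ℤ)) : ℝ)| ≤ ((1 : ℕ) : ℝ)
    rw [Int.cast_natCast]
    push_cast at h ⊢
    have e : (4294967296 : ℝ) / c * 4294967296 = 18446744073709551616 / c := by ring
    rw [e]
    exact h

end Crest.Agent.R163.TM
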