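import Crest.Agent.R163.TM.FinA
import Crest.Agent.R163.AntiMain

/-!
Row 163, `q = 3`, antiferromagnetic: Poisson trees with `d ≥ 7` and regular trees with `b ≥ 7`
reach the local region `chi < 1 / 5`.
-/

set_option autoImplicit false
set_option linter.dupNamespace false

namespace Crest.Agent.R163

lemma tailA_k {d : ℝ} (hd : 7 ≤ d) : 0 < 1 / Real.sqrt d ∧
    1 / Real.sqrt d * 4294967296 ≤ 1623497637 ∧ d = 1 / (1 / Real.sqrt d) ^ 2 := by
  have h0 : 0 < Real.sqrt d := Real.sqrt_pos.mpr (by linarith)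
  refine ⟨by positivity, ?_, ?_⟩
  · have h1 : (4294967296 / 1623497637 : ℝ) ≤ Real.sqrt d := by
      refine Real.le_sqrt_of_sq_le ?_
      refine le_trans ?_ hd
      norm_num
    rw [div_mul_eq_mul_div, one_mul, div_le_iff₀ h0]
    rw [div_le_iff₀ (by norm_num)] at h1
    linarith
  · rw [div_pow, one_pow, Real.sq_sqrt (by linarith)]
    field_simp

/-- Poisson trees, `d ≥ 7` -/
theorem gwA : ∀ d : ℝ, 7 ≤ d → GwLt (1 / Real.sqrt d) d (1 / 5) := by
  refine gwTail (xP := fun _ => 1 / 5) (D := 7) (by norm_num) (m := 1) (μ := fun _ => 19 / 16)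
    (t := fun _ => 17 / 32) (a := 4 / 3) (c1 := 405 / 65536)
    (c2 := 405 / 65536 / 5 - 14636757 / 4294967296 / 3) (x0 := 1 / 5) (by norm_num) (by norm_num)
    (by norm_num) (fun _ => by norm_num) (fun _ _ => le_rfl) fun d hd => ?_
  obtain ⟨h1, h2, h3⟩ := tailA_k hd
  exact TM.ineqA h1 h2 h3

/-- regular trees, `b ≥ 7` -/
theorem regA : ∀ b : ℕ, 7 ≤ b → RegLt b (1 / Real.sqrt b) (1 / 5) := by
  refine regTail (xR := fun _ => 1 / 5) (b₀ := 7) (by norm_num) (m := 1) (μ := fun _ => 19 / 16)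
    (t := fun _ => 17 / 32) (a := 4 / 3) (c1 := 405 / 65536)
    (c2 := 405 / 65536 / 5 - 14636757 / 4294967296 / 3) (x0 := 1 / 5) (by norm_num) (by norm_num)
    (by norm_num) (fun _ => by norm_num) (fun _ _ => le_rfl) ?_ fun b hb => ?_
  · intro b hb j x y z hx hy hz hs
    obtain ⟨h1, h2, h3⟩ := tailA_k (d := b) (by exact_mod_cast hb)
    exact TM.cx_msg_nonneg h1 (by linarith) hx hy hz hs
  · obtain ⟨h1, h2, h3⟩ := tailA_k (d := b) (by exact_mod_cast hb)
    exact TM.ineqA h1 h2 h3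

end Crest.Agent.R163
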