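import Crest.Agent.R163.TM.EvalA

/-!
Row 163: soundness of the Taylor model `fA` and of the subdivision trees.
-/

set_option autoImplicit false
set_option linter.dupNamespace false

namespace Crest.Agent.R163.TM

/-- the real number represented by `fA` -/
noncomputable def gA (x y z κ : ℝ) : ℝ :=
  4 * (sx x y z - (1 / κ ^ 2) * sx (1 - κ * (x - 1)) (1 - κ * (y - 1)) (1 - κ * (z - 1))) +
    19 / 16 * (3 * cx (17 / 32) x y z - 3 * Real.exp (-((1 / κ ^ 2) * (1 -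
      cx (17 / 32) (1 - κ * (x - 1)) (1 - κ * (y - 1)) (1 - κ * (z - 1)))))) +
    (14636757 / 4294967296 - 405 / 65536 * ((x - 1) ^ 2 + (y - 1) ^ 2 + (z - 1) ^ 2))

/-- `z ℓ(κ z) = -log (1 - κ z) / κ` -/
lemma zlh {κ z : ℝ} (hκ : 0 < κ) : z * lh (κ * z) = -Real.log (1 - κ * z) / κ := by
  rw [eq_div_iff hκ.ne', ← mul_lh (κ * z)]
  ring

lemma gA_eq {x y z κ : ℝ} (hκ : 0 < κ) (hs : x + y + z = 3) :
    ((x - 1) * (2 * Real.log x) + (y - 1) * (2 * Real.log y) + (z - 1) * (2 * Real.log z) -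
      ((x - 1) * ((x - 1) * lh (κ * (x - 1))) + (y - 1) * ((y - 1) * lh (κ * (y - 1))) +
        (z - 1) * ((z - 1) * lh (κ * (z - 1)))) * ((2 : ℕ) : ℝ)) +
    ((x * Real.cos ((2 * Real.log y - 2 * Real.log z) * (17 / 64)) +
      y * Real.cos ((2 * Real.log x - 2 * Real.log z) * (17 / 64)) +
      z * Real.cos ((2 * Real.log x - 2 * Real.log y) * (17 / 64)) -
      Real.exp (-(((1 - κ * (x - 1)) * (((y - 1) * lh (κ * (y - 1)) - (z - 1) * lh (κ * (z - 1))) ^ 2 *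
          ch (17 / 32 * (κ * ((y - 1) * lh (κ * (y - 1)) - (z - 1) * lh (κ * (z - 1)))))) +
        (1 - κ * (y - 1)) * (((x - 1) * lh (κ * (x - 1)) - (z - 1) * lh (κ * (z - 1))) ^ 2 *
          ch (17 / 32 * (κ * ((x - 1) * lh (κ * (x - 1)) - (z - 1) * lh (κ * (z - 1)))))) +
        (1 - κ * (z - 1)) * (((x - 1) * lh (κ * (x - 1)) - (y - 1) * lh (κ * (y - 1))) ^ 2 *
          ch (17 / 32 * (κ * ((x - 1) * lh (κ * (x - 1)) - (y - 1) * lh (κ * (y - 1)))))))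
            * (289 / 3072))) * ((3 : ℕ) : ℝ)) * (19 / 16) +
      (-(((x - 1) ^ 2 + (y - 1) ^ 2 + (z - 1) ^ 2) * (405 / 65536)) + 14636757 / 4294967296)) =
    gA x y z κ := by
  have h1 : ∀ u v : ℝ, (u * lh (κ * u) - v * lh (κ * v)) ^ 2 *
      ch (17 / 32 * (κ * (u * lh (κ * u) - v * lh (κ * v)))) * (289 / 3072) =
      (1 / κ ^ 2) * (1 - Real.cos (17 / 32 * (Real.log (1 - κ * u) - Real.log (1 - κ * v)))) / 3 := by
    intro u v
    have e1 : κ * (u * lh (κ * u) - v * lh (κ * v)) =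
        -(Real.log (1 - κ * u) - Real.log (1 - κ * v)) := by
      rw [zlh hκ, zlh hκ]; field_simp; ring
    have e2 := sq_mul_ch (17 / 32 * (κ * (u * lh (κ * u) - v * lh (κ * v))))
    have e3 : Real.cos (17 / 32 * (Real.log (1 - κ * u) - Real.log (1 - κ * v))) =
        Real.cos (17 / 32 * (κ * (u * lh (κ * u) - v * lh (κ * v)))) := by
      rw [e1, mul_neg, Real.cos_neg]
    rw [e3, ← e2]
    field_simp
    ring
  have hX : ((1 - κ * (x - 1)) * (((y - 1) * lh (κ * (y - 1)) - (z - 1) * lh (κ * (z - 1))) ^ 2 *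
          ch (17 / 32 * (κ * ((y - 1) * lh (κ * (y - 1)) - (z - 1) * lh (κ * (z - 1)))))) +
        (1 - κ * (y - 1)) * (((x - 1) * lh (κ * (x - 1)) - (z - 1) * lh (κ * (z - 1))) ^ 2 *
          ch (17 / 32 * (κ * ((x - 1) * lh (κ * (x - 1)) - (z - 1) * lh (κ * (z - 1)))))) +
        (1 - κ * (z - 1)) * (((x - 1) * lh (κ * (x - 1)) - (y - 1) * lh (κ * (y - 1))) ^ 2 *
          ch (17 / 32 * (κ * ((x - 1) * lh (κ * (x - 1)) - (y - 1) * lh (κ * (y - 1)))))))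
            * (289 / 3072) = (1 / κ ^ 2) * (1 -
      cx (17 / 32) (1 - κ * (x - 1)) (1 - κ * (y - 1)) (1 - κ * (z - 1))) := by
    have a1 := h1 (y - 1) (z - 1)
    have a2 := h1 (x - 1) (z - 1)
    have a3 := h1 (x - 1) (y - 1)
    have e : ∀ p q r a b c : ℝ, (p * a + q * b + r * c) * (289 / 3072) =
        p * (a * (289 / 3072)) + q * (b * (289 / 3072)) + r * (c * (289 / 3072)) := by
      intros; ring
    rw [e, a1, a2, a3]
    unfold cx
    have c2 : Real.cos (17 / 32 * (Real.log (1 - κ * (z - 1)) - Real.log (1 - κ * (x - 1)))) =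
        Real.cos (17 / 32 * (Real.log (1 - κ * (x - 1)) - Real.log (1 - κ * (z - 1)))) := by
      rw [← Real.cos_neg]; congr 1; ring
    rw [c2]
    have hx : x = 3 - y - z := by linarith
    rw [hx]
    ring
  rw [hX]
  have hS : ((x - 1) * ((x - 1) * lh (κ * (x - 1))) + (y - 1) * ((y - 1) * lh (κ * (y - 1))) +
        (z - 1) * ((z - 1) * lh (κ * (z - 1)))) =
      2 * ((1 / κ ^ 2) * sx (1 - κ * (x - 1)) (1 - κ * (y - 1)) (1 - κ * (z - 1))) := by
    rw [zlh hκ, zlh hκ, zlh hκ]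
    unfold sx
    field_simp
    ring
  rw [hS]
  have k1 : (2 * Real.log y - 2 * Real.log z) * (17 / 64) =
    17 / 32 * (Real.log y - Real.log z) := by ring
  have k2 : (2 * Real.log x - 2 * Real.log z) * (17 / 64) =
    -(17 / 32 * (Real.log z - Real.log x)) := by ring
  have k3 : (2 * Real.log x - 2 * Real.log y) * (17 / 64) =
    17 / 32 * (Real.log x - Real.log y) := by ring
  rw [k1, k2, k3, Real.cos_neg]
  unfold gA
  have hc : 3 * cx (17 / 32) x y z = x * Real.cos (17 / 32 * (Real.log y - Real.log z)) +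
      y * Real.cos (17 / 32 * (Real.log z - Real.log x)) +
      z * Real.cos (17 / 32 * (Real.log x - Real.log y)) := by
    unfold cx; ring
  rw [hc]
  have hs4 : 4 * sx x y z = (x - 1) * (2 * Real.log x) + (y - 1) * (2 * Real.log y) +
      (z - 1) * (2 * Real.log z) := by
    unfold sx; ring
  rw [mul_sub 4, hs4]
  push_cast
  ring

lemma fA_rep {P : Pt} {f1 f2 f3 ka : T} {x y z κ : ℝ} (hκ : 0 < κ) (hs : x + y + z = 3)
    (h1 : Rep P f1 x) (h2 : Rep P f2 y) (h3 : Rep P f3 z) (hk : Rep P ka κ) :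
    Rep P (fA f1 f2 f3 ka) (gA x y z κ) := by
  have c1 : RepS (sc 4294967296) 1 := repS_sc _ (by norm_num)
  have cm : RepS (sc 5100273664) (19 / 16) := repS_sc _ (by norm_num)
  have ct : RepS (sc 1140850688) (17 / 64) := repS_sc _ (by norm_num)
  have ctt : RepS (sc 1212153856) (289 / 1024) := repS_sc _ (by norm_num)
  have ct3 : RepS (ac 404051285) (289 / 3072) := ac_rep (by norm_num) (by norm_num)
  have cK : RepS (sc 14636757) (14636757 / 4294967296) := repS_sc _ (by norm_num)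
  have cc : RepS (sc 26542080) (405 / 65536) := repS_sc _ (by norm_num)
  have z1 : Rep P (addS (sneg (sc 4294967296)) f1) (x - 1) := by
    have := h1.addS c1.neg; rwa [← sub_eq_add_neg] at this
  have z2 : Rep P (addS (sneg (sc 4294967296)) f2) (y - 1) := by
    have := h2.addS c1.neg; rwa [← sub_eq_add_neg] at this
  have z3 : Rep P (addS (sneg (sc 4294967296)) f3) (z - 1) := by
    have := h3.addS c1.neg; rwa [← sub_eq_add_neg] at this
  have l1 := h1.tlog2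
  have l2 := h2.tlog2
  have l3 := h3.tlog2
  have y1 := hk.mul z1
  have y2 := hk.mul z2
  have y3 := hk.mul z3
  have w1 := z1.mul y1.tlh
  have w2 := z2.mul y2.tlh
  have w3 := z3.mul y3.tlh
  have k2 := hk.mul hk
  have n1 := w2.sub w3
  have n2 := w1.sub w3
  have n3 := w1.sub w2
  have sq : ∀ {a : T} {g : ℝ}, Rep P a g → Rep P (mul a a) (g ^ 2) := fun h => by
    have := h.mul h; rwa [← sq] at this
  have s1 := sq n1
  have s2 := sq n2
  have s3 := sq n3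
  have th : ∀ {s : T} {m : ℝ}, Rep P s (m ^ 2) →
      Rep P (tch (smul (sc 1212153856) (mul (mul ka ka) s))) (ch (17 / 32 * (κ * m))) := by
    intro s m hsm
    have h := (k2.mul hsm).smul ctt
    have e : κ * κ * m ^ 2 * (289 / 1024) = (17 / 32 * (κ * m)) ^ 2 := by ring
    rw [e] at h
    exact h.tch
  have g : ∀ {a : T} {v : ℝ}, Rep P a v → Rep P (addS (sc 4294967296) (neg a)) (1 - v) := by
    intro a v h
    have := h.neg.addS c1
    rwa [neg_add_eq_sub] at this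
  have X := ((((g y1).mul (s1.mul (th s1))).add ((g y2).mul (s2.mul (th s2)))).add
    ((g y3).mul (s3.mul (th s3)))).smul ct3
  have E := X.texpn
  have A := (((z1.mul l1).add (z2.mul l2)).add (z3.mul l3)).sub
    ((((z1.mul w1).add (z2.mul w2)).add (z3.mul w3)).nsm 2)
  have C := ((h1.mul ((l2.sub l3).smul ct).tcosS).add (h2.mul ((l1.sub l3).smul ct).tcosS)).add
    (h3.mul ((l1.sub l2).smul ct).tcosS)
  have Q := ((((sq z1).add (sq z2)).add (sq z3)).smul cc).neg.addS cK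
  have F := A.add (((C.sub (E.nsm 3)).smul cm).add Q)
  rw [gA_eq hκ hs] at F
  exact F

/-! ### boxes -/

/-- one coordinate of a box -/
lemma coord {a b : ℕ} (g : ℝ) (h1 : (a : ℝ) ≤ g * 4294967296) (h2 : g * 4294967296 ≤ b) :
    ∃ t : ℝ, |t| ≤ 1 ∧ g * 4294967296 =
      ((Nat.div (Nat.add a b) 2 : ℕ) : ℝ) + ((Nat.sub b (Nat.div (Nat.add a b) 2) : ℕ) : ℝ) * t := by
  change ∃ t : ℝ, |t| ≤ 1 ∧ g * 4294967296 =
      (((a + b) / 2 : ℕ) : ℝ) + (((b - (a + b) / 2) : ℕ) : ℝ) * t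
  have hab : a ≤ b := by
    have : (a : ℝ) ≤ b := h1.trans h2
    exact_mod_cast this
  set c := (a + b) / 2 with hc
  set h := b - c with hh
  have e1 : c + h = b := by omega
  have e2 : c ≤ a + h := by omega
  have r1 : (c : ℝ) + h = b := by exact_mod_cast e1
  have r2 : (c : ℝ) ≤ a + h := by exact_mod_cast e2
  rcases Nat.eq_zero_or_pos h with h0 | h0
  · refine ⟨0, by simp, ?_⟩
    rw [h0] at r1 r2 ⊢
    push_cast at r1 r2 ⊢
    linarith
  · have hp : (0 : ℝ) < h := by exact_mod_cast h0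
    refine ⟨(g * 4294967296 - c) / h, ?_, ?_⟩
    · rw [abs_div, abs_of_pos hp, div_le_one hp, abs_le]
      constructor <;> linarith
    · field_simp
      ring

/-- the inequality on a box (coordinates scaled by `2 ^ 32`) -/
def OK (a2 b2 a3 b3 ka kb : ℕ) : Prop :=
  ∀ y z κ : ℝ, (a2 : ℝ) ≤ y * 4294967296 → y * 4294967296 ≤ b2 → (a3 : ℝ) ≤ z * 4294967296 →
    z * 4294967296 ≤ b3 → (ka : ℝ) ≤ κ * 4294967296 → κ * 4294967296 ≤ kb → 0 < κ →
    z < y → y < 3 - y - z → 1 / 131072 < z → 1 / 512 < y → 0 ≤ gA (3 - y - z) y z κ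

/-- subdivision trees -/
inductive Tr
  | l : Tr
  | s : Tr
  | a : Tr → Tr → Tr
  | b : Tr → Tr → Tr
  | c : Tr → Tr → Tr

def lf (a2 b2 a3 b3 ka kb : ℕ) : Bool :=
  chk (evA (Nat.div (Nat.add a2 b2) 2) (Nat.sub b2 (Nat.div (Nat.add a2 b2) 2))
    (Nat.div (Nat.add a3 b3) 2) (Nat.sub b3 (Nat.div (Nat.add a3 b3) 2))
    (Nat.div (Nat.add ka kb) 2) (Nat.sub kb (Nat.div (Nat.add ka kb) 2)))

def sk (a2 b2 a3 b3 : ℕ) : Bool :=
  or (or (Nat.ble b2 a3) (Nat.ble 12884901888 (Nat.add (Nat.mul 2 a2) a3)))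
    (or (Nat.ble b3 32768) (Nat.ble b2 8388608))

noncomputable def check (t : Tr) : ℕ → ℕ → ℕ → ℕ → ℕ → ℕ → Bool :=
  Tr.rec (motive := fun _ => ℕ → ℕ → ℕ → ℕ → ℕ → ℕ → Bool)
    (fun a2 b2 a3 b3 ka kb => lf a2 b2 a3 b3 ka kb)
    (fun a2 b2 a3 b3 _ _ => sk a2 b2 a3 b3)
    (fun _ _ f g a2 b2 a3 b3 ka kb => and (f a2 (Nat.div (Nat.add a2 b2) 2) a3 b3 ka kb)
      (g (Nat.div (Nat.add a2 b2) 2) b2 a3 b3 ka kb))
    (fun _ _ f g a2 b2 a3 b3 ka kb => and (f a2 b2 a3 (Nat.div (Nat.add a3 b3) 2) ka kb)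
      (g a2 b2 (Nat.div (Nat.add a3 b3) 2) b3 ka kb))
    (fun _ _ f g a2 b2 a3 b3 ka kb => and (f a2 b2 a3 b3 ka (Nat.div (Nat.add ka kb) 2))
      (g a2 b2 a3 b3 (Nat.div (Nat.add ka kb) 2) kb)) t

lemma OK.leaf {a2 b2 a3 b3 ka kb : ℕ} (h : lf a2 b2 a3 b3 ka kb = true) :
    OK a2 b2 a3 b3 ka kb := by
  intro y z κ hy1 hy2 hz1 hz2 hk1 hk2 hκ _ _ _ _
  obtain ⟨t1, ht1, e1⟩ := coord y hy1 hy2
  obtain ⟨t2, ht2, e2⟩ := coord z hz1 hz2
  obtain ⟨t3, ht3, e3⟩ := coord κ hk1 hk2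
  let P : Pt := ⟨t1, t2, t3, ht1, ht2, ht3⟩
  have r2 := vx_rep P _ _ (g := y) e1
  have r3 := vy_rep P _ _ (g := z) e2
  have rk := vz_rep P _ _ (g := κ) e3
  have c3 : RepS (sc 12884901888) 3 := repS_sc _ (by norm_num)
  have r1 := (r2.add r3).neg.addS c3
  have e : -(y + z) + 3 = 3 - y - z := by ring
  rw [e] at r1
  exact chk_sound (fA_rep hκ (by ring) r1 r2 r3 rk) h

lemma OK.skip {a2 b2 a3 b3 ka kb : ℕ} (h : sk a2 b2 a3 b3 = true) :
    OK a2 b2 a3 b3 ka kb := by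
  intro y z κ hy1 hy2 hz1 hz2 hk1 hk2 hκ h1 h2 h3 h4
  exfalso
  unfold sk at h
  rw [Bool.or_eq_true, Bool.or_eq_true, Bool.or_eq_true] at h
  rcases h with (h | h) | (h | h)
  · have := Nat.le_of_ble_eq_true h
    have h5 : (b2 : ℝ) ≤ a3 := by exact_mod_cast this
    linarith
  · have h6 : 12884901888 ≤ 2 * a2 + a3 := Nat.le_of_ble_eq_true h
    have h5 : (12884901888 : ℝ) ≤ 2 * a2 + a3 := by exact_mod_cast h6
    linarith
  · have := Nat.le_of_ble_eq_true h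
    have h5 : (b3 : ℝ) ≤ 32768 := by exact_mod_cast this
    linarith
  · have := Nat.le_of_ble_eq_true h
    have h5 : (b2 : ℝ) ≤ 8388608 := by exact_mod_cast this
    linarith

lemma OK.a {a2 b2 a3 b3 ka kb : ℕ} (m : ℕ) (h1 : OK a2 m a3 b3 ka kb) (h2 : OK m b2 a3 b3 ka kb) :
    OK a2 b2 a3 b3 ka kb := by
  intro y z κ hy1 hy2 hz1 hz2 hk1 hk2
  rcases le_total (y * 4294967296) m with h | h
  · exact h1 y z κ hy1 h hz1 hz2 hk1 hk2
  · exact h2 y z κ h hy2 hz1 hz2 hk1 hk2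

lemma OK.b {a2 b2 a3 b3 ka kb : ℕ} (m : ℕ) (h1 : OK a2 b2 a3 m ka kb) (h2 : OK a2 b2 m b3 ka kb) :
    OK a2 b2 a3 b3 ka kb := by
  intro y z κ hy1 hy2 hz1 hz2 hk1 hk2
  rcases le_total (z * 4294967296) m with h | h
  · exact h1 y z κ hy1 hy2 hz1 h hk1 hk2
  · exact h2 y z κ hy1 hy2 h hz2 hk1 hk2

lemma OK.c {a2 b2 a3 b3 ka kb : ℕ} (m : ℕ) (h1 : OK a2 b2 a3 b3 ka m) (h2 : OK a2 b2 a3 b3 m kb) :
    OK a2 b2 a3 b3 ka kb := by
  intro y z κ hy1 hy2 hz1 hz2 hk1 hk2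
  rcases le_total (κ * 4294967296) m with h | h
  · exact h1 y z κ hy1 hy2 hz1 hz2 hk1 h
  · exact h2 y z κ hy1 hy2 hz1 hz2 h hk2

theorem check_sound (t : Tr) : ∀ {a2 b2 a3 b3 ka kb : ℕ}, check t a2 b2 a3 b3 ka kb = true →
    OK a2 b2 a3 b3 ka kb := by
  induction t with
  | l => intro a2 b2 a3 b3 ka kb h; exact OK.leaf h
  | s => intro a2 b2 a3 b3 ka kb h; exact OK.skip h
  | a x y hx hy =>
    intro a2 b2 a3 b3 ka kb h
    have h' := (Bool.and_eq_true _ _).mp h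
    exact (hx h'.1).a _ (hy h'.2)
  | b x y hx hy =>
    intro a2 b2 a3 b3 ka kb h
    have h' := (Bool.and_eq_true _ _).mp h
    exact (hx h'.1).b _ (hy h'.2)
  | c x y hx hy =>
    intro a2 b2 a3 b3 ka kb h
    have h' := (Bool.and_eq_true _ _).mp h
    exact (hx h'.1).c _ (hy h'.2)

end Crest.Agent.R163.TM
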