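import Crest.Agent.R163.TM.Scal

/-!
Row 163: scalar values of `cos`, `sin` and `log`.
-/

set_option autoImplicit false
set_option linter.dupNamespace false

namespace Crest.Agent.R163.TM

/-! ### cosine and sine -/

lemma cos_sin_taylor {w : ℝ} (h0 : 0 ≤ w) (h1 : w ≤ 1 / 4) :
    |Real.cos w - (1 - w ^ 2 * (1 - w ^ 2 * (1 - w ^ 2 * (1 - w ^ 2 * 1 / 56) / 30) / 12) / 2)| ≤
      82 / 281474976710656 ∧
    |Real.sin w - w * (1 - w ^ 2 * (1 - w ^ 2 * (1 - w ^ 2 * (1 - w ^ 2 * 1 / 72) / 42) / 20) / 6)| ≤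
      82 / 281474976710656 := by
  have hx : ‖((w : ℂ) * Complex.I)‖ ≤ 1 := by
    rw [norm_mul, Complex.norm_I, mul_one, Complex.norm_real, Real.norm_of_nonneg h0]
    linarith
  have h2 := Complex.exp_bound hx (n := 10) (by norm_num)
  rw [norm_mul, Complex.norm_I, mul_one, Complex.norm_real, Real.norm_of_nonneg h0] at h2
  have h3 : w ^ 10 * (((10 : ℕ).succ : ℝ) * ((Nat.factorial 10 : ℕ) * (10 : ℕ) : ℝ)⁻¹) ≤
      82 / 281474976710656 := by
    have : w ^ 10 ≤ (1 / 4) ^ 10 := by gcongr
    norm_num [Nat.factorial] at this ⊢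
    linarith
  have h4 := h2.trans h3
  set c : ℝ := 1 - w ^ 2 * (1 - w ^ 2 * (1 - w ^ 2 * (1 - w ^ 2 * 1 / 56) / 30) / 12) / 2
  set s : ℝ := w * (1 - w ^ 2 * (1 - w ^ 2 * (1 - w ^ 2 * (1 - w ^ 2 * 1 / 72) / 42) / 20) / 6)
  have h5 : ∑ m ∈ Finset.range 10, ((w : ℂ) * Complex.I) ^ m / (m.factorial : ℂ) =
      (c : ℂ) + (s : ℂ) * Complex.I := by
    have i2 : Complex.I ^ 2 = -1 := Complex.I_sq
    have i3 : Complex.I ^ 3 = -Complex.I := by rw [pow_succ, i2]; ring
    have i4 : Complex.I ^ 4 = 1 := by rw [pow_succ, i3]; ring_nf; rw [i2]; ring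
    have i5 : Complex.I ^ 5 = Complex.I := by rw [pow_succ, i4]; ring
    have i6 : Complex.I ^ 6 = -1 := by rw [pow_succ, i5]; ring_nf; rw [i2]
    have i7 : Complex.I ^ 7 = -Complex.I := by rw [pow_succ, i6]; ring
    have i8 : Complex.I ^ 8 = 1 := by rw [pow_succ, i7]; ring_nf; rw [i2]; ring
    have i9 : Complex.I ^ 9 = Complex.I := by rw [pow_succ, i8]; ring
    simp only [Finset.sum_range_succ, Finset.sum_range_zero, mul_pow, i2, i3, i4, i5, i6, i7, i8, i9]
    simp only [c, s]
    push_cast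
    norm_num [Nat.factorial]
    ring
  rw [h5, Complex.exp_mul_I] at h4
  rw [← Complex.ofReal_cos, ← Complex.ofReal_sin] at h4
  set Z : ℂ := ((Real.cos w : ℝ) : ℂ) + ((Real.sin w : ℝ) : ℂ) * Complex.I -
    ((c : ℂ) + (s : ℂ) * Complex.I) with hZ
  have r1 : Z.re = Real.cos w - c := by
    rw [hZ]
    simp [-Complex.ofReal_cos, -Complex.ofReal_sin]
  have r2 : Z.im = Real.sin w - s := by
    rw [hZ]
    simp [-Complex.ofReal_cos, -Complex.ofReal_sin]
  constructor
  · rw [← r1]; exact (Complex.abs_re_le_norm Z).trans h4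
  · rw [← r2]; exact (Complex.abs_im_le_norm Z).trans h4

def cosI (U : ℕ) : ℕ := stp 562949953421312 U (stp 3377699720527872 U (stp 8444249301319680 U
  (stp 15762598695796736 U 281474976710656)))

def sinI (W U : ℕ) : ℕ := Nat.div (Nat.mul W (stp 1688849860263936 U (stp 5629499534213120 U
  (stp 11821949021847552 U (stp 20266198323167232 U 281474976710656))))) 281474976710656

def RepCS (p : ℕ × ℕ) (θ ε : ℝ) : Prop := ∃ i j : ℤ, Cg p.1 i ∧ Cg p.2 j ∧
  |(i : ℝ) - Real.cos θ * 281474976710656| ≤ ε ∧ |(j : ℝ) - Real.sin θ * 281474976710656| ≤ ε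

def cs0 (W : ℕ) : ℕ × ℕ :=
  (cosI (Nat.div (Nat.mul W W) 281474976710656), sinI W (Nat.div (Nat.mul W W) 281474976710656))

lemma cs0_rep {W : ℕ} {w : ℝ} (h0 : 0 ≤ w) (h1 : w ≤ 1 / 4) (hW : (W : ℝ) = w * 281474976710656) :
    RepCS (cs0 W) w 90 := by
  have hU := nat_div_near (W * W) (d := 281474976710656) (by norm_num)
  push_cast at hU
  set U : ℕ := Nat.div (Nat.mul W W) 281474976710656 with hUdef
  have hU' : |(U : ℝ) - w ^ 2 * 281474976710656| ≤ 1 := by
    have e : (W : ℝ) * W / 281474976710656 = w ^ 2 * 281474976710656 := by rw [hW]; ring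
    rw [e, abs_sub_comm] at hU
    exact hU
  have u0 : 0 ≤ w ^ 2 := by positivity
  have u1 : w ^ 2 ≤ 1 / 4 := by nlinarith
  obtain ⟨a4, b4, c4⟩ := stp_near (k := 56) (by norm_num) u0 u1 le_rfl hU'
    zero_le_one le_rfl (t := 281474976710656) (by norm_num)
  obtain ⟨a3, b3, c3⟩ := stp_near (k := 30) (by norm_num) u0 u1 le_rfl hU' b4 c4 a4
  obtain ⟨a2, b2, c2⟩ := stp_near (k := 12) (by norm_num) u0 u1 le_rfl hU' b3 c3 a3
  obtain ⟨a1, b1, c1⟩ := stp_near (k := 2) (by norm_num) u0 u1 le_rfl hU' b2 c2 a2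
  obtain ⟨d4, e4, f4⟩ := stp_near (k := 72) (by norm_num) u0 u1 le_rfl hU'
    zero_le_one le_rfl (t := 281474976710656) (by norm_num)
  obtain ⟨d3, e3, f3⟩ := stp_near (k := 42) (by norm_num) u0 u1 le_rfl hU' e4 f4 d4
  obtain ⟨d2, e2, f2⟩ := stp_near (k := 20) (by norm_num) u0 u1 le_rfl hU' e3 f3 d3
  obtain ⟨d1, e1, f1⟩ := stp_near (k := 6) (by norm_num) u0 u1 le_rfl hU' e2 f2 d2
  obtain ⟨tc, ts⟩ := cos_sin_taylor h0 h1
  push_cast at a1 b1 c1 d1 e1 f1
  set r := (1 - w ^ 2 * (1 - w ^ 2 * (1 - w ^ 2 * (1 - w ^ 2 * 1 / 56) / 30) / 12) / 2)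
  set q := (1 - w ^ 2 * (1 - w ^ 2 * (1 - w ^ 2 * (1 - w ^ 2 * 1 / 72) / 42) / 20) / 6)
  refine ⟨((cosI U : ℕ) : ℤ), ((sinI W U : ℕ) : ℤ), Cg.ofNat _, Cg.ofNat _, ?_, ?_⟩
  · rw [Int.cast_natCast]
    change |((cosI U : ℕ) : ℝ) - _| ≤ 4 at a1
    have e : ((cosI U : ℕ) : ℝ) - Real.cos w * 281474976710656 =
      (((cosI U : ℕ) : ℝ) - r * 281474976710656) - (Real.cos w - r) * 281474976710656 := by ring
    rw [e]
    refine (abs_sub _ _).trans ?_
    rw [abs_mul (Real.cos w - r), abs_of_pos (by norm_num : (0 : ℝ) < 281474976710656)]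
    have : |Real.cos w - r| * 281474976710656 ≤ 82 / 281474976710656 * 281474976710656 := by gcongr
    linarith
  · rw [Int.cast_natCast]
    set t := stp 1688849860263936 U (stp 5629499534213120 U
      (stp 11821949021847552 U (stp 20266198323167232 U 281474976710656))) with ht
    change |((t : ℕ) : ℝ) - _| ≤ 4 at d1
    have h2 := nat_div_near (W * t) (d := 281474976710656) (by norm_num)
    change |((W * t / 281474976710656 : ℕ) : ℝ) - _| ≤ 90
    set X : ℝ := ((W * t / 281474976710656 : ℕ) : ℝ)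
    push_cast at h2
    rw [hW] at h2
    have e : X - Real.sin w * 281474976710656 =
      -(w * 281474976710656 * t / 281474976710656 - X) + w * (t - q * 281474976710656) -
        (Real.sin w - w * q) * 281474976710656 := by ring
    rw [e]
    refine (abs_sub _ _).trans ?_
    have e5 := abs_add_le (-(w * 281474976710656 * t / 281474976710656 - X))
      (w * (t - q * 281474976710656))
    rw [abs_neg, abs_mul w, abs_of_nonneg h0] at e5
    rw [abs_mul (Real.sin w - w * q), abs_of_pos (by norm_num : (0 : ℝ) < 281474976710656)]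
    have t1 : |Real.sin w - w * q| * 281474976710656 ≤
      82 / 281474976710656 * 281474976710656 := by gcongr
    have t2 : w * |(t : ℝ) - q * 281474976710656| ≤ 1 / 4 * 4 := by gcongr
    linarith

/-- two's complement shift by `48` bits -/
def sh48 (v : ℕ) : ℕ :=
  Nat.add (Nat.div (Nat.mod (Nat.add v 57896044618658097711785492504343953926634992332820282019728792003956564819968)
    115792089237316195423570985008687907853269984665640564039457584007913129639936) 281474976710656)
    115792089237315989735501319857932638482122164996827441197474379810430211063808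

/-- two's complement shift by `16` bits -/
def sh16 (v : ℕ) : ℕ :=
  Nat.add (Nat.div (Nat.mod (Nat.add v 57896044618658097711785492504343953926634992332820282019728792003956564819968)
    115792089237316195423570985008687907853269984665640564039457584007913129639936) 65536)
    115791205813783806231406193359937536394012070923692126229978523204812483330048

lemma Cg.sh48 {v : ℕ} {i : ℤ} (h : Cg v i)
    (hi : |i| < 57896044618658097711785492504343953926634992332820282019728792003956564819968) :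
    Cg (sh48 v) (i / ((281474976710656 : ℕ) : ℤ)) :=
  h.shg 281474976710656 205688069665150755269371147819668813122841983204197482918576128 _ (by norm_num) (by norm_num) (by norm_num) hi

lemma Cg.sh16 {v : ℕ} {i : ℤ} (h : Cg v i)
    (hi : |i| < 57896044618658097711785492504343953926634992332820282019728792003956564819968) :
    Cg (sh16 v) (i / ((65536 : ℕ) : ℤ)) :=
  h.shg 65536 883423532389192164791648750371459257913741948437809479060803100646309888 _ (by norm_num) (by norm_num) (by norm_num) hi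

/-- angle doubling -/
def dbl (p : ℕ × ℕ) : ℕ × ℕ :=
  (sh48 (Nat.add (Nat.mul p.1 p.1)
    (Nat.mul (Nat.mul p.2 p.2) 115792089237316195423570985008687907853269984665640564039457584007913129639935)),
    sh48 (Nat.mul (Nat.mul p.1 p.2) 2))

lemma cs_sum (θ : ℝ) : |Real.cos θ| + |Real.sin θ| ≤ 3 / 2 := by
  have h := Real.cos_sq_add_sin_sq θ
  rw [← sq_abs (Real.cos θ), ← sq_abs (Real.sin θ)] at h
  nlinarith [sq_nonneg (|Real.cos θ| - |Real.sin θ|), abs_nonneg (Real.cos θ),
    abs_nonneg (Real.sin θ)]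

lemma dbl_rep {p : ℕ × ℕ} {θ ε : ℝ} (hε : ε ≤ 1000000) (h : RepCS p θ ε) :
    RepCS (dbl p) (2 * θ) (3 * ε + 2) := by
  obtain ⟨i, j, hi, hj, ei, ej⟩ := h
  set D : ℝ := 281474976710656 with hD
  have hε0 : 0 ≤ ε := (abs_nonneg _).trans ei
  have hDpos : 0 < D := by rw [hD]; norm_num
  have hc1 := Real.abs_cos_le_one θ
  have hs1 := Real.abs_sin_le_one θ
  have ai : |(i : ℝ)| ≤ D + 1000000 := by
    have : (i : ℝ) = (i - Real.cos θ * D) + Real.cos θ * D := by ring
    rw [this]
    refine (abs_add_le _ _).trans ?_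
    rw [abs_mul (Real.cos θ), abs_of_pos hDpos]
    nlinarith
  have aj : |(j : ℝ)| ≤ D + 1000000 := by
    have : (j : ℝ) = (j - Real.sin θ * D) + Real.sin θ * D := by ring
    rw [this]
    refine (abs_add_le _ _).trans ?_
    rw [abs_mul (Real.sin θ), abs_of_pos hDpos]
    nlinarith
  have ai' : |i| ≤ 281474977710656 := by
    have : ((|i| : ℤ) : ℝ) ≤ ((281474977710656 : ℤ) : ℝ) := by
      rw [Int.cast_abs]; push_cast; rw [hD] at ai; linarith
    exact_mod_cast this
  have aj' : |j| ≤ 281474977710656 := by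
    have : ((|j| : ℤ) : ℝ) ≤ ((281474977710656 : ℤ) : ℝ) := by
      rw [Int.cast_abs]; push_cast; rw [hD] at aj; linarith
    exact_mod_cast this
  have ij : |i| * |j| ≤ 281474977710656 * 281474977710656 :=
    mul_le_mul ai' aj' (abs_nonneg _) (by norm_num)
  have ii : |i| * |i| ≤ 281474977710656 * 281474977710656 :=
    mul_le_mul ai' ai' (abs_nonneg _) (by norm_num)
  have jj : |j| * |j| ≤ 281474977710656 * 281474977710656 :=
    mul_le_mul aj' aj' (abs_nonneg _) (by norm_num)
  have b1 : |i * i + -(j * j)| < 57896044618658097711785492504343953926634992332820282019728792003956564819968 := by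
    refine lt_of_le_of_lt (abs_add_le _ _) ?_
    rw [abs_neg, abs_mul, abs_mul]
    linarith
  have b2 : |i * j * 2| < 57896044618658097711785492504343953926634992332820282019728792003956564819968 := by
    rw [abs_mul, abs_mul]
    have : |(2 : ℤ)| = 2 := by norm_num
    rw [this]
    linarith
  set a := (i : ℝ) - Real.cos θ * D with ha
  set b := (j : ℝ) - Real.sin θ * D with hb
  have hcs := cs_sum θ
  have small : ε * ε / D ≤ 1 / 4 := by
    rw [div_le_iff₀ hDpos, hD]; nlinarith
  refine ⟨_, _, ((hi.mul hi).add ((hj.mul hj).neg)).sh48 b1,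
    ((hi.mul hj).mul (Cg.ofNat 2)).sh48 (by exact_mod_cast b2), ?_, ?_⟩
  · have h3 := fl_gen (i * i + -(j * j)) (d := 281474976710656) (by norm_num)
    set X : ℝ := (((i * i + -(j * j)) / ((281474976710656 : ℕ) : ℤ) : ℤ) : ℝ)
    push_cast at h3
    rw [← hD] at h3
    have key : X - Real.cos (2 * θ) * D = -(((i : ℝ) * i + -((j : ℝ) * j)) / D - X) +
        2 * (Real.cos θ * a - Real.sin θ * b) + (a * a - b * b) / D := by
      have e1 : (i : ℝ) = a + Real.cos θ * D := by rw [ha]; ring
      have e2 : (j : ℝ) = b + Real.sin θ * D := by rw [hb]; ring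
      rw [e1, e2, Real.cos_two_mul']
      field_simp
      ring
    rw [key]
    refine (abs_add3 _ _ _).trans ?_
    rw [abs_neg]
    have t1 : |2 * (Real.cos θ * a - Real.sin θ * b)| ≤ 3 * ε := by
      rw [abs_mul, abs_of_pos (by norm_num : (0 : ℝ) < 2)]
      have := abs_sub (Real.cos θ * a) (Real.sin θ * b)
      rw [abs_mul, abs_mul] at this
      have u1 : |Real.cos θ| * |a| ≤ |Real.cos θ| * ε := by gcongr
      have u2 : |Real.sin θ| * |b| ≤ |Real.sin θ| * ε := by gcongr
      nlinarith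
    have t2 : |(a * a - b * b) / D| ≤ 1 := by
      rw [abs_div, abs_of_pos hDpos]
      have : |a * a - b * b| ≤ ε * ε + ε * ε := by
        refine (abs_sub _ _).trans ?_
        rw [abs_mul, abs_mul]
        have u1 : |a| * |a| ≤ ε * ε := mul_le_mul ei ei (abs_nonneg _) hε0
        have u2 : |b| * |b| ≤ ε * ε := mul_le_mul ej ej (abs_nonneg _) hε0
        linarith
      calc |a * a - b * b| / D ≤ (ε * ε + ε * ε) / D := by gcongr
        _ = ε * ε / D + ε * ε / D := by ring
        _ ≤ 1 := by linarith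
    linarith
  · have h3 := fl_gen (i * j * ((2 : ℕ) : ℤ)) (d := 281474976710656) (by norm_num)
    set X : ℝ := (((i * j * ((2 : ℕ) : ℤ)) / ((281474976710656 : ℕ) : ℤ) : ℤ) : ℝ)
    push_cast at h3
    rw [← hD] at h3
    have key : X - Real.sin (2 * θ) * D = -((i : ℝ) * j * 2 / D - X) +
        2 * (Real.cos θ * b + Real.sin θ * a) + 2 * (a * b) / D := by
      have e1 : (i : ℝ) = a + Real.cos θ * D := by rw [ha]; ring
      have e2 : (j : ℝ) = b + Real.sin θ * D := by rw [hb]; ring
      rw [e1, e2, Real.sin_two_mul]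
      field_simp
      ring
    rw [key]
    refine (abs_add3 _ _ _).trans ?_
    rw [abs_neg]
    have t1 : |2 * (Real.cos θ * b + Real.sin θ * a)| ≤ 3 * ε := by
      rw [abs_mul, abs_of_pos (by norm_num : (0 : ℝ) < 2)]
      have := abs_add_le (Real.cos θ * b) (Real.sin θ * a)
      rw [abs_mul, abs_mul] at this
      have u1 : |Real.cos θ| * |b| ≤ |Real.cos θ| * ε := by gcongr
      have u2 : |Real.sin θ| * |a| ≤ |Real.sin θ| * ε := by gcongr
      nlinarith
    have t2 : |2 * (a * b) / D| ≤ 1 := by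
      rw [abs_div, abs_of_pos hDpos, abs_mul, abs_mul, abs_of_pos (by norm_num : (0 : ℝ) < 2)]
      have u1 : |a| * |b| ≤ ε * ε := mul_le_mul ei ej (abs_nonneg _) hε0
      calc 2 * (|a| * |b|) / D ≤ 2 * (ε * ε) / D := by gcongr
        _ = ε * ε / D + ε * ε / D := by ring
        _ ≤ 1 := by linarith
    linarith

def cs5 (c : ℕ) : ℕ × ℕ := dbl (dbl (dbl (dbl (dbl (cs0 (Nat.mul c 2048))))))

def scos (c : ℕ) : S := ⟨sh16 (cs5 c).1, 2,
  Nat.add 8589934592 (Nat.mul (Nat.div c 34359738369) 28948022309329048855892746252171976963317496166410141009864396001978282409984)⟩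

def ssin (c : ℕ) : S := ⟨sh16 (cs5 c).2, 2,
  Nat.add 8589934592 (Nat.mul (Nat.div c 34359738369) 28948022309329048855892746252171976963317496166410141009864396001978282409984)⟩

lemma cs5_rep {c : ℕ} (hc : c ≤ 34359738368) : RepCS (cs5 c) ((c : ℝ) / 4294967296) 22112 := by
  set w : ℝ := (c : ℝ) / 4294967296 / 32 with hw
  have h0 : 0 ≤ w := by positivity
  have hcr : (c : ℝ) ≤ 34359738368 := by exact_mod_cast hc
  have h1 : w ≤ 1 / 4 := by
    rw [hw, div_div, div_le_iff₀ (by norm_num)]; linarith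
  have hW : ((Nat.mul c 2048 : ℕ) : ℝ) = w * 281474976710656 := by
    change ((c * 2048 : ℕ) : ℝ) = _
    push_cast; rw [hw]; ring
  have g0 := cs0_rep h0 h1 hW
  have g1 := dbl_rep (by norm_num) g0
  have g2 := dbl_rep (by norm_num) g1
  have g3 := dbl_rep (by norm_num) g2
  have g4 := dbl_rep (by norm_num) g3
  have g5 := dbl_rep (by norm_num) g4
  have e : 2 * (2 * (2 * (2 * (2 * w)))) = (c : ℝ) / 4294967296 := by rw [hw]; ring
  rw [e] at g5
  norm_num at g5
  exact g5

lemma s16_aux {v : ℕ} {i : ℤ} {r : ℝ} (hv : Cg v i) (hr : |r| ≤ 1)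
    (h : |(i : ℝ) - r * 281474976710656| ≤ 22112) :
    ∃ j : ℤ, Cg (sh16 v) j ∧ |j| ≤ 8589934592 ∧ |r * 4294967296 - j| ≤ ((2 : ℕ) : ℝ) := by
  have ai : |(i : ℝ)| ≤ 281474976732768 := by
    have : (i : ℝ) = (i - r * 281474976710656) + r * 281474976710656 := by ring
    rw [this]
    refine (abs_add_le _ _).trans ?_
    rw [abs_mul r, abs_of_pos (by norm_num : (0 : ℝ) < 281474976710656)]
    nlinarith
  have ai' : |i| ≤ 281474976732768 := by
    have : ((|i| : ℤ) : ℝ) ≤ ((281474976732768 : ℤ) : ℝ) := by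
      rw [Int.cast_abs]; push_cast; linarith
    exact_mod_cast this
  refine ⟨_, hv.sh16 (by linarith), ?_, ?_⟩
  · have h3 := fl_gen i (d := 65536) (by norm_num)
    set X : ℤ := i / ((65536 : ℕ) : ℤ)
    push_cast at h3
    have h4 : |(X : ℝ)| ≤ 8589934592 := by
      have : (X : ℝ) = -((i : ℝ) / 65536 - X) + i / 65536 := by ring
      rw [this]
      refine (abs_add_le _ _).trans ?_
      rw [abs_neg, abs_div, abs_of_pos (by norm_num : (0 : ℝ) < 65536)]
      have : |(i : ℝ)| / 65536 ≤ 281474976732768 / 65536 := by gcongr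
      linarith
    have : ((|X| : ℤ) : ℝ) ≤ ((8589934592 : ℤ) : ℝ) := by
      rw [Int.cast_abs]; push_cast; linarith
    exact_mod_cast this
  · have h3 := fl_gen i (d := 65536) (by norm_num)
    set X : ℤ := i / ((65536 : ℕ) : ℤ)
    push_cast at h3 ⊢
    have e : r * 4294967296 - X = ((i : ℝ) / 65536 - X) - (i - r * 281474976710656) / 65536 := by
      ring
    rw [e]
    refine (abs_sub _ _).trans ?_
    rw [abs_div ((i : ℝ) - _), abs_of_pos (by norm_num : (0 : ℝ) < 65536)]
    have : |(i : ℝ) - r * 281474976710656| / 65536 ≤ 22112 / 65536 := by gcongr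
    linarith

lemma trig_flag {c : ℕ} (hn : Nat.add 8589934592 (Nat.mul (Nat.div c 34359738369)
    28948022309329048855892746252171976963317496166410141009864396001978282409984) < 28948022309329048855892746252171976963317496166410141009864396001978282409984) :
    c ≤ 34359738368 := by
  change 8589934592 + (c / 34359738369) * 28948022309329048855892746252171976963317496166410141009864396001978282409984 < _ at hn
  by_contra h
  have : 1 ≤ c / 34359738369 := (Nat.one_le_div_iff (by norm_num)).mpr (by omega)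
  omega

lemma scos_rep (c : ℕ) : RepS (scos c) (Real.cos ((c : ℝ) / 4294967296)) := by
  intro hn
  have hc := trig_flag hn
  obtain ⟨i, j, hi, hj, ei, ej⟩ := cs5_rep hc
  obtain ⟨k, h1, h2, h3⟩ := s16_aux hi (Real.abs_cos_le_one _) ei
  exact ⟨k, h1, h2.trans (by exact_mod_cast Nat.le_add_right _ _), h3⟩

lemma ssin_rep (c : ℕ) : RepS (ssin c) (Real.sin ((c : ℝ) / 4294967296)) := by
  intro hn
  have hc := trig_flag hn
  obtain ⟨i, j, hi, hj, ei, ej⟩ := cs5_rep hc
  obtain ⟨k, h1, h2, h3⟩ := s16_aux hj (Real.abs_sin_le_one _) ej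
  exact ⟨k, h1, h2.trans (by exact_mod_cast Nat.le_add_right _ _), h3⟩

/-! ### logarithm -/

/-- `atanh` series step `1 / k + U T` -/
def ast (cst U t : ℕ) : ℕ := Nat.add cst (Nat.div (Nat.mul U t) 281474976710656)

lemma ast_near {k : ℕ} {cst U t : ℕ} {u r : ℝ} (h0 : 0 ≤ u) (h1 : u ≤ 1 / 9)
    (hU : |(U : ℝ) - u * 281474976710656| ≤ 2) (hk : 1 ≤ k)
    (hc : |(cst : ℝ) - 1 / k * 281474976710656| ≤ 1) (r0 : 0 ≤ r) (r1 : r ≤ 2)
    (hT : |(t : ℝ) - r * 281474976710656| ≤ 8) :
    |((ast cst U t : ℕ) : ℝ) - (1 / k + u * r) * 281474976710656| ≤ 8 ∧ 0 ≤ 1 / k + u * r ∧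
      1 / k + u * r ≤ 2 := by
  have hk' : (1 : ℝ) ≤ k := by exact_mod_cast hk
  have e1 : (1 : ℝ) / k ≤ 1 := by rw [div_le_one (by linarith)]; exact hk'
  have e2 : (0 : ℝ) ≤ 1 / k := by positivity
  have e3 : u * r ≤ 1 / 9 * 2 := by gcongr
  refine ⟨?_, by positivity, by linarith⟩
  change |((cst + U * t / 281474976710656 : ℕ) : ℝ) - _| ≤ 8
  have h2 := nat_div_near (U * t) (d := 281474976710656) (by norm_num)
  push_cast at h2 ⊢
  set X : ℝ := ((U * t / 281474976710656 : ℕ) : ℝ)
  have key : (cst : ℝ) + X - (1 / k + u * r) * 281474976710656 =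
      (cst - 1 / k * 281474976710656) + (-((U : ℝ) * t / 281474976710656 - X)) +
      (((U : ℝ) - u * 281474976710656) * t / 281474976710656 + u * (t - r * 281474976710656)) := by
    ring
  rw [key]
  refine (abs_add3 _ _ _).trans ?_
  rw [abs_neg]
  have ht : |(t : ℝ)| ≤ 2 * 281474976710656 + 8 := by
    have : (t : ℝ) = (t - r * 281474976710656) + r * 281474976710656 := by ring
    rw [this]
    refine (abs_add_le _ _).trans ?_
    rw [abs_of_nonneg (by positivity : 0 ≤ r * 281474976710656)]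
    linarith
  have t1 : |((U : ℝ) - u * 281474976710656) * t / 281474976710656| ≤ 5 := by
    rw [abs_div, abs_mul, abs_of_pos (by norm_num : (0 : ℝ) < 281474976710656),
      div_le_iff₀ (by norm_num)]
    have : |(U : ℝ) - u * 281474976710656| * |(t : ℝ)| ≤ 2 * (2 * 281474976710656 + 8) := by
      gcongr
    linarith
  have t2 : |u * (t - r * 281474976710656)| ≤ 1 / 9 * 8 := by
    rw [abs_mul, abs_of_nonneg h0]; gcongr
  have t3 := abs_add_le (((U : ℝ) - u * 281474976710656) * t / 281474976710656)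
    (u * (t - r * 281474976710656))
  linarith

lemma log_atanh {s : ℝ} (h0 : 0 ≤ s) (h1 : s ≤ 1 / 3) :
    |Real.log ((1 + s) / (1 - s)) - 2 * s * (1 / 1 + s ^ 2 * (1 / 3 + s ^ 2 * (1 / 5 + s ^ 2 *
      (1 / 7 + s ^ 2 * (1 / 9 + s ^ 2 * (1 / 11 + s ^ 2 * (1 / 13 + s ^ 2 * (1 / 15 + s ^ 2 *
        (1 / 17 + s ^ 2 * (1 / 19 + s ^ 2 * 0))))))))))| ≤ 90000 / 281474976710656 := by
  rw [Real.log_div (by linarith) (by linarith)]
  have g1 := Real.abs_log_sub_add_sum_range_le (x := s) (by rw [abs_of_nonneg h0]; linarith) 20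
  have g2 := Real.abs_log_sub_add_sum_range_le (x := -s)
    (by rw [abs_neg, abs_of_nonneg h0]; linarith) 20
  rw [abs_neg, abs_of_nonneg h0, sub_neg_eq_add] at g2
  rw [abs_of_nonneg h0] at g1
  have g3 : s ^ (20 + 1) / (1 - s) ≤ 45000 / 281474976710656 := by
    have u1 : s ^ (20 + 1) ≤ (1 / 3) ^ (20 + 1) := by gcongr
    have u2 : (2 : ℝ) / 3 ≤ 1 - s := by linarith
    calc s ^ (20 + 1) / (1 - s) ≤ (1 / 3) ^ (20 + 1) / (2 / 3) := by gcongr
      _ ≤ 45000 / 281474976710656 := by norm_num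
  have key : Real.log (1 + s) - Real.log (1 - s) - 2 * s * (1 / 1 + s ^ 2 * (1 / 3 + s ^ 2 *
      (1 / 5 + s ^ 2 *
      (1 / 7 + s ^ 2 * (1 / 9 + s ^ 2 * (1 / 11 + s ^ 2 * (1 / 13 + s ^ 2 * (1 / 15 + s ^ 2 *
        (1 / 17 + s ^ 2 * (1 / 19 + s ^ 2 * 0)))))))))) =
      (∑ i ∈ Finset.range 20, (-s) ^ (i + 1) / ((i : ℝ) + 1) + Real.log (1 + s)) -
      (∑ i ∈ Finset.range 20, s ^ (i + 1) / ((i : ℝ) + 1) + Real.log (1 - s)) := by
    norm_num [Finset.sum_range_succ]
    ring
  rw [key]
  refine (abs_sub _ _).trans ?_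
  linarith

def ath (U : ℕ) : ℕ := ast 281474976710656 U (ast 93824992236885 U (ast 56294995342131 U
  (ast 40210710958665 U (ast 31274997412295 U (ast 25588634246423 U (ast 21651921285435 U
    (ast 18764998447377 U (ast 16557351571215 U (ast 14814472458455 U 0)))))))))

/-- `log ((1 + s) / (1 - s))`, `s = W / 2 ^ 48` -/
def ln1 (W : ℕ) : ℕ :=
  Nat.div (Nat.mul (Nat.mul 2 W) (ath (Nat.div (Nat.mul W W) 281474976710656))) 281474976710656

lemma ln1_near {W : ℕ} {s : ℝ} (h0 : 0 ≤ s) (h1 : s ≤ 1 / 3)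
    (hW : |(W : ℝ) - s * 281474976710656| ≤ 1) :
    |((ln1 W : ℕ) : ℝ) - Real.log ((1 + s) / (1 - s)) * 281474976710656| ≤ 90020 := by
  have hU := nat_div_near (W * W) (d := 281474976710656) (by norm_num)
  push_cast at hU
  set U : ℕ := Nat.div (Nat.mul W W) 281474976710656 with hUdef
  have hWa : |(W : ℝ)| ≤ 1 / 3 * 281474976710656 + 1 := by
    have : (W : ℝ) = (W - s * 281474976710656) + s * 281474976710656 := by ring
    rw [this]
    refine (abs_add_le _ _).trans ?_
    rw [abs_of_nonneg (by positivity : 0 ≤ s * 281474976710656)]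
    linarith
  have hU' : |(U : ℝ) - s ^ 2 * 281474976710656| ≤ 2 := by
    have e : (U : ℝ) - s ^ 2 * 281474976710656 = -((W : ℝ) * W / 281474976710656 - U) +
      ((W : ℝ) - s * 281474976710656) * (W + s * 281474976710656) / 281474976710656 := by ring
    rw [e]
    refine (abs_add_le _ _).trans ?_
    rw [abs_neg]
    have : |((W : ℝ) - s * 281474976710656) * (W + s * 281474976710656) / 281474976710656| ≤ 1 := by
      rw [abs_div, abs_mul, abs_of_pos (by norm_num : (0 : ℝ) < 281474976710656),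
        div_le_one (by norm_num)]
      have u1 : |(W : ℝ) + s * 281474976710656| ≤ 281474976710656 := by
        refine (abs_add_le _ _).trans ?_
        rw [abs_of_nonneg (by positivity : 0 ≤ s * 281474976710656)]
        linarith
      calc |(W : ℝ) - s * 281474976710656| * |(W : ℝ) + s * 281474976710656| ≤
          1 * 281474976710656 := by gcongr
        _ = 281474976710656 := by ring
    change |(W : ℝ) * W / 281474976710656 - U| ≤ 1 at hU
    linarith
  have u0 : 0 ≤ s ^ 2 := by positivity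
  have u1 : s ^ 2 ≤ 1 / 9 := by nlinarith
  obtain ⟨a9, b9, c9⟩ := ast_near (k := 19) (cst := 14814472458455) (t := 0) (r := 0) u0 u1 hU'
    (by norm_num) (by rw [abs_le]; constructor <;> norm_num) le_rfl (by norm_num) (by norm_num)
  obtain ⟨a8, b8, c8⟩ := ast_near (k := 17) (cst := 16557351571215) u0 u1 hU'
    (by norm_num) (by rw [abs_le]; constructor <;> norm_num) b9 c9 a9
  obtain ⟨a7, b7, c7⟩ := ast_near (k := 15) (cst := 18764998447377) u0 u1 hU'
    (by norm_num) (by rw [abs_le]; constructor <;> norm_num) b8 c8 a8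
  obtain ⟨a6, b6, c6⟩ := ast_near (k := 13) (cst := 21651921285435) u0 u1 hU'
    (by norm_num) (by rw [abs_le]; constructor <;> norm_num) b7 c7 a7
  obtain ⟨a5, b5, c5⟩ := ast_near (k := 11) (cst := 25588634246423) u0 u1 hU'
    (by norm_num) (by rw [abs_le]; constructor <;> norm_num) b6 c6 a6
  obtain ⟨a4, b4, c4⟩ := ast_near (k := 9) (cst := 31274997412295) u0 u1 hU'
    (by norm_num) (by rw [abs_le]; constructor <;> norm_num) b5 c5 a5
  obtain ⟨a3, b3, c3⟩ := ast_near (k := 7) (cst := 40210710958665) u0 u1 hU'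
    (by norm_num) (by rw [abs_le]; constructor <;> norm_num) b4 c4 a4
  obtain ⟨a2, b2, c2⟩ := ast_near (k := 5) (cst := 56294995342131) u0 u1 hU'
    (by norm_num) (by rw [abs_le]; constructor <;> norm_num) b3 c3 a3
  obtain ⟨a1, b1, c1⟩ := ast_near (k := 3) (cst := 93824992236885) u0 u1 hU'
    (by norm_num) (by rw [abs_le]; constructor <;> norm_num) b2 c2 a2
  obtain ⟨a0, b0, c0⟩ := ast_near (k := 1) (cst := 281474976710656) u0 u1 hU'
    (by norm_num) (by rw [abs_le]; constructor <;> norm_num) b1 c1 a1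
  have tl := log_atanh h0 h1
  push_cast at a0 b0 c0
  set r := (1 / 1 + s ^ 2 * (1 / 3 + s ^ 2 * (1 / 5 + s ^ 2 *
      (1 / 7 + s ^ 2 * (1 / 9 + s ^ 2 * (1 / 11 + s ^ 2 * (1 / 13 + s ^ 2 * (1 / 15 + s ^ 2 *
        (1 / 17 + s ^ 2 * (1 / 19 + s ^ 2 * 0)))))))))) with hr
  set L := Real.log ((1 + s) / (1 - s))
  set t := ath U with ht
  change |((t : ℕ) : ℝ) - _| ≤ 8 at a0
  have h2 := nat_div_near (2 * W * t) (d := 281474976710656) (by norm_num)
  change |((2 * W * t / 281474976710656 : ℕ) : ℝ) - _| ≤ 90020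
  set X : ℝ := ((2 * W * t / 281474976710656 : ℕ) : ℝ)
  push_cast at h2
  have e : X - L * 281474976710656 =
    -(2 * W * t / 281474976710656 - X) +
      (2 * (W - s * 281474976710656) * t / 281474976710656 +
      2 * s * (t - r * 281474976710656)) -
      (L - 2 * s * r) * 281474976710656 := by ring
  rw [e]
  refine (abs_sub _ _).trans ?_
  have e5 := abs_add3 (-(2 * W * t / 281474976710656 - X))
    (2 * (W - s * 281474976710656) * t / 281474976710656) (2 * s * (t - r * 281474976710656))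
  rw [abs_neg, add_assoc] at e5
  have hta : |(t : ℝ)| ≤ 2 * 281474976710656 + 8 := by
    have : (t : ℝ) = (t - r * 281474976710656) + r * 281474976710656 := by ring
    rw [this]
    refine (abs_add_le _ _).trans ?_
    rw [abs_of_nonneg (by positivity : 0 ≤ r * 281474976710656)]
    linarith
  have t3 : |2 * ((W : ℝ) - s * 281474976710656) * t / 281474976710656| ≤ 5 := by
    rw [abs_div, abs_mul, abs_mul, abs_of_pos (by norm_num : (0 : ℝ) < 281474976710656),
      div_le_iff₀ (by norm_num), abs_of_pos (by norm_num : (0 : ℝ) < 2)]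
    calc 2 * |(W : ℝ) - s * 281474976710656| * |(t : ℝ)| ≤
        2 * 1 * (2 * 281474976710656 + 8) := by gcongr
      _ ≤ 5 * 281474976710656 := by norm_num
  have t4 : |2 * s * (t - r * 281474976710656)| ≤ 2 * (1 / 3) * 8 := by
    rw [abs_mul, abs_of_nonneg (by positivity : 0 ≤ 2 * s)]
    gcongr
  have t1 : |(L - 2 * s * r) * 281474976710656| ≤ 90000 := by
    rw [abs_mul, abs_of_pos (by norm_num : (0 : ℝ) < 281474976710656)]
    have : |L - 2 * s * r| * 281474976710656 ≤
      90000 / 281474976710656 * 281474976710656 := by gcongr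
    linarith
  linarith

/-- `log (c / 2 ^ 32)` for `2 ^ 8 ≤ c < 2 ^ 41` -/
def slog (c : ℕ) : S :=
  ⟨sh16 (Nat.add (Nat.add (ln1 (Nat.div (Nat.mul (Nat.sub c (Nat.pow 2 (Nat.log2 c)))
      281474976710656) (Nat.add c (Nat.pow 2 (Nat.log2 c)))))
      (Nat.mul (Nat.log2 c) 195103586505167))
      (Nat.mul (Nat.mul 32 195103586505167) 115792089237316195423570985008687907853269984665640564039457584007913129639935)), 16,
    Nat.add 1099511627776 (Nat.mul (Nat.add (Nat.sub 8 (Nat.log2 c)) (Nat.sub (Nat.log2 c) 40))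
      28948022309329048855892746252171976963317496166410141009864396001978282409984)⟩

lemma slog_rep (c : ℕ) : RepS (slog c) (Real.log ((c : ℝ) / 4294967296)) := by
  intro hn
  change 1099511627776 + (8 - Nat.log2 c + (Nat.log2 c - 40)) *
    28948022309329048855892746252171976963317496166410141009864396001978282409984 < _ at hn
  set K := Nat.log2 c with hK
  have hK8 : 8 ≤ K := by
    by_contra h
    have : 1 ≤ 8 - K + (K - 40) := by omega
    omega
  have hK40 : K ≤ 40 := by
    by_contra h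
    have : 1 ≤ 8 - K + (K - 40) := by omega
    omega
  have hc0 : c ≠ 0 := by
    rintro rfl
    rw [hK] at hK8
    simp at hK8
  have p1 : 2 ^ K ≤ c := Nat.log2_self_le hc0
  have p2 : c < 2 ^ (K + 1) := Nat.lt_log2_self
  set p : ℕ := 2 ^ K with hp
  have p2' : c < 2 * p := by rw [pow_succ] at p2; omega
  have hp0 : 0 < p := by positivity
  have hpr : (0 : ℝ) < p := by exact_mod_cast hp0
  have q1 : (p : ℝ) ≤ c := by exact_mod_cast p1
  have q2 : (c : ℝ) < 2 * p := by exact_mod_cast p2'
  set s : ℝ := ((c : ℝ) - p) / (c + p) with hs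
  have s0 : 0 ≤ s := div_nonneg (by linarith) (by linarith)
  have s1 : s ≤ 1 / 3 := by
    rw [hs, div_le_iff₀ (by linarith)]; linarith
  set W : ℕ := (c - p) * 281474976710656 / (c + p) with hWdef
  have hW : |(W : ℝ) - s * 281474976710656| ≤ 1 := by
    have h := nat_div_near ((c - p) * 281474976710656) (d := c + p) (by omega)
    rw [abs_sub_comm] at h
    push_cast [Nat.cast_sub p1] at h
    have e : s * 281474976710656 = ((c : ℝ) - p) * 281474976710656 / (c + p) := by
      rw [hs]; ring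
    rw [e]
    exact h
  have hl := ln1_near s0 s1 hW
  have e1 : (1 + s) / (1 - s) = c / p := by
    have hcp : (c : ℝ) + p ≠ 0 := by linarith
    have hp' : (p : ℝ) ≠ 0 := hpr.ne'
    have h1 : 1 + s = 2 * c / (c + p) := by rw [hs]; field_simp; ring
    have h2 : 1 - s = 2 * p / (c + p) := by rw [hs]; field_simp; ring
    rw [h1, h2]
    field_simp
  rw [e1] at hl
  have e2 : Real.log ((c : ℝ) / 4294967296) =
      Real.log (c / p) + ((K : ℝ) - 32) * Real.log 2 := by
    have hcr : (0 : ℝ) < c := by linarith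
    rw [Real.log_div hcr.ne' (by norm_num), Real.log_div hcr.ne' hpr.ne']
    have e3 : Real.log (p : ℝ) = K * Real.log 2 := by
      rw [hp]; push_cast; rw [Real.log_pow]
    have e4 : Real.log 4294967296 = 32 * Real.log 2 := by
      have : (4294967296 : ℝ) = 2 ^ 32 := by norm_num
      rw [this, Real.log_pow]; push_cast; ring
    rw [e3, e4]; ring
  have hl2 : |(195103586505167 : ℝ) - Real.log 2 * 281474976710656| ≤ 28772 := by
    have := Real.log_two_near_10
    rw [abs_le] at this ⊢
    constructor <;> linarith [this.1, this.2]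
  -- the integer before shifting
  set A : ℤ := (ln1 W : ℤ) + K * 195103586505167 + -(32 * 195103586505167) with hA
  have hcg : Cg (Nat.add (Nat.add (ln1 W) (Nat.mul K 195103586505167))
      (Nat.mul (Nat.mul 32 195103586505167) 115792089237316195423570985008687907853269984665640564039457584007913129639935)) A := by
    have h1 := ((Cg.ofNat (ln1 W)).add ((Cg.ofNat K).mul (Cg.ofNat 195103586505167))).add
      (((Cg.ofNat 32).mul (Cg.ofNat 195103586505167)).neg)
    exact h1
  have hKr : |(K : ℝ) - 32| ≤ 24 := by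
    have k1 : (8 : ℝ) ≤ K := by exact_mod_cast hK8
    have k2 : (K : ℝ) ≤ 40 := by exact_mod_cast hK40
    rw [abs_le]; constructor <;> linarith
  have hAr : |(A : ℝ) - Real.log ((c : ℝ) / 4294967296) * 281474976710656| ≤ 800000 := by
    have : (A : ℝ) - Real.log ((c : ℝ) / 4294967296) * 281474976710656 =
        (((ln1 W : ℕ) : ℝ) - Real.log (c / p) * 281474976710656) +
        ((K : ℝ) - 32) * (195103586505167 - Real.log 2 * 281474976710656) := by
      rw [e2, hA]; push_cast; ring
    rw [this]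
    refine (abs_add_le _ _).trans ?_
    rw [abs_mul]
    have : |(K : ℝ) - 32| * |(195103586505167 : ℝ) - Real.log 2 * 281474976710656| ≤
      24 * 28772 := by gcongr
    linarith
  have hlog : |Real.log ((c : ℝ) / 4294967296)| ≤ 24 := by
    rw [e2]
    refine (abs_add_le _ _).trans ?_
    rw [abs_mul]
    have l2 : |Real.log 2| ≤ 7 / 10 := by
      rw [abs_of_pos (Real.log_pos (by norm_num))]
      have := Real.log_two_lt_d9; linarith
    have l3 : |Real.log ((c : ℝ) / p)| ≤ 1 := by
      have h1 : 1 ≤ (c : ℝ) / p := by rw [le_div_iff₀ hpr]; linarith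
      have h2 : (c : ℝ) / p ≤ 2 := by rw [div_le_iff₀ hpr]; linarith
      rw [abs_of_nonneg (Real.log_nonneg h1)]
      have := Real.log_le_log (by linarith) h2
      have := Real.log_two_lt_d9
      linarith
    have : |(K : ℝ) - 32| * |Real.log 2| ≤ 24 * (7 / 10) := by gcongr
    linarith
  have hAabs : |(A : ℝ)| ≤ 7000000000000000 := by
    have : (A : ℝ) = (A - Real.log ((c : ℝ) / 4294967296) * 281474976710656) +
      Real.log ((c : ℝ) / 4294967296) * 281474976710656 := by ring
    rw [this]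
    refine (abs_add_le _ _).trans ?_
    rw [abs_mul (Real.log _), abs_of_pos (by norm_num : (0 : ℝ) < 281474976710656)]
    nlinarith
  have hAi : |A| ≤ 7000000000000000 := by
    have : ((|A| : ℤ) : ℝ) ≤ ((7000000000000000 : ℤ) : ℝ) := by
      rw [Int.cast_abs]; push_cast; linarith
    exact_mod_cast this
  refine ⟨_, hcg.sh16 (by linarith), ?_, ?_⟩
  · have h3 := fl_gen A (d := 65536) (by norm_num)
    set X : ℤ := A / ((65536 : ℕ) : ℤ)
    push_cast at h3
    have h4 : |(X : ℝ)| ≤ 1099511627776 := by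
      have : (X : ℝ) = -((A : ℝ) / 65536 - X) + A / 65536 := by ring
      rw [this]
      refine (abs_add_le _ _).trans ?_
      rw [abs_neg, abs_div, abs_of_pos (by norm_num : (0 : ℝ) < 65536)]
      have : |(A : ℝ)| / 65536 ≤ 7000000000000000 / 65536 := by gcongr
      linarith
    have h5 : |X| ≤ 1099511627776 := by
      have : ((|X| : ℤ) : ℝ) ≤ ((1099511627776 : ℤ) : ℝ) := by
        rw [Int.cast_abs]; push_cast; linarith
      exact_mod_cast this
    exact h5.trans (by exact_mod_cast Nat.le_add_right _ _)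
  · have h3 := fl_gen A (d := 65536) (by norm_num)
    set X : ℤ := A / ((65536 : ℕ) : ℤ)
    change |_ - (X : ℝ)| ≤ ((16 : ℕ) : ℝ)
    push_cast at h3 ⊢
    have e : Real.log ((c : ℝ) / 4294967296) * 4294967296 - X = ((A : ℝ) / 65536 - X) -
        (A - Real.log ((c : ℝ) / 4294967296) * 281474976710656) / 65536 := by
      ring
    rw [e]
    refine (abs_sub _ _).trans ?_
    rw [abs_div ((A : ℝ) - _), abs_of_pos (by norm_num : (0 : ℝ) < 65536)]
    have : |(A : ℝ) - Real.log ((c : ℝ) / 4294967296) * 281474976710656| / 65536 ≤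
      800000 / 65536 := by gcongr
    linarith

end Crest.Agent.R163.TM
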